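import Vale.Agent.P018.K.Defs

/-! # P018, K-method, module K10: admissibility for `k ≥ (1/4 + ε) d`. -/

namespace Vale.Agent.P018.K

open Polynomial

theorem asym_vand (r : ℕ) :
    ∑ j ∈ Finset.Icc 1 r, r.choose j * r.choose (j - 1) = (2 * r).choose (r + 1) := by
  rw [two_mul, Nat.add_choose_eq,
    Finset.Nat.sum_antidiagonal_eq_sum_range_succ (fun a b => r.choose a * r.choose b)]
  have hsub : Finset.Icc 1 r ⊆ Finset.range (r + 1).succ := by
    intro j hj
    rw [Finset.mem_Icc] at hj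
    rw [Finset.mem_range]
    omega
  rw [← Finset.sum_subset hsub (f := fun j => r.choose j * r.choose (r + 1 - j))]
  · refine Finset.sum_congr rfl fun j hj => ?_
    rw [Finset.mem_Icc] at hj
    rw [Nat.choose_symm_of_eq_add (show r = (r + 1 - j) + (j - 1) by omega)]
  · intro j hj hj'
    rw [Finset.mem_range] at hj
    rw [Finset.mem_Icc] at hj'
    rcases Nat.eq_zero_or_pos j with h0 | h0
    · subst h0
      simp
    · have : j = r + 1 := by omega
      subst this
      simp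

/-- closed form of the integral for `m = 0` -/
theorem Jint_zero (r k : ℕ) (hr : 1 ≤ r) (w : ℝ) (hw : 0 < w) :
    Jint r 0 w k = (Nat.choose (2 * r) (r + 1) : ℝ) * w * (k : ℝ) ^ (r + 1) / (r + 1).factorial := by
  have hint : ∀ j ∈ Finset.Icc 1 r,
      ∫ u in (0 : ℝ)..k, u ^ (j - 1) * (max (w * u - 0) 0) ^ (r - j + 1) =
        w ^ (r - j + 1) * ((k : ℝ) ^ (r + 1) / (r + 1)) := by
    intro j hj
    rw [Finset.mem_Icc] at hj
    have h1 : ∫ u in (0 : ℝ)..k, u ^ (j - 1) * (max (w * u - 0) 0) ^ (r - j + 1) =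
        ∫ u in (0 : ℝ)..k, w ^ (r - j + 1) * u ^ r := by
      refine intervalIntegral.integral_congr fun u hu => ?_
      rw [Set.uIcc_of_le (Nat.cast_nonneg k)] at hu
      have hu0 : 0 ≤ w * u - 0 := by
        rw [sub_zero]
        exact mul_nonneg hw.le hu.1
      change u ^ (j - 1) * (max (w * u - 0) 0) ^ (r - j + 1) = w ^ (r - j + 1) * u ^ r
      rw [max_eq_left hu0, sub_zero, mul_pow]
      have h2 : u ^ r = u ^ (j - 1) * u ^ (r - j + 1) := by
        rw [← pow_add]
        congr 1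
        omega
      rw [h2]
      ring
    rw [h1, intervalIntegral.integral_const_mul, integral_pow]
    congr 1
    rw [zero_pow (Nat.succ_ne_zero r), sub_zero]
  rw [Jint]
  have hterm : ∀ j ∈ Finset.Icc 1 r,
      (r.choose j : ℝ) / ((j - 1).factorial * (r - j + 1).factorial * w ^ (r - j)) *
        ∫ u in (0 : ℝ)..k, u ^ (j - 1) * (max (w * u - 0) 0) ^ (r - j + 1) =
      ((r.choose j * r.choose (j - 1) : ℕ) : ℝ) *
        (w * (k : ℝ) ^ (r + 1) / (r + 1).factorial) := by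
    intro j hj
    rw [hint j hj]
    rw [Finset.mem_Icc] at hj
    have hf : (r.choose (j - 1) : ℝ) * (j - 1).factorial * (r - j + 1).factorial =
        r.factorial := by
      have := Nat.choose_mul_factorial_mul_factorial (show j - 1 ≤ r by omega)
      rw [show r - (j - 1) = r - j + 1 by omega] at this
      exact_mod_cast this
    have h1 : ((j - 1).factorial : ℝ) ≠ 0 := by exact_mod_cast Nat.factorial_ne_zero _
    have h2 : ((r - j + 1).factorial : ℝ) ≠ 0 := by exact_mod_cast Nat.factorial_ne_zero _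
    have h3 : w ^ (r - j) ≠ 0 := pow_ne_zero _ hw.ne'
    have h4 : (r.factorial : ℝ) ≠ 0 := by exact_mod_cast Nat.factorial_ne_zero _
    have h5 : ((r : ℝ) + 1) ≠ 0 := by positivity
    rw [Nat.factorial_succ r, pow_succ w (r - j)]
    push_cast
    rw [← hf]
    have h6 : (r.choose (j - 1) : ℝ) ≠ 0 := by
      intro h
      rw [h] at hf
      simp only [zero_mul] at hf
      exact h4 hf.symm
    field_simp
  rw [Finset.sum_congr rfl hterm, ← Finset.sum_mul, ← Nat.cast_sum, asym_vand]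
  ring

/-- the explicit criterion -/
theorem adm_of_choose (d k r : ℕ) (hk : 1 ≤ k) (hkd : k ≤ d) (hr : 1 ≤ r) (hrk : r < k)
    (h : (d : ℝ) ^ (r + 1) < (Nat.choose (2 * r) (r + 1) : ℝ) * (1 - r / k) ^ r * (k : ℝ) ^ (r + 1))
    (a : ℝ) (ha : 1 ≤ a) (ha2 : a ≤ (d : ℝ) / k) : Adm d k a := by
  have hkR : (0 : ℝ) < k := by exact_mod_cast hk
  have hdR : (0 : ℝ) < d := by exact_mod_cast (lt_of_lt_of_le hk hkd)
  have hrR : (0 : ℝ) < r := by exact_mod_cast hr
  have hrkR : (r : ℝ) < k := by exact_mod_cast hrk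
  set s0 : ℝ := 1 - r / k with hs0
  have hs0pos : 0 < s0 := by
    rw [hs0, sub_pos, div_lt_one hkR]
    exact hrkR
  have hs0lt : s0 < 1 := by
    rw [hs0]
    have : (0 : ℝ) < r / k := by positivity
    linarith
  have hcont : Filter.Tendsto
      (fun s : ℝ => (Nat.choose (2 * r) (r + 1) : ℝ) * s ^ r * (k : ℝ) ^ (r + 1))
      (nhdsWithin s0 (Set.Iio s0))
      (nhds ((Nat.choose (2 * r) (r + 1) : ℝ) * s0 ^ r * (k : ℝ) ^ (r + 1))) := by
    apply Filter.Tendsto.mono_left _ nhdsWithin_le_nhds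
    exact Continuous.tendsto (by fun_prop) s0
  have hev := hcont.eventually (lt_mem_nhds h)
  have hev2 : ∀ᶠ s in nhdsWithin s0 (Set.Iio s0), 0 < s :=
    nhdsWithin_le_nhds (lt_mem_nhds hs0pos)
  have hev3 : ∀ᶠ s in nhdsWithin s0 (Set.Iio s0), s < s0 := self_mem_nhdsWithin
  obtain ⟨s, ⟨hs1, hs2⟩, hs3⟩ := ((hev.and hev2).and hev3).exists
  refine ⟨r, 0, s / d, hr, (hrk.le.trans hkd), le_rfl, one_pos, by positivity, ?_, ?_, ?_⟩
  · exact div_lt_div_of_pos_right (by linarith) hdR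
  · have h1 : a * r / d ≤ r / k := by
      rw [div_le_div_iff₀ hdR hkR]
      rw [le_div_iff₀ hkR] at ha2
      nlinarith
    have h2 : s / d * (d - r) ≤ s := by
      rw [div_mul_eq_mul_div, div_le_iff₀ hdR]
      nlinarith
    have h3 : s < 1 - r / k := hs3
    linarith
  · rw [Jint_zero r k hr (a / d) (by positivity)]
    have hfac : (0 : ℝ) < (r + 1).factorial := by exact_mod_cast Nat.factorial_pos _
    rw [sub_zero, one_pow, div_pow]
    have hC : (0 : ℝ) < (Nat.choose (2 * r) (r + 1) : ℝ) := by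
      exact_mod_cast Nat.choose_pos (by omega)
    have e1 : (1 : ℝ) / ((r + 1).factorial * (s ^ r / (d : ℝ) ^ r)) =
        ((d : ℝ) ^ (r + 1)) / ((r + 1).factorial * (s ^ r * d)) := by
      rw [pow_succ]
      field_simp
    have e2 : (Nat.choose (2 * r) (r + 1) : ℝ) * (a / d) * (k : ℝ) ^ (r + 1) / (r + 1).factorial =
        (Nat.choose (2 * r) (r + 1) : ℝ) * a * s ^ r * (k : ℝ) ^ (r + 1) /
          ((r + 1).factorial * (s ^ r * d)) := by
      field_simp
    rw [e1, e2]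
    refine div_lt_div_of_pos_right (hs1.trans_le ?_) (by positivity)
    have h5 : 0 ≤ (Nat.choose (2 * r) (r + 1) : ℝ) * s ^ r * (k : ℝ) ^ (r + 1) := by positivity
    nlinarith

theorem asym_choose_lower (r : ℕ) (hr : 1 ≤ r) :
    (4 : ℝ) ^ r ≤ 4 * r * (Nat.choose (2 * r) (r + 1) : ℝ) := by
  have h1 := Nat.four_pow_le_two_mul_self_mul_centralBinom r hr
  have h2 : (2 * r).choose (r + 1) * (r + 1) = (2 * r).choose r * r := by
    have := Nat.choose_succ_right_eq (2 * r) r
    rwa [show 2 * r - r = r by omega] at this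
  rw [Nat.centralBinom_eq_two_mul_choose] at h1
  have h3 : (2 * r).choose r ≤ 2 * (2 * r).choose (r + 1) := by
    have h4 : r * (2 * r).choose r ≤ r * (2 * (2 * r).choose (r + 1)) := by nlinarith
    exact Nat.le_of_mul_le_mul_left h4 hr
  have h5 : 4 ^ r ≤ 4 * r * (2 * r).choose (r + 1) := by nlinarith
  exact_mod_cast h5

/-- for large degree every `k ≥ (1/4 + ε) d` satisfies the explicit criterion -/
theorem exists_r_of_quarter (ε : ℝ) (hε : 0 < ε) :
    ∃ d0 : ℕ, ∀ d k : ℕ, d0 ≤ d → (1 / 4 + ε) * d ≤ k → k ≤ d →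
      ∃ r : ℕ, 1 ≤ r ∧ r < k ∧
        (d : ℝ) ^ (r + 1) < (Nat.choose (2 * r) (r + 1) : ℝ) * (1 - r / k) ^ r * (k : ℝ) ^ (r + 1) := by
  set q : ℝ := (1 / 4 + ε)⁻¹ with hq
  have hq0 : 0 < q := by positivity
  have hq4 : q / 4 < 1 := by
    rw [hq, div_lt_one (by norm_num), inv_lt_comm₀ (by positivity) (by norm_num)]
    linarith
  have ht := tendsto_self_mul_const_pow_of_lt_one (by positivity : (0 : ℝ) ≤ q / 4) hq4
  have hev := ht.eventually (gt_mem_nhds (show (0 : ℝ) < 1 / (8 * q) by positivity))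
  obtain ⟨r, hr1, hr2⟩ := (hev.and (Filter.eventually_ge_atTop 1)).exists
  refine ⟨8 * r ^ 2 + 4 * r + 4, fun d k hd hk hkd => ⟨r, hr2, ?_, ?_⟩⟩
  · have h1 : ((8 * r ^ 2 + 4 * r + 4 : ℕ) : ℝ) ≤ d := by exact_mod_cast hd
    have h2 : (r : ℝ) < k := by
      push_cast at h1
      nlinarith [sq_nonneg (r : ℝ)]
    exact_mod_cast h2
  · have h1 : ((8 * r ^ 2 + 4 * r + 4 : ℕ) : ℝ) ≤ d := by exact_mod_cast hd
    push_cast at h1
    have hrR : (1 : ℝ) ≤ r := by exact_mod_cast hr2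
    have hk2 : 2 * (r : ℝ) ^ 2 + r + 1 ≤ k := by nlinarith
    have hk0 : (0 : ℝ) < k := by nlinarith
    have hdq : (d : ℝ) ≤ q * k := by
      rw [hq, inv_mul_eq_div, le_div_iff₀ (by positivity)]
      linarith
    have hb : (1 / 2 : ℝ) ≤ (1 - r / k) ^ r := by
      have h3 : (r : ℝ) / k ≤ 1 := by
        rw [div_le_one hk0]
        nlinarith
      have h4 := one_add_mul_le_pow (show (-2 : ℝ) ≤ -(r / k) by linarith) r
      have h5 : (r : ℝ) * (r / k) ≤ 1 / 2 := by
        rw [mul_div_assoc', div_le_iff₀ hk0]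
        nlinarith
      rw [sub_eq_add_neg]
      refine le_trans ?_ h4
      linarith
    have hC := asym_choose_lower r hr2
    have hC0 : 0 ≤ (Nat.choose (2 * r) (r + 1) : ℝ) := Nat.cast_nonneg _
    have hk' : 0 < (k : ℝ) ^ (r + 1) := by positivity
    have h6 : (d : ℝ) ^ (r + 1) ≤ q ^ (r + 1) * (k : ℝ) ^ (r + 1) := by
      rw [← mul_pow]
      exact pow_le_pow_left₀ (Nat.cast_nonneg d) hdq _
    have h7 : q ^ (r + 1) < (Nat.choose (2 * r) (r + 1) : ℝ) * (1 / 2) := by
      have h8 : (r : ℝ) * (q / 4) ^ r * (8 * q) < 1 := by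
        rwa [lt_div_iff₀ (by positivity)] at hr1
      rw [div_pow, ← mul_div_assoc, div_mul_eq_mul_div, div_lt_one (by positivity)] at h8
      have h9 : 8 * r * q ^ (r + 1) < 4 * r * (Nat.choose (2 * r) (r + 1) : ℝ) := by
        rw [pow_succ]
        nlinarith
      have h10 : 0 < 8 * (r : ℝ) := by positivity
      nlinarith
    calc (d : ℝ) ^ (r + 1) ≤ q ^ (r + 1) * (k : ℝ) ^ (r + 1) := h6
      _ < (Nat.choose (2 * r) (r + 1) : ℝ) * (1 / 2) * (k : ℝ) ^ (r + 1) :=
          mul_lt_mul_of_pos_right h7 hk'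
      _ ≤ _ := by
          refine mul_le_mul_of_nonneg_right ?_ hk'.le
          exact mul_le_mul_of_nonneg_left hb hC0

end Vale.Agent.P018.K
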