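import Vale.Agent.P018.K.Defs

/-! # P018, K-method, module K6: counting points when every `r` of the linear forms satisfy
a polynomial relation together with `n`. -/

namespace Vale.Agent.P018.K

open Polynomial Finset

section cnt

/-- weight of an exponent -/
def cnt_om {d : ℕ} (B : ℕ) (a : Fin d → ℕ) : ℕ := ∑ i, a i * B ^ (i : ℕ)

theorem cnt_om_add {d : ℕ} (B : ℕ) (a b : Fin d → ℕ) :
    cnt_om B (a + b) = cnt_om B a + cnt_om B b := by
  simp [cnt_om, add_mul, Finset.sum_add_distrib]

theorem cnt_om_inj (B : ℕ) : ∀ {d : ℕ} (a b : Fin d → ℕ), (∀ i, a i < B) → (∀ i, b i < B) →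
    cnt_om B a = cnt_om B b → a = b := by
  intro d
  induction d with
  | zero =>
    intro a b _ _ _
    exact funext fun i => i.elim0
  | succ d ih =>
    intro a b ha hb h
    have e : ∀ c : Fin (d + 1) → ℕ, cnt_om B c = c 0 + B * cnt_om B (fun i => c i.succ) := by
      intro c
      unfold cnt_om
      rw [Fin.sum_univ_succ, Finset.mul_sum]
      simp only [Fin.val_zero, pow_zero, mul_one, Fin.val_succ, pow_succ]
      congr 1
      exact Finset.sum_congr rfl fun i _ => by ring
    rw [e a, e b] at h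
    have hB : 0 < B := lt_of_le_of_lt (Nat.zero_le _) (ha 0)
    have h0 : a 0 = b 0 := by
      have h1 : (a 0 + B * cnt_om B (fun i => a i.succ)) % B =
          (b 0 + B * cnt_om B (fun i => b i.succ)) % B := by rw [h]
      rw [Nat.add_mul_mod_self_left, Nat.add_mul_mod_self_left, Nat.mod_eq_of_lt (ha 0),
        Nat.mod_eq_of_lt (hb 0)] at h1
      exact h1
    rw [h0] at h
    have h1 := Nat.eq_of_mul_eq_mul_left hB (Nat.add_left_cancel h)
    have h2 := ih _ _ (fun i => ha i.succ) (fun i => hb i.succ) h1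
    funext i
    exact Fin.cases h0 (fun j => congrFun h2 j) i

theorem cnt_le_om {d : ℕ} {B : ℕ} (hB : 1 ≤ B) (a : Fin d → ℕ) (i : Fin d) :
    a i ≤ cnt_om B a :=
  calc a i ≤ a i * B ^ (i : ℕ) := Nat.le_mul_of_pos_right _ (by positivity)
    _ ≤ _ := Finset.single_le_sum (f := fun i : Fin d => a i * B ^ (i : ℕ))
      (fun _ _ => Nat.zero_le _) (mem_univ i)

theorem cnt_om_le {d : ℕ} {B : ℕ} (hB : 1 ≤ B) (a : Fin d → ℕ) :
    cnt_om B a ≤ B ^ d * ∑ i, a i := by
  unfold cnt_om
  rw [Finset.mul_sum]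
  refine Finset.sum_le_sum fun i _ => ?_
  rw [mul_comm]
  exact Nat.mul_le_mul_right _ (Nat.pow_le_pow_right hB i.2.le)

variable {d : ℕ} {L : Type} [Field L] {ι : Type}

/-- monomials as functions -/
def cnt_mon (x : Fin d → ι → L) (a : Fin d → ℕ) : ι → L := fun q => ∏ i, x i q ^ a i

theorem cnt_mon_add (x : Fin d → ι → L) (a b : Fin d → ℕ) (q : ι) :
    cnt_mon x (a + b) q = cnt_mon x a q * cnt_mon x b q := by
  simp [cnt_mon, pow_add, Finset.prod_mul_distrib]

/-- the span of the functions `n ^ j x ^ m`, with `j ≤ b`, `m ∈ M`, weight at most `o` -/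
def cnt_W (n : ι → L) (x : Fin d → ι → L) (M : Set (Fin d → ℕ)) (B b o : ℕ) :
    Submodule L (ι → L) :=
  Submodule.span L {v | ∃ j m, j ≤ b ∧ m ∈ M ∧ cnt_om B m ≤ o ∧
    v = fun q => n q ^ j * cnt_mon x m q}

theorem cnt_W_mono (n : ι → L) (x : Fin d → ι → L) (M : Set (Fin d → ℕ)) (B : ℕ) {b b' o o' : ℕ}
    (hb : b ≤ b') (ho : o ≤ o') : cnt_W n x M B b o ≤ cnt_W n x M B b' o' := by
  refine Submodule.span_mono ?_
  rintro _ ⟨j, m, hj, hm, hmo, rfl⟩
  exact ⟨j, m, hj.trans hb, hm, hmo.trans ho, rfl⟩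

theorem cnt_W_mul {n : ι → L} {x : Fin d → ι → L} {M : Set (Fin d → ℕ)} {B b o k : ℕ} {f : L[X]}
    (hf : f.natDegree ≤ k) {v : ι → L} (hv : v ∈ cnt_W n x M B b o) :
    (fun q => f.eval (n q) * v q) ∈ cnt_W n x M B (b + k) o := by
  refine Submodule.span_induction
    (p := fun v _ => (fun q => f.eval (n q) * v q) ∈ cnt_W n x M B (b + k) o) ?_ ?_ ?_ ?_ hv
  · rintro _ ⟨j, m, hj, hm, ho, rfl⟩
    have e : (fun q => f.eval (n q) * (n q ^ j * cnt_mon x m q)) =
        ∑ i ∈ range (k + 1), f.coeff i • (fun q => n q ^ (i + j) * cnt_mon x m q) := by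
      funext q
      rw [Finset.sum_apply, eval_eq_sum_range' (Nat.lt_succ_of_le hf), Finset.sum_mul]
      refine Finset.sum_congr rfl fun i _ => ?_
      rw [Pi.smul_apply, smul_eq_mul, pow_add]
      ring
    rw [e]
    refine Submodule.sum_mem _ fun i hi => Submodule.smul_mem _ _ (Submodule.subset_span
      ⟨i + j, m, ?_, hm, ho, rfl⟩)
    have := Finset.mem_range.1 hi
    omega
  · have e : (fun q : ι => f.eval (n q) * (0 : ι → L) q) = 0 := by
      funext q
      simp
    rw [e]
    exact Submodule.zero_mem _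
  · intro u v _ _ hu hv
    have e : (fun q : ι => f.eval (n q) * (u + v) q) =
        (fun q => f.eval (n q) * u q) + fun q => f.eval (n q) * v q := by
      funext q
      simp [mul_add]
    rw [e]
    exact Submodule.add_mem _ hu hv
  · intro c u _ hu
    have e : (fun q : ι => f.eval (n q) * (c • u) q) = c • fun q => f.eval (n q) * u q := by
      funext q
      simp only [Pi.smul_apply, smul_eq_mul]
      ring
    rw [e]
    exact Submodule.smul_mem _ _ hu

theorem cnt_claim {J α : Type} [Fintype J] [DecidableEq J] (n : ι → L) (x : Fin d → ι → L)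
    (B D : ℕ) (c : J → Fin d → ℕ) (g : J → L[X]) (E : J → Finset α) (ex : J → α → Fin d → ℕ)
    (f : J → α → L[X]) (hg : ∀ j, (g j).natDegree ≤ D)
    (hf : ∀ j, ∀ e ∈ E j, (f j e).natDegree ≤ D)
    (hw : ∀ j, ∀ e ∈ E j, cnt_om B (ex j e) < cnt_om B (c j))
    (hrel : ∀ j q, (g j).eval (n q) * cnt_mon x (c j) q =
      ∑ e ∈ E j, (f j e).eval (n q) * cnt_mon x (ex j e) q) :
    ∀ (N : ℕ) (a : Fin d → ℕ), cnt_om B a = N →
      (fun q => (∏ j, g j).eval (n q) ^ (N + 1) * cnt_mon x a q) ∈
        cnt_W n x {m | ∀ j, ¬ c j ≤ m} B ((Fintype.card J * D + D) * (N + 1)) N := by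
  have hsub : ∀ T : Finset J, (∏ j ∈ T, g j).natDegree ≤ Fintype.card J * D := by
    intro T
    refine (natDegree_prod_le _ _).trans ((Finset.sum_le_card_nsmul _ _ D fun j _ => hg j).trans ?_)
    rw [smul_eq_mul]
    exact Nat.mul_le_mul_right _ (Finset.card_le_univ T)
  intro N
  induction N using Nat.strong_induction_on with
  | _ N ih =>
    intro a hN
    by_cases hM : ∀ j, ¬ c j ≤ a
    · have h1 : (fun q => cnt_mon x a q) ∈ cnt_W n x {m | ∀ j, ¬ c j ≤ m} B 0 N :=
        Submodule.subset_span ⟨0, a, le_rfl, hM, hN.le, by funext q; simp⟩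
      have h2 := cnt_W_mul (f := (∏ j, g j) ^ (N + 1)) (k := (N + 1) * (Fintype.card J * D))
        ((natDegree_pow_le).trans (Nat.mul_le_mul_left _ (hsub univ))) h1
      simp only [eval_pow] at h2
      refine cnt_W_mono n x _ B ?_ le_rfl h2
      nlinarith
    · push Not at hM
      obtain ⟨j, hj⟩ := hM
      obtain ⟨b, rfl⟩ : ∃ b, a = c j + b := ⟨a - c j, (add_tsub_cancel_of_le hj).symm⟩
      rw [cnt_om_add] at hN
      have hG : ∏ i, g i = (∏ i ∈ univ.erase j, g i) * g j :=
        (Finset.prod_erase_mul _ _ (mem_univ j)).symm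
      have hlt : ∀ e ∈ E j, cnt_om B (ex j e + b) < N := by
        intro e he
        rw [cnt_om_add]
        have := hw j e he
        omega
      have e1 : (fun q => (∏ i, g i).eval (n q) ^ (N + 1) * cnt_mon x (c j + b) q) =
          ∑ e ∈ E j, fun q => ((∏ i ∈ univ.erase j, g i) * f j e *
            (∏ i, g i) ^ (N - (cnt_om B (ex j e + b) + 1))).eval (n q) *
              ((∏ i, g i).eval (n q) ^ (cnt_om B (ex j e + b) + 1) *
                cnt_mon x (ex j e + b) q) := by
        funext q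
        rw [Finset.sum_apply]
        have e2 : (∏ i, g i).eval (n q) ^ (N + 1) * cnt_mon x (c j + b) q =
            (∏ i, g i).eval (n q) ^ N * (∏ i ∈ univ.erase j, g i).eval (n q) *
              ((g j).eval (n q) * cnt_mon x (c j) q) * cnt_mon x b q := by
          rw [cnt_mon_add, pow_succ]
          conv_lhs => rw [show ∀ z : L, (∏ i, g i).eval (n q) ^ N * (∏ i, g i).eval (n q) * z =
            (∏ i, g i).eval (n q) ^ N * ((∏ i, g i).eval (n q) * z) from fun z => by ring]
          conv_lhs => enter [2]; rw [hG]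
          rw [eval_mul]
          ring
        rw [e2, hrel, Finset.mul_sum, Finset.sum_mul]
        refine Finset.sum_congr rfl fun e he => ?_
        rw [eval_mul, eval_mul, eval_pow, cnt_mon_add]
        have e3 : (∏ i, g i).eval (n q) ^ N =
            (∏ i, g i).eval (n q) ^ (N - (cnt_om B (ex j e + b) + 1)) *
              (∏ i, g i).eval (n q) ^ (cnt_om B (ex j e + b) + 1) := by
          rw [← pow_add]
          congr 1
          have := hlt e he
          omega
        rw [e3]
        ring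
      rw [e1]
      refine Submodule.sum_mem _ fun e he => ?_
      have h1 := ih _ (hlt e he) (ex j e + b) rfl
      have h2 := cnt_W_mul (f := (∏ i ∈ univ.erase j, g i) * f j e *
            (∏ i, g i) ^ (N - (cnt_om B (ex j e + b) + 1)))
        (k := Fintype.card J * D + D +
          (N - (cnt_om B (ex j e + b) + 1)) * (Fintype.card J * D)) (by
          refine natDegree_mul_le.trans (Nat.add_le_add ?_ ?_)
          · exact natDegree_mul_le.trans (Nat.add_le_add (hsub _) (hf j e he))
          · exact natDegree_pow_le.trans (Nat.mul_le_mul_left _ (hsub _))) h1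
      refine cnt_W_mono n x _ B ?_ (hlt e he).le h2
      obtain ⟨t, ht⟩ : ∃ t, N = cnt_om B (ex j e + b) + 1 + t :=
        ⟨N - (cnt_om B (ex j e + b) + 1), by have := hlt e he; omega⟩
      have e4 : N - (cnt_om B (ex j e + b) + 1) = t := by omega
      rw [e4, ht]
      nlinarith [Nat.zero_le (D * t)]

/-- the number of exponents which are not divisible by leading ones -/
theorem cnt_M_card {D r o : ℕ} (hr : 1 ≤ r) (T : Finset (Fin d → ℕ))
    (hT : ∀ m ∈ T, (univ.filter fun i => D ≤ m i).card < r ∧ ∀ i, m i ≤ o) :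
    T.card ≤ 2 ^ d * (D + 1) ^ d * (o + 1) ^ (r - 1) := by
  classical
  let R : Finset (Fin d) → Finset (Fin d → ℕ) := fun U =>
    Fintype.piFinset fun i => if i ∈ U then range (o + 1) else range (D + 1)
  have h1 : T ⊆ ((univ : Finset (Finset (Fin d))).filter fun U => U.card ≤ r - 1).biUnion R := by
    intro m hm
    obtain ⟨h2, h3⟩ := hT m hm
    rw [Finset.mem_biUnion]
    refine ⟨univ.filter fun i => D ≤ m i, ?_, ?_⟩
    · rw [Finset.mem_filter]
      exact ⟨mem_univ _, by omega⟩
    · rw [Fintype.mem_piFinset]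
      intro i
      by_cases hi : D ≤ m i
      · rw [if_pos (by simpa using hi)]
        rw [Finset.mem_range]
        have := h3 i
        omega
      · rw [if_neg (by simpa using hi)]
        rw [Finset.mem_range]
        omega
  have h2 : ∀ U ∈ (univ : Finset (Finset (Fin d))).filter fun U => U.card ≤ r - 1,
      (R U).card ≤ (D + 1) ^ d * (o + 1) ^ (r - 1) := by
    intro U hU
    rw [Finset.mem_filter] at hU
    rw [Fintype.card_piFinset]
    have e : ∀ i, (if i ∈ U then range (o + 1) else range (D + 1)).card ≤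
        (if i ∈ U then (o + 1) else 1) * (D + 1) := by
      intro i
      split_ifs
      · rw [Finset.card_range]
        exact Nat.le_mul_of_pos_right _ (by omega)
      · rw [Finset.card_range, one_mul]
    refine (Finset.prod_le_prod' fun i _ => e i).trans ?_
    rw [Finset.prod_mul_distrib, Finset.prod_const, Finset.card_univ, Fintype.card_fin,
      Finset.prod_ite_mem, Finset.univ_inter, Finset.prod_const, mul_comm]
    exact Nat.mul_le_mul_left _ (Nat.pow_le_pow_right (by omega) hU.2)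
  refine (Finset.card_le_card h1).trans ((Finset.card_biUnion_le_card_mul _ _ _ h2).trans ?_)
  rw [mul_assoc]
  refine Nat.mul_le_mul_right _ ((Finset.card_filter_le _ _).trans ?_)
  rw [Finset.card_univ, Fintype.card_finset, Fintype.card_fin]

theorem cnt_W_finrank [Fintype ι] (n : ι → L) (x : Fin d → ι → L) (M : Set (Fin d → ℕ))
    {B b o K : ℕ} (hB : 1 ≤ B)
    (hK : ∀ T : Finset (Fin d → ℕ), (∀ m ∈ T, m ∈ M ∧ cnt_om B m ≤ o) → T.card ≤ K) :
    Module.finrank L (cnt_W n x M B b o) ≤ (b + 1) * K := by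
  classical
  let T : Finset (Fin d → ℕ) :=
    (Fintype.piFinset fun _ : Fin d => range (o + 1)).filter fun m => m ∈ M ∧ cnt_om B m ≤ o
  have hT := hK T (fun m hm => (Finset.mem_filter.1 hm).2)
  let Z : Finset (ι → L) := (range (b + 1) ×ˢ T).image fun u q => n q ^ u.1 * cnt_mon x u.2 q
  have h1 : cnt_W n x M B b o ≤ Submodule.span L (Z : Set (ι → L)) := by
    refine Submodule.span_mono ?_
    rintro _ ⟨j, m, hj, hm, hmo, rfl⟩
    rw [Finset.mem_coe, Finset.mem_image]
    refine ⟨(j, m), ?_, rfl⟩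
    rw [Finset.mem_product, Finset.mem_range]
    refine ⟨by omega, Finset.mem_filter.2 ⟨?_, hm, hmo⟩⟩
    rw [Fintype.mem_piFinset]
    intro i
    rw [Finset.mem_range]
    have := cnt_le_om hB m i
    show m i < o + 1
    omega
  calc Module.finrank L (cnt_W n x M B b o)
      ≤ Module.finrank L (Submodule.span L (Z : Set (ι → L))) := Submodule.finrank_mono h1
    _ ≤ Z.card := finrank_span_finset_le_card Z
    _ ≤ (range (b + 1) ×ˢ T).card := Finset.card_image_le
    _ = (b + 1) * T.card := by rw [Finset.card_product, Finset.card_range]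
    _ ≤ (b + 1) * K := Nat.mul_le_mul_left _ hT

/-- the span of the monomials of degree at most `N` -/
def cnt_P (x : Fin d → ι → L) (N : ℕ) : Submodule L (ι → L) :=
  Submodule.span L {v | ∃ a : Fin d → ℕ, ∑ i, a i ≤ N ∧ v = cnt_mon x a}

theorem cnt_P_mono (x : Fin d → ι → L) {N N' : ℕ} (h : N ≤ N') : cnt_P x N ≤ cnt_P x N' := by
  refine Submodule.span_mono ?_
  rintro _ ⟨a, ha, rfl⟩
  exact ⟨a, ha.trans h, rfl⟩

theorem cnt_P_one (x : Fin d → ι → L) : (1 : ι → L) ∈ cnt_P x 0 := by
  refine Submodule.subset_span ⟨0, by simp, ?_⟩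
  funext q
  simp [cnt_mon]

theorem cnt_P_var (x : Fin d → ι → L) (i : Fin d) : x i ∈ cnt_P x 1 := by
  refine Submodule.subset_span ⟨Pi.single i 1, ?_, ?_⟩
  · rw [Finset.sum_pi_single']
    simp
  · funext q
    unfold cnt_mon
    rw [Finset.prod_eq_single i]
    · simp
    · intro j _ hj
      rw [Pi.single_eq_of_ne hj, pow_zero]
    · intro h
      exact absurd (mem_univ i) h

theorem cnt_P_mul (x : Fin d → ι → L) {N N' : ℕ} {u v : ι → L} (hu : u ∈ cnt_P x N)
    (hv : v ∈ cnt_P x N') : u * v ∈ cnt_P x (N + N') := by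
  have h := Submodule.mul_mem_mul hu hv
  unfold cnt_P at h
  rw [Submodule.span_mul_span] at h
  refine Submodule.span_mono ?_ h
  rintro _ ⟨_, ⟨a, ha, rfl⟩, _, ⟨b, hb, rfl⟩, rfl⟩
  refine ⟨a + b, ?_, ?_⟩
  · simp only [Pi.add_apply, Finset.sum_add_distrib]
    omega
  · funext q
    show cnt_mon x a q * cnt_mon x b q = _
    rw [cnt_mon_add]

theorem cnt_P_prod (x : Fin d → ι → L) {κ : Type} (T : Finset κ) (u : κ → ι → L)
    (h : ∀ s ∈ T, u s ∈ cnt_P x 1) : ∏ s ∈ T, u s ∈ cnt_P x T.card := by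
  classical
  induction T using Finset.induction_on with
  | empty =>
    rw [Finset.prod_empty, Finset.card_empty]
    exact cnt_P_one x
  | insert s T hs ih =>
    rw [Finset.prod_insert hs, Finset.card_insert_of_notMem hs, add_comm]
    exact cnt_P_mul x (h s (Finset.mem_insert_self s T))
      (ih fun t ht => h t (Finset.mem_insert_of_mem ht))

theorem cnt_P_top [Fintype ι] [CharZero L] (y : ι → Fin d → ℤ) (θ : Fin d → L)
    (hθ : Function.Injective θ) (y0 : Fin d → ℤ) (H : ℕ)
    (hy : ∀ q j, y0 j ≤ y q j ∧ y q j < y0 j + H) (hinj : Function.Injective y) :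
    cnt_P (fun i q => ell (θ i) (y q)) (d * (H - 1)) = ⊤ := by
  classical
  set x : Fin d → ι → L := fun i q => ell (θ i) (y q) with hx
  -- coordinates
  have hcoord : ∀ j, (fun q => (y q j : L)) ∈ cnt_P x 1 := by
    intro j
    have hdet : IsUnit (Matrix.vandermonde θ).det :=
      isUnit_iff_ne_zero.2 (Matrix.det_vandermonde_ne_zero_iff.2 hθ)
    have h1 : ∀ q, (Matrix.vandermonde θ).mulVec (fun j => (y q j : L)) = fun i => x i q := by
      intro q
      funext i
      simp only [Matrix.mulVec, dotProduct, Matrix.vandermonde_apply, hx, ell]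
      exact Finset.sum_congr rfl fun j _ => mul_comm _ _
    have h2 : (fun q => (y q j : L)) = ∑ i, ((Matrix.vandermonde θ)⁻¹ j i) • x i := by
      funext q
      have h3 : (fun j => (y q j : L)) =
          (Matrix.vandermonde θ)⁻¹.mulVec (fun i => x i q) := by
        rw [← h1 q, Matrix.mulVec_mulVec, Matrix.nonsing_inv_mul _ hdet, Matrix.one_mulVec]
      have h4 := congrFun h3 j
      simp only [Matrix.mulVec, dotProduct] at h4
      rw [h4, Finset.sum_apply]
      rfl
    rw [h2]
    exact Submodule.sum_mem _ fun i _ => Submodule.smul_mem _ _ (cnt_P_var x i)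
  have hlin : ∀ j (v : ℤ), (fun q => (y q j : L) - v) ∈ cnt_P x 1 := by
    intro j v
    have e : (fun q => (y q j : L) - v) = (fun q => (y q j : L)) - (v : L) • (1 : ι → L) := by
      funext q
      simp
    rw [e]
    exact Submodule.sub_mem _ (hcoord j)
      (Submodule.smul_mem _ _ (cnt_P_mono x (Nat.zero_le 1) (cnt_P_one x)))
  -- indicator functions
  have hind : ∀ q0 : ι, (Pi.single q0 (1 : L) : ι → L) ∈ cnt_P x (d * (H - 1)) := by
    intro q0
    let T : Finset (Σ _ : Fin d, ℤ) :=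
      (univ : Finset (Fin d)).sigma fun j => (Finset.Ico (y0 j) (y0 j + H)).erase (y q0 j)
    have hTc : T.card = d * (H - 1) := by
      rw [Finset.card_sigma]
      have h1 : ∀ j, ((Finset.Ico (y0 j) (y0 j + H)).erase (y q0 j)).card = H - 1 := by
        intro j
        rw [Finset.card_erase_of_mem (Finset.mem_Ico.2 (hy q0 j)), Int.card_Ico]
        simp
      rw [Finset.sum_congr rfl fun j _ => h1 j]
      simp
    have hp := cnt_P_prod x T (fun s q => (y q s.1 : L) - s.2) (fun s _ => hlin s.1 s.2)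
    rw [hTc] at hp
    have hne : (∏ s ∈ T, fun q => (y q s.1 : L) - s.2) q0 ≠ 0 := by
      rw [Finset.prod_apply]
      refine Finset.prod_ne_zero_iff.2 ?_
      rintro ⟨j, v⟩ hs h0
      rw [Finset.mem_sigma] at hs
      have h1 := Finset.ne_of_mem_erase hs.2
      apply h1
      have h2 : (y q0 j : L) = v := sub_eq_zero.1 h0
      exact (Int.cast_injective h2).symm
    have hzero : ∀ q, q ≠ q0 → (∏ s ∈ T, fun q => (y q s.1 : L) - s.2) q = 0 := by
      intro q hq
      rw [Finset.prod_apply]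
      have h1 : y q ≠ y q0 := fun h => hq (hinj h)
      obtain ⟨j, hj⟩ := Function.ne_iff.1 h1
      refine Finset.prod_eq_zero (i := ⟨j, y q j⟩) ?_ (sub_self _)
      rw [Finset.mem_sigma]
      exact ⟨mem_univ _, Finset.mem_erase.2 ⟨hj, Finset.mem_Ico.2 (hy q j)⟩⟩
    have e : (Pi.single q0 (1 : L) : ι → L) =
        ((∏ s ∈ T, fun q => (y q s.1 : L) - s.2) q0)⁻¹ •
          ∏ s ∈ T, fun q => (y q s.1 : L) - s.2 := by
      funext q
      by_cases hq : q = q0
      · subst hq
        rw [Pi.single_eq_same, Pi.smul_apply, smul_eq_mul, inv_mul_cancel₀ hne]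
      · rw [Pi.single_eq_of_ne hq, Pi.smul_apply, hzero q hq, smul_zero]
    rw [e]
    exact Submodule.smul_mem _ _ hp
  rw [eq_top_iff]
  intro v _
  rw [pi_eq_sum_univ' v]
  refine Submodule.sum_mem _ fun q0 _ => Submodule.smul_mem _ _ ?_
  have h1 := hind q0
  have e : (fun q : ι => if q = q0 then (1 : L) else 0) = Pi.single q0 (1 : L) := by
    funext q
    rw [Pi.single_apply]
  exact e ▸ h1

/-- extension of an exponent along `I` -/
def cnt_ext {r : ℕ} (I : Fin r → Fin d) (a : Fin r →₀ ℕ) : Fin d → ℕ :=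
  fun j => ∑ i, if I i = j then a i else 0

theorem cnt_ext_apply {r : ℕ} {I : Fin r → Fin d} (hI : Function.Injective I) (a : Fin r →₀ ℕ)
    (i : Fin r) : cnt_ext I a (I i) = a i := by
  unfold cnt_ext
  rw [Finset.sum_eq_single i]
  · simp
  · intro j _ hj
    rw [if_neg]
    exact fun h => hj (hI h)
  · intro h
    exact absurd (mem_univ i) h

theorem cnt_ext_le {r : ℕ} (I : Fin r → Fin d) (a : Fin r →₀ ℕ) (j : Fin d) :
    cnt_ext I a j ≤ a.degree := by
  unfold cnt_ext
  rw [Finsupp.degree_eq_sum]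
  refine Finset.sum_le_sum fun i _ => ?_
  split_ifs
  · exact le_rfl
  · exact Nat.zero_le _

theorem cnt_ext_mon {r : ℕ} (I : Fin r → Fin d) (a : Fin r →₀ ℕ) (x : Fin d → ι → L) (q : ι) :
    cnt_mon x (cnt_ext I a) q = ∏ i, x (I i) q ^ a i := by
  unfold cnt_mon cnt_ext
  have h1 : ∀ j : Fin d, x j q ^ (∑ i, if I i = j then a i else 0) =
      ∏ i, x j q ^ (if I i = j then a i else 0) := fun j =>
    (Finset.prod_pow_eq_pow_sum _ _ _).symm
  rw [Finset.prod_congr rfl fun j _ => h1 j, Finset.prod_comm]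
  refine Finset.prod_congr rfl fun i _ => ?_
  rw [Finset.prod_eq_single (I i)]
  · simp
  · intro j _ hj
    rw [if_neg (Ne.symm hj), pow_zero]
  · intro h
    exact absurd (mem_univ _) h

/-- the relations of the K-method, with a leading exponent -/
theorem cnt_leading {r D : ℕ} {I : Fin r → Fin d} (hI : Function.Injective I)
    {F : MvPolynomial (Fin r) L[X]} (hF : F ≠ 0) (hD : ∀ a ∈ F.support, a.degree ≤ D) :
    ∃ c ∈ F.support, ∀ a ∈ F.support.erase c,
      cnt_om (D + 1) (cnt_ext I a) < cnt_om (D + 1) (cnt_ext I c) := by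
  obtain ⟨c, hc, hmax⟩ := Finset.exists_max_image F.support
    (fun a => cnt_om (D + 1) (cnt_ext I a)) (MvPolynomial.support_nonempty.2 hF)
  refine ⟨c, hc, fun a ha => ?_⟩
  have ha2 := Finset.mem_of_mem_erase ha
  refine lt_of_le_of_ne (hmax a ha2) ?_
  intro h
  apply Finset.ne_of_mem_erase ha
  have h1 := cnt_om_inj (D + 1) (cnt_ext I a) (cnt_ext I c)
    (fun j => Nat.lt_succ_of_le ((cnt_ext_le I a j).trans (hD a ha2)))
    (fun j => Nat.lt_succ_of_le ((cnt_ext_le I c j).trans (hD c hc))) h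
  ext i
  rw [← cnt_ext_apply hI a i, h1, cnt_ext_apply hI c i]

/-- the count of the good points -/
theorem cnt_main [Fintype ι] [CharZero L] {r D : ℕ} (hr : 1 ≤ r) {J : Type} [Fintype J]
    [DecidableEq J] (I : J → Fin r → Fin d)
    (hIs : ∀ K : Fin r → Fin d, Function.Injective K → ∃ j, I j = K)
    (F : J → MvPolynomial (Fin r) L[X])
    (hD : ∀ j, ∀ a ∈ (F j).support, a.degree ≤ D ∧ ((F j).coeff a).natDegree ≤ D)
    (c : J → Fin r →₀ ℕ) (hc : ∀ j, c j ∈ (F j).support)
    (hlt : ∀ j, ∀ a ∈ (F j).support.erase (c j),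
      cnt_om (D + 1) (cnt_ext (I j) a) < cnt_om (D + 1) (cnt_ext (I j) (c j)))
    (n : ι → L) (y : ι → Fin d → ℤ) (θ : Fin d → L)
    (hθ : Function.Injective θ) (y0 : Fin d → ℤ) (H : ℕ)
    (hy : ∀ q j, y0 j ≤ y q j ∧ y q j < y0 j + H) (hinj : Function.Injective y)
    (hrel : ∀ j q, MvPolynomial.eval₂ (Polynomial.evalRingHom (n q))
      (fun i => ell (θ (I j i)) (y q)) (F j) = 0)
    (hG : ∀ q, (∏ j, (F j).coeff (c j)).eval (n q) ≠ 0) :
    Fintype.card ι ≤ ((Fintype.card J * D + D) * ((D + 1) ^ d * (d * (H - 1)) + 1) + 1) *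
      (2 ^ d * (D + 1) ^ d * ((D + 1) ^ d * (d * (H - 1)) + 1) ^ (r - 1)) := by
  classical
  set x : Fin d → ι → L := fun i q => ell (θ i) (y q) with hx
  set Om : ℕ := (D + 1) ^ d * (d * (H - 1)) with hOm
  set M : Set (Fin d → ℕ) := {m | ∀ j, ¬ cnt_ext (I j) (c j) ≤ m} with hM
  -- the relation
  have hrel2 : ∀ j q, ((F j).coeff (c j)).eval (n q) * cnt_mon x (cnt_ext (I j) (c j)) q =
      ∑ a ∈ (F j).support.erase (c j), (-(F j).coeff a).eval (n q) *
        cnt_mon x (cnt_ext (I j) a) q := by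
    intro j q
    have h1 := hrel j q
    rw [MvPolynomial.eval₂_eq'] at h1
    have h2 : ∀ a : Fin r →₀ ℕ, (Polynomial.evalRingHom (n q)) ((F j).coeff a) *
        ∏ i, ell (θ (I j i)) (y q) ^ a i =
        ((F j).coeff a).eval (n q) * cnt_mon x (cnt_ext (I j) a) q := by
      intro a
      rw [cnt_ext_mon, Polynomial.coe_evalRingHom]
    rw [Finset.sum_congr rfl fun a _ => h2 a, ← Finset.add_sum_erase _ _ (hc j)] at h1
    rw [eq_neg_of_add_eq_zero_left h1, ← Finset.sum_neg_distrib]
    refine Finset.sum_congr rfl fun a _ => ?_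
    rw [eval_neg, neg_mul]
  have hclaim := cnt_claim n x (D + 1) D (fun j => cnt_ext (I j) (c j))
    (fun j => (F j).coeff (c j)) (fun j => (F j).support.erase (c j))
    (fun j a => cnt_ext (I j) a) (fun j a => -(F j).coeff a) (fun j => (hD j _ (hc j)).2)
    (fun j a ha => by
      rw [natDegree_neg]
      exact (hD j a (Finset.mem_of_mem_erase ha)).2) hlt hrel2
  -- everything is in `W`
  have hsub : (∏ j, (F j).coeff (c j)).natDegree ≤ Fintype.card J * D := by
    refine (natDegree_prod_le _ _).trans ((Finset.sum_le_card_nsmul _ _ D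
      fun j _ => (hD j _ (hc j)).2).trans ?_)
    rw [smul_eq_mul, Finset.card_univ]
  have hW : ∀ u ∈ cnt_P x (d * (H - 1)),
      (fun q => (∏ j, (F j).coeff (c j)).eval (n q) ^ (Om + 1) * u q) ∈
        cnt_W n x M (D + 1) ((Fintype.card J * D + D) * (Om + 1)) Om := by
    intro u hu
    refine Submodule.span_induction
      (p := fun u _ => (fun q => (∏ j, (F j).coeff (c j)).eval (n q) ^ (Om + 1) * u q) ∈
        cnt_W n x M (D + 1) ((Fintype.card J * D + D) * (Om + 1)) Om) ?_ ?_ ?_ ?_ hu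
    · rintro _ ⟨a, ha, rfl⟩
      have hwa : cnt_om (D + 1) a ≤ Om :=
        (cnt_om_le (Nat.le_add_left 1 D) a).trans (Nat.mul_le_mul_left _ ha)
      have h1 := hclaim _ a rfl
      have h2 := cnt_W_mul (f := (∏ j, (F j).coeff (c j)) ^ (Om - cnt_om (D + 1) a))
        (k := (Om - cnt_om (D + 1) a) * (Fintype.card J * D))
        (natDegree_pow_le.trans (Nat.mul_le_mul_left _ hsub)) h1
      have e : (fun q => (∏ j, (F j).coeff (c j)).eval (n q) ^ (Om + 1) * cnt_mon x a q) =
          fun q => ((∏ j, (F j).coeff (c j)) ^ (Om - cnt_om (D + 1) a)).eval (n q) *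
            ((∏ j, (F j).coeff (c j)).eval (n q) ^ (cnt_om (D + 1) a + 1) *
              cnt_mon x a q) := by
        funext q
        rw [eval_pow, ← mul_assoc, ← pow_add]
        congr 2
        omega
      rw [e]
      refine cnt_W_mono n x M (D + 1) ?_ hwa h2
      obtain ⟨t, ht⟩ : ∃ t, Om = cnt_om (D + 1) a + t := ⟨Om - cnt_om (D + 1) a, by omega⟩
      have e4 : Om - cnt_om (D + 1) a = t := by omega
      rw [e4, ht]
      nlinarith [Nat.zero_le (D * t)]
    · have e : (fun q : ι => (∏ j, (F j).coeff (c j)).eval (n q) ^ (Om + 1) *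
          (0 : ι → L) q) = 0 := by
        funext q
        simp
      rw [e]
      exact Submodule.zero_mem _
    · intro u v _ _ hu hv
      have e : (fun q : ι => (∏ j, (F j).coeff (c j)).eval (n q) ^ (Om + 1) * (u + v) q) =
          (fun q => (∏ j, (F j).coeff (c j)).eval (n q) ^ (Om + 1) * u q) +
            fun q => (∏ j, (F j).coeff (c j)).eval (n q) ^ (Om + 1) * v q := by
        funext q
        simp only [Pi.add_apply, mul_add]
      rw [e]
      exact Submodule.add_mem _ hu hv
    · intro b u _ hu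
      have e : (fun q : ι => (∏ j, (F j).coeff (c j)).eval (n q) ^ (Om + 1) * (b • u) q) =
          b • fun q => (∏ j, (F j).coeff (c j)).eval (n q) ^ (Om + 1) * u q := by
        funext q
        simp only [Pi.smul_apply, smul_eq_mul]
        ring
      rw [e]
      exact Submodule.smul_mem _ _ hu
  have htop : cnt_W n x M (D + 1) ((Fintype.card J * D + D) * (Om + 1)) Om = ⊤ := by
    rw [eq_top_iff]
    intro v _
    have h1 : (fun q => v q / (∏ j, (F j).coeff (c j)).eval (n q) ^ (Om + 1)) ∈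
        cnt_P x (d * (H - 1)) := by
      rw [cnt_P_top y θ hθ y0 H hy hinj]
      exact Submodule.mem_top
    have h2 := hW _ h1
    have e : (fun q => (∏ j, (F j).coeff (c j)).eval (n q) ^ (Om + 1) *
        (v q / (∏ j, (F j).coeff (c j)).eval (n q) ^ (Om + 1))) = v := by
      funext q
      rw [mul_div_cancel₀]
      exact pow_ne_zero _ (hG q)
    rw [e] at h2
    exact h2
  have hfin := cnt_W_finrank n x M (B := D + 1) (b := (Fintype.card J * D + D) * (Om + 1))
    (o := Om) (K := 2 ^ d * (D + 1) ^ d * (Om + 1) ^ (r - 1)) (Nat.le_add_left 1 D) (by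
      intro T hT
      refine cnt_M_card hr T fun m hm => ⟨?_, fun i =>
        (cnt_le_om (Nat.le_add_left 1 D) m i).trans (hT m hm).2⟩
      by_contra hcon
      push Not at hcon
      obtain ⟨U, hU1, hU2⟩ := Finset.exists_subset_card_eq hcon
      obtain ⟨j, hj⟩ := hIs (U.orderEmbOfFin hU2) (U.orderEmbOfFin hU2).injective
      apply (hT m hm).1 j
      intro i
      by_cases hi : ∃ l, I j l = i
      · obtain ⟨l, rfl⟩ := hi
        have h1 : D ≤ m (I j l) := by
          have h2 := hU1 (Finset.orderEmbOfFin_mem U hU2 l)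
          rw [hj]
          exact (Finset.mem_filter.1 h2).2
        exact ((cnt_ext_le _ _ _).trans (hD j _ (hc j)).1).trans h1
      · have h1 : cnt_ext (I j) (c j) i = 0 := by
          unfold cnt_ext
          refine Finset.sum_eq_zero fun l _ => if_neg fun h => hi ⟨l, h⟩
        rw [h1]
        exact Nat.zero_le _)
  rw [htop, finrank_top, Module.finrank_fintype_fun_eq_card] at hfin
  exact hfin

end cnt

theorem count_points (d r D C1 : ℕ) (hr : 1 ≤ r) (hrd : r ≤ d) :
    ∃ C : ℕ, ∀ (L : Type) [Field L] [CharZero L] (θ : Fin d → L), Function.Injective θ →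
      ∀ (H : ℕ), 1 ≤ H → ∀ (y0 : Fin d → ℤ) (S : Finset (ℤ × (Fin d → ℤ))),
      (∀ q ∈ S, ∀ j, y0 j ≤ q.2 j ∧ q.2 j < y0 j + H) →
      (∀ q ∈ S, ∀ q' ∈ S, q.2 = q'.2 → q = q') →
      (∀ n : ℤ, (S.filter (fun q => q.1 = n)).card ≤ C1) →
      (∀ I : Fin r → Fin d, Function.Injective I → ∃ F : MvPolynomial (Fin r) L[X], F ≠ 0 ∧
        (∀ a ∈ F.support, a.degree ≤ D ∧ (F.coeff a).natDegree ≤ D) ∧
        ∀ q ∈ S, MvPolynomial.eval₂ (Polynomial.evalRingHom (q.1 : L))
          (fun i => ell (θ (I i)) q.2) F = 0) →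
      S.card ≤ C * H ^ r := by
  classical
  refine ⟨((d ^ r * D + D) * ((D + 1) ^ d * d) + 1) *
    (2 ^ d * (D + 1) ^ d * ((D + 1) ^ d * d) ^ (r - 1)) + C1 * (d ^ r * D), ?_⟩
  intro L _ _ θ hθ H hH y0 S hS hSinj hSC hrel
  have hFex : ∀ j : {I : Fin r → Fin d // Function.Injective I},
      ∃ F : MvPolynomial (Fin r) L[X], F ≠ 0 ∧
        (∀ a ∈ F.support, a.degree ≤ D ∧ (F.coeff a).natDegree ≤ D) ∧
        ∀ q ∈ S, MvPolynomial.eval₂ (Polynomial.evalRingHom (q.1 : L))
          (fun i => ell (θ (j.1 i)) q.2) F = 0 := fun j => hrel j.1 j.2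
  choose F hF0 hFD hFq using hFex
  have hcex : ∀ j, ∃ c ∈ (F j).support, ∀ a ∈ (F j).support.erase c,
      cnt_om (D + 1) (cnt_ext j.1 a) < cnt_om (D + 1) (cnt_ext j.1 c) := fun j =>
    cnt_leading j.2 (hF0 j) fun a ha => (hFD j a ha).1
  choose c hc hlt using hcex
  have hJ : Fintype.card {I : Fin r → Fin d // Function.Injective I} ≤ d ^ r := by
    refine (Fintype.card_subtype_le _).trans ?_
    rw [Fintype.card_fun, Fintype.card_fin, Fintype.card_fin]
  set G : L[X] := ∏ j, (F j).coeff (c j) with hGdef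
  have hG0 : G ≠ 0 := Finset.prod_ne_zero_iff.2 fun j _ => MvPolynomial.mem_support_iff.1 (hc j)
  have hGd : G.natDegree ≤ d ^ r * D := by
    refine (natDegree_prod_le _ _).trans ((Finset.sum_le_card_nsmul _ _ D
      fun j _ => (hFD j _ (hc j)).2).trans ?_)
    rw [smul_eq_mul, Finset.card_univ]
    exact Nat.mul_le_mul_right _ hJ
  -- the bad points
  have hbad : (S.filter fun q => G.eval (q.1 : L) = 0).card ≤ C1 * (d ^ r * D) := by
    have h1 : ((S.filter fun q => G.eval (q.1 : L) = 0).image Prod.fst).card ≤ d ^ r * D := by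
      refine le_trans ?_ hGd
      refine le_trans ?_ (card_roots' G)
      refine le_trans ?_ (Multiset.toFinset_card_le _)
      refine Finset.card_le_card_of_injOn (fun z : ℤ => (z : L)) ?_ ?_
      · intro z hz
        rw [Finset.mem_coe, Finset.mem_image] at hz
        obtain ⟨q, hq, rfl⟩ := hz
        rw [Finset.mem_coe, Multiset.mem_toFinset, mem_roots hG0]
        exact (Finset.mem_filter.1 hq).2
      · intro z _ z' _ h
        exact Int.cast_injective h
    refine (Finset.card_le_mul_card_image (f := Prod.fst) _ C1 ?_).trans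
      (Nat.mul_le_mul_left _ h1)
    intro z _
    refine (Finset.card_le_card ?_).trans (hSC z)
    intro q hq
    rw [Finset.mem_filter] at hq ⊢
    exact ⟨(Finset.mem_filter.1 hq.1).1, hq.2⟩
  -- the good points
  obtain ⟨S', hS'⟩ : ∃ S' : Finset (ℤ × (Fin d → ℤ)),
      S' = S.filter fun q => G.eval (q.1 : L) ≠ 0 := ⟨_, rfl⟩
  have hmem0 : ∀ q ∈ S', q ∈ S ∧ G.eval (q.1 : L) ≠ 0 := by
    intro q h1
    rw [hS', Finset.mem_filter] at h1
    exact h1
  have hmem : ∀ q : {q // q ∈ S'}, q.1 ∈ S ∧ G.eval (q.1.1 : L) ≠ 0 := fun q => hmem0 q.1 q.2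
  have hgood := cnt_main (ι := {q // q ∈ S'}) hr
    (fun j : {I : Fin r → Fin d // Function.Injective I} => j.1)
    (fun K hK => ⟨⟨K, hK⟩, rfl⟩) F hFD c hc hlt (fun q => (q.1.1 : L)) (fun q => q.1.2) θ hθ y0 H
    (fun q j => hS q.1 (hmem q).1 j) (fun q q' h => Subtype.ext
      (hSinj q.1 (hmem q).1 q'.1 (hmem q').1 h))
    (fun j q => hFq j q.1 (hmem q).1) (fun q => (hmem q).2)
  rw [Fintype.card_coe, hS'] at hgood
  have hsplit : S.card = (S.filter fun q => G.eval (q.1 : L) = 0).card +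
      (S.filter fun q => G.eval (q.1 : L) ≠ 0).card :=
    (Finset.card_filter_add_card_filter_not (s := S) (fun q => G.eval (q.1 : L) = 0)).symm
  -- the numbers
  set K : ℕ := (D + 1) ^ d * d with hK
  have hK1 : 1 ≤ K := by
    have : 1 ≤ d := hr.trans hrd
    exact Nat.mul_pos (by positivity) this
  have hO : (D + 1) ^ d * (d * (H - 1)) + 1 ≤ K * H := by
    obtain ⟨h, rfl⟩ : ∃ h, H = h + 1 := ⟨H - 1, by omega⟩
    rw [Nat.add_sub_cancel]
    calc (D + 1) ^ d * (d * h) + 1 = K * h + 1 := by rw [hK]; ring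
      _ ≤ K * h + K := by omega
      _ = K * (h + 1) := by ring
  have hH1 : 1 ≤ H ^ r := Nat.one_le_pow _ _ hH
  have hgood2 : (S.filter fun q => G.eval (q.1 : L) ≠ 0).card ≤
      ((d ^ r * D + D) * K + 1) * (2 ^ d * (D + 1) ^ d * K ^ (r - 1)) * H ^ r := by
    refine hgood.trans ?_
    have e1 : (Fintype.card {I : Fin r → Fin d // Function.Injective I} * D + D) *
        ((D + 1) ^ d * (d * (H - 1)) + 1) + 1 ≤ ((d ^ r * D + D) * K + 1) * H := by
      have h2 : (Fintype.card {I : Fin r → Fin d // Function.Injective I} * D + D) *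
          ((D + 1) ^ d * (d * (H - 1)) + 1) ≤ (d ^ r * D + D) * (K * H) :=
        Nat.mul_le_mul (Nat.add_le_add_right (Nat.mul_le_mul_right _ hJ) _) hO
      calc _ ≤ (d ^ r * D + D) * (K * H) + H := Nat.add_le_add h2 hH
        _ = _ := by ring
    have e2 : 2 ^ d * (D + 1) ^ d * ((D + 1) ^ d * (d * (H - 1)) + 1) ^ (r - 1) ≤
        2 ^ d * (D + 1) ^ d * (K * H) ^ (r - 1) :=
      Nat.mul_le_mul_left _ (Nat.pow_le_pow_left hO _)
    refine (Nat.mul_le_mul e1 e2).trans (le_of_eq ?_)
    obtain ⟨s, rfl⟩ : ∃ s, r = s + 1 := ⟨r - 1, by omega⟩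
    rw [Nat.add_sub_cancel, mul_pow, pow_succ]
    ring
  rw [hsplit, add_mul]
  have h3 : C1 * (d ^ r * D) ≤ C1 * (d ^ r * D) * H ^ r := Nat.le_mul_of_pos_right _ hH1
  linarith [hbad, hgood2, h3]

end Vale.Agent.P018.K
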