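import Mathlib
import Vale.Agent.P018.Defs
import Vale.Agent.P018.PairsDef

/-! # P018, K-method: definitions.

`G` is a monic integer polynomial of degree `d` with roots `θ 0, …, θ (d-1)` in the ring of
integers of a number field `L`; the small elements are `ell (θ i) y = ∑ j, y j * (θ i)^j`. -/

namespace Vale.Agent.P018.K

open Polynomial

/-- the element `∑ j, y j * θ ^ j`. -/
def ell {R : Type*} [CommRing R] {d : ℕ} (θ : R) (y : Fin d → ℤ) : R :=
  ∑ j, (y j : R) * θ ^ (j : ℕ)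

/-- `need k e = ⌈-e/k⌉` for negative `e`, and `0` for `e ≥ 0`. -/
def need (k : ℕ) (e : ℤ) : ℕ := ((-e).toNat + (k - 1)) / k

/-- the sum of the `need k (e i)`. -/
def needs (k : ℕ) {r : ℕ} (e : Fin r → ℤ) : ℕ := ∑ i, need k (e i)

/-- the function `n^(t - needs) * ∏ γ_i^(need) π_i^(e_i + k need)`. -/
def fn {R : Type*} [CommRing R] {r : ℕ} (k : ℕ) (n : R) (z γ : Fin r → R) (t : ℕ)
    (e : Fin r → ℤ) : R :=
  n ^ (t - needs k e) * ∏ i, γ i ^ need k (e i) * z i ^ (e i + k * need k (e i)).toNat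

/-- the integral in the criterion. -/
noncomputable def Jint (r : ℕ) (m w k : ℝ) : ℝ :=
  ∑ j ∈ Finset.Icc 1 r,
    (r.choose j : ℝ) / ((j - 1).factorial * (r - j + 1).factorial * w ^ (r - j)) *
      ∫ u in (0 : ℝ)..k, u ^ (j - 1) * (max (w * u - m) 0) ^ (r - j + 1)

/-- the pair `(d, k)` is admissible at the exponent `a` (primes of size `X^a`). -/
def Adm (d k : ℕ) (a : ℝ) : Prop :=
  ∃ (r : ℕ) (m b : ℝ), 1 ≤ r ∧ r ≤ d ∧ 0 ≤ m ∧ m < 1 ∧ 0 < b ∧ b < a / d ∧
    a * r / d + b * (d - r) < 1 ∧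
    (1 - m) ^ (r + 1) / ((r + 1).factorial * b ^ r) < Jint r m (a / d) k

end Vale.Agent.P018.K
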