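import Vale.Agent.P018.K.Defs
import Vale.Agent.P018.DetBound

/-! # P018, K-method, module K4: the determinant estimate (over `ℂ`). -/

namespace Vale.Agent.P018.K

open Polynomial

lemma dets_coeff_step {A : ℝ} (hA : 1 ≤ A) {c θ : ℂ} (hc : ‖c‖ ≤ A) (hθ : ‖θ‖ ≤ A) {p : ℂ[X]}
    {B : ℝ} (hB : ∀ s, ‖p.coeff s‖ ≤ B) (s : ℕ) :
    ‖(p * (C c * (X - C θ))).coeff s‖ ≤ B * (2 * A ^ 2) := by
  have hB0 : 0 ≤ B := (norm_nonneg _).trans (hB 0)
  have hA0 : 0 ≤ A := by linarith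
  have e : p * (C c * (X - C θ)) = C c * (p * X - p * C θ) := by ring
  rw [e, coeff_C_mul, coeff_sub, coeff_mul_C, norm_mul]
  have h1 : ‖(p * X).coeff s‖ ≤ B := by
    cases s with
    | zero => rw [mul_coeff_zero, coeff_X_zero, mul_zero, norm_zero]; exact hB0
    | succ s => rw [coeff_mul_X]; exact hB s
  have h2 : ‖p.coeff s * θ‖ ≤ B * A := by
    rw [norm_mul]
    exact mul_le_mul (hB s) hθ (norm_nonneg _) hB0
  have h3 := norm_sub_le ((p * X).coeff s) (p.coeff s * θ)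
  calc ‖c‖ * ‖(p * X).coeff s - p.coeff s * θ‖ ≤ A * (B + B * A) :=
        mul_le_mul hc (h3.trans (add_le_add h1 h2)) (norm_nonneg _) hA0
    _ ≤ B * (2 * A ^ 2) := by
      nlinarith [mul_nonneg (mul_nonneg hA0 hB0) (sub_nonneg.2 hA)]

lemma dets_coeff_pow {A : ℝ} (hA : 1 ≤ A) {c θ : ℂ} (hc : ‖c‖ ≤ A) (hθ : ‖θ‖ ≤ A) {p : ℂ[X]}
    {B : ℝ} (hB : ∀ s, ‖p.coeff s‖ ≤ B) (j : ℕ) : ∀ s,
    ‖(p * (C c * (X - C θ)) ^ j).coeff s‖ ≤ B * (2 * A ^ 2) ^ j := by
  induction j with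
  | zero => intro s; simpa using hB s
  | succ j ih =>
    intro s
    have e : p * (C c * (X - C θ)) ^ (j + 1) = (p * (C c * (X - C θ)) ^ j) * (C c * (X - C θ)) := by
      rw [pow_succ, mul_assoc]
    rw [e]
    refine (dets_coeff_step hA hc hθ ih s).trans (le_of_eq ?_)
    rw [pow_succ (2 * A ^ 2) j, mul_assoc]

lemma dets_coeff_prod {A : ℝ} (hA : 1 ≤ A) {r : ℕ} {c : ℂ} {θ : Fin r → ℂ} (hc : ‖c‖ ≤ A)
    (hθ : ∀ i, ‖θ i‖ ≤ A) {p : ℂ[X]} {B : ℝ} (hB : ∀ s, ‖p.coeff s‖ ≤ B) (m : Fin r → ℕ)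
    (S : Finset (Fin r)) : ∀ s,
    ‖(p * ∏ i ∈ S, (C c * (X - C (θ i))) ^ m i).coeff s‖ ≤ B * (2 * A ^ 2) ^ ∑ i ∈ S, m i := by
  induction S using Finset.induction_on with
  | empty => intro s; simpa using hB s
  | insert i S hi ih =>
    intro s
    have e : p * ∏ j ∈ insert i S, (C c * (X - C (θ j))) ^ m j =
        (p * ∏ j ∈ S, (C c * (X - C (θ j))) ^ m j) * (C c * (X - C (θ i))) ^ m i := by
      rw [Finset.prod_insert hi]
      ring
    rw [e, Finset.sum_insert hi]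
    have h := dets_coeff_pow hA hc (hθ i) ih (m i) s
    refine h.trans (le_of_eq ?_)
    rw [pow_add]
    ring

/-- the polynomial in `n`. -/
noncomputable def detsPl {r : ℕ} (k : ℕ) (c : ℂ) (θ : Fin r → ℂ) (t : ℕ) (e : Fin r → ℤ) :
    ℂ[X] :=
  X ^ (t - needs k e) * ∏ i, (C c * (X - C (θ i))) ^ need k (e i)

lemma dets_pl_coeff {A : ℝ} (hA : 1 ≤ A) {r : ℕ} (k : ℕ) {c : ℂ} {θ : Fin r → ℂ} (hc : ‖c‖ ≤ A)
    (hθ : ∀ i, ‖θ i‖ ≤ A) {t : ℕ} {e : Fin r → ℤ} (ht : needs k e ≤ t) (s : ℕ) :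
    ‖(detsPl k c θ t e).coeff s‖ ≤ (2 * A ^ 2) ^ t := by
  have h := dets_coeff_prod hA hc hθ (p := X ^ (t - needs k e)) (B := 1) (fun s => by
    rw [coeff_X_pow]
    split_ifs
    · simp
    · simp) (fun i => need k (e i)) Finset.univ s
  unfold detsPl
  refine h.trans ?_
  rw [one_mul]
  refine pow_le_pow_right₀ (by nlinarith) ?_
  exact ht

lemma dets_pl_natDegree {r : ℕ} (k : ℕ) (c : ℂ) (θ : Fin r → ℂ) {t : ℕ} {e : Fin r → ℤ}
    (ht : needs k e ≤ t) : (detsPl k c θ t e).natDegree ≤ t := by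
  unfold detsPl
  refine natDegree_mul_le.trans ?_
  have h1 : (X ^ (t - needs k e) : ℂ[X]).natDegree ≤ t - needs k e := by
    rw [natDegree_X_pow]
  have h2 : (∏ i, (C c * (X - C (θ i))) ^ need k (e i)).natDegree ≤ needs k e := by
    refine (natDegree_prod_le _ _).trans ?_
    unfold needs
    refine Finset.sum_le_sum fun i _ => ?_
    have h3 : (C c * (X - C (θ i))).natDegree ≤ 1 :=
      (natDegree_C_mul_le _ _).trans (natDegree_X_sub_C_le _)
    have h4 := natDegree_pow_le_of_le (need k (e i)) h3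
    rwa [mul_one] at h4
  omega

lemma dets_pl_eval {r : ℕ} (k : ℕ) (c : ℂ) (θ : Fin r → ℂ) (t : ℕ) (e : Fin r → ℤ) (n : ℂ) :
    (detsPl k c θ t e).eval n =
      n ^ (t - needs k e) * ∏ i, (c * (n - θ i)) ^ need k (e i) := by
  unfold detsPl
  rw [eval_mul, eval_pow, eval_X, eval_prod]
  congr 1
  refine Finset.prod_congr rfl fun i _ => ?_
  rw [eval_pow, eval_mul, eval_C, eval_sub, eval_X, eval_C]

lemma dets_pl_sum {r : ℕ} (k : ℕ) (c : ℂ) (θ : Fin r → ℂ) {t tm : ℕ} {e : Fin r → ℤ}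
    (ht : needs k e ≤ t) (htm : t ≤ tm) (n : ℂ) :
    (detsPl k c θ t e).eval n =
      ∑ s : Fin (tm + 1), (detsPl k c θ t e).coeff s * n ^ (s : ℕ) := by
  rw [eval_eq_sum_range' (n := tm + 1)
    (Nat.lt_succ_of_le ((dets_pl_natDegree k c θ ht).trans htm)),
    Fin.sum_univ_eq_sum_range (fun s => (detsPl k c θ t e).coeff s * n ^ s)]

lemma dets_binom (z z0 : ℂ) {m D : ℕ} (hm : m ≤ D) :
    z ^ m = ∑ a : Fin (D + 1), ((m.choose a : ℂ) * z0 ^ (m - a)) * (z - z0) ^ (a : ℕ) := by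
  rw [Fin.sum_univ_eq_sum_range (fun a => ((m.choose a : ℂ) * z0 ^ (m - a)) * (z - z0) ^ a)]
  have h1 := add_pow (z - z0) z0 m
  rw [sub_add_cancel] at h1
  rw [h1]
  have h2 : Finset.range (m + 1) ⊆ Finset.range (D + 1) :=
    Finset.range_subset_range.2 (Nat.succ_le_succ hm)
  rw [← Finset.sum_subset h2 (fun a _ ha => ?_)]
  · exact Finset.sum_congr rfl fun a _ => by ring
  · rw [Finset.mem_range, not_lt] at ha
    rw [Nat.choose_eq_zero_of_lt (by omega)]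
    simp

lemma dets_row {r : ℕ} {k : ℕ} {t : ℕ} {e : Fin r → ℤ} {E : ℕ}
    (hE : ∀ i, (e i).natAbs ≤ E) (hk : 1 ≤ k) {n c : ℂ} {z γ θ : Fin r → ℂ}
    (hz : ∀ i, z i ^ k * γ i = c * (n - θ i)) :
    (∏ i, z i ^ E) * fn k n z γ t e =
      (detsPl k c θ t e).eval n * ∏ i, z i ^ (e i + E).toNat := by
  rw [dets_pl_eval]
  unfold fn
  have h : ∀ i, z i ^ E * (γ i ^ need k (e i) * z i ^ (e i + k * need k (e i)).toNat) =
      (c * (n - θ i)) ^ need k (e i) * z i ^ (e i + E).toNat := by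
    intro i
    rw [← hz i, mul_pow, ← pow_mul]
    have h1 : 0 ≤ e i + k * need k (e i) := by
      have h2 : (-(e i)).toNat ≤ k * need k (e i) := by
        unfold need
        have := Nat.div_add_mod ((-(e i)).toNat + (k - 1)) k
        have h3 := Nat.mod_lt ((-(e i)).toNat + (k - 1)) (show 0 < k by omega)
        omega
      have h4 : ((k * need k (e i) : ℕ) : ℤ) = k * need k (e i) := by push_cast; ring
      omega
    have h5 : E + (e i + k * need k (e i)).toNat = k * need k (e i) + (e i + E).toNat := by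
      have := hE i
      have h4 : ((k * need k (e i) : ℕ) : ℤ) = k * need k (e i) := by push_cast; ring
      omega
    calc z i ^ E * (γ i ^ need k (e i) * z i ^ (e i + k * need k (e i)).toNat) =
        z i ^ (E + (e i + k * need k (e i)).toNat) * γ i ^ need k (e i) := by
          rw [pow_add]; ring
      _ = z i ^ (k * need k (e i) + (e i + E).toNat) * γ i ^ need k (e i) := by rw [h5]
      _ = _ := by rw [pow_add]; ring
  calc (∏ i, z i ^ E) * (n ^ (t - needs k e) *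
        ∏ i, γ i ^ need k (e i) * z i ^ (e i + k * need k (e i)).toNat) =
      n ^ (t - needs k e) * ∏ i, (z i ^ E *
        (γ i ^ need k (e i) * z i ^ (e i + k * need k (e i)).toNat)) := by
        rw [Finset.prod_mul_distrib (f := fun i => z i ^ E)]
        exact mul_left_comm _ _ _
    _ = n ^ (t - needs k e) * ∏ i, ((c * (n - θ i)) ^ need k (e i) *
        z i ^ (e i + E).toNat) := by
        congr 1
        exact Finset.prod_congr rfl fun i _ => h i
    _ = _ := by rw [Finset.prod_mul_distrib]; ring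

/-- generic estimate -/
lemma dets_generic {J T : Type*} [Fintype J] [DecidableEq J] [Fintype T] [DecidableEq T]
    (A : J → T → ℂ) (B : T → J → ℂ) (Γ : ℝ) (hΓ0 : 0 ≤ Γ)
    (h : ∀ (φ : J → T) (σ : Equiv.Perm J), Function.Injective φ →
      ∏ j, (‖A (σ j) (φ j)‖ * ‖B (φ j) j‖) ≤ Γ) :
    ‖(Matrix.of fun i j => ∑ t, A i t * B t j).det‖ ≤
      (Fintype.card T : ℝ) ^ (Fintype.card J) * ((Fintype.card J).factorial * Γ) := by
  rw [det_expand]
  refine (norm_sum_le _ _).trans ?_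
  have hcard : (Fintype.card T : ℝ) ^ (Fintype.card J) = (Finset.univ : Finset (J → T)).card := by
    simp [Finset.card_univ]
  rw [hcard, ← nsmul_eq_mul, ← Finset.sum_const]
  refine Finset.sum_le_sum fun φ _ => ?_
  by_cases hinj : Function.Injective φ
  · rw [Matrix.det_apply, Finset.mul_sum]
    refine (norm_sum_le _ _).trans ?_
    have hperm : ((Fintype.card J).factorial : ℝ) = (Finset.univ : Finset (Equiv.Perm J)).card := by
      rw [Finset.card_univ, Fintype.card_perm]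
    rw [hperm, ← nsmul_eq_mul, ← Finset.sum_const]
    refine Finset.sum_le_sum fun σ _ => ?_
    refine le_trans (le_of_eq ?_) (h φ σ hinj)
    have h3 : ‖Equiv.Perm.sign σ • ∏ i, (Matrix.of fun i j => A i (φ j)) (σ i) i‖ =
        ∏ i, ‖A (σ i) (φ i)‖ := by
      rcases Int.units_eq_one_or (Equiv.Perm.sign σ) with h | h
      · simp [h, norm_prod]
      · simp [h, norm_prod]
    rw [norm_mul, h3, norm_prod, Finset.prod_mul_distrib, mul_comm]
  · rw [det_zero_of_not_injective A φ hinj, mul_zero, norm_zero]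
    positivity

lemma dets_A_bound {A R : ℝ} (hA : 1 ≤ A) (hR : 1 ≤ R) {r E : ℕ} {m : Fin r → ℕ}
    (hm : ∀ i, m i ≤ 2 * E) {z0 : Fin r → ℂ} (hz0 : ∀ i, ‖z0 i‖ ≤ A * R)
    (α : Fin r → Fin (2 * E + 1)) :
    ‖∏ i, (((m i).choose (α i) : ℂ) * z0 i ^ (m i - α i))‖ ≤
      (2 ^ (2 * E) * A ^ (2 * E)) ^ r * (R ^ ∑ i, m i) * (R⁻¹) ^ ∑ i, ((α i : ℕ)) := by
  have hA0 : 0 < A := by linarith
  have hR0 : 0 < R := by linarith
  rw [norm_prod]
  have h : ∀ i, ‖(((m i).choose (α i) : ℂ) * z0 i ^ (m i - α i))‖ ≤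
      (2 ^ (2 * E) * A ^ (2 * E)) * (R ^ m i * (R⁻¹) ^ (α i : ℕ)) := by
    intro i
    by_cases hi : (α i : ℕ) ≤ m i
    · rw [norm_mul, norm_pow, Complex.norm_natCast]
      have h1 : (((m i).choose (α i) : ℕ) : ℝ) ≤ 2 ^ (2 * E) := by
        have h2 : (m i).choose (α i) ≤ 2 ^ (m i) := Nat.choose_le_two_pow _ _
        have h3 : (2 : ℕ) ^ (m i) ≤ 2 ^ (2 * E) := Nat.pow_le_pow_right (by norm_num) (hm i)
        exact_mod_cast h2.trans h3
      have h4 : ‖z0 i‖ ^ (m i - α i) ≤ A ^ (2 * E) * (R ^ m i * (R⁻¹) ^ (α i : ℕ)) := by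
        have h5 : R ^ m i * (R⁻¹) ^ (α i : ℕ) = R ^ (m i - α i) := by
          rw [inv_pow, ← div_eq_mul_inv, div_eq_iff (by positivity), ← pow_add]
          congr 1
          omega
        rw [h5]
        calc ‖z0 i‖ ^ (m i - α i) ≤ (A * R) ^ (m i - α i) :=
              pow_le_pow_left₀ (norm_nonneg _) (hz0 i) _
          _ = A ^ (m i - α i) * R ^ (m i - α i) := mul_pow _ _ _
          _ ≤ A ^ (2 * E) * R ^ (m i - α i) := by
            apply mul_le_mul_of_nonneg_right _ (by positivity)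
            exact pow_le_pow_right₀ hA (by have := hm i; omega)
      rw [mul_assoc]
      exact mul_le_mul h1 h4 (by positivity) (by positivity)
    · rw [Nat.choose_eq_zero_of_lt (by omega)]
      simp only [Nat.cast_zero, zero_mul, norm_zero]
      positivity
  refine (Finset.prod_le_prod (fun i _ => norm_nonneg _) (fun i _ => h i)).trans (le_of_eq ?_)
  have h1 : ∏ i : Fin r, ((2 ^ (2 * E) * A ^ (2 * E)) * (R ^ m i * (R⁻¹) ^ (α i : ℕ))) =
      (∏ _i : Fin r, (2 ^ (2 * E) * A ^ (2 * E) : ℝ)) *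
        ((∏ i, R ^ m i) * ∏ i, (R⁻¹) ^ (α i : ℕ)) := by
    rw [← Finset.prod_mul_distrib, ← Finset.prod_mul_distrib]
  rw [h1, Finset.prod_const, Finset.card_univ, Fintype.card_fin, Finset.prod_pow_eq_pow_sum,
    Finset.prod_pow_eq_pow_sum, mul_assoc]

lemma dets_B_bound {A X ρ : ℝ} (hA : 1 ≤ A) (hX : 1 ≤ X) (hρ : 0 < ρ) {r E tm : ℕ}
    {n : ℂ} (hn : ‖n‖ ≤ A * X) {w : Fin r → ℂ} (hw : ∀ i, ‖w i‖ ≤ A * ρ) (s : Fin (tm + 1))
    (α : Fin r → Fin (2 * E + 1)) :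
    ‖n ^ (s : ℕ) * ∏ i, w i ^ (α i : ℕ)‖ ≤
      (A ^ tm * (A ^ (2 * E)) ^ r) * (X ^ (s : ℕ) * ρ ^ ∑ i, ((α i : ℕ))) := by
  have hA0 : 0 < A := by linarith
  rw [norm_mul, norm_pow, norm_prod]
  have h1 : ‖n‖ ^ (s : ℕ) ≤ A ^ tm * X ^ (s : ℕ) := by
    calc ‖n‖ ^ (s : ℕ) ≤ (A * X) ^ (s : ℕ) := pow_le_pow_left₀ (norm_nonneg _) hn _
      _ = A ^ (s : ℕ) * X ^ (s : ℕ) := mul_pow _ _ _
      _ ≤ _ := by
        apply mul_le_mul_of_nonneg_right _ (by positivity)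
        exact pow_le_pow_right₀ hA (by omega)
  have h2 : ∏ i, ‖w i ^ (α i : ℕ)‖ ≤ (A ^ (2 * E)) ^ r * ρ ^ ∑ i, ((α i : ℕ)) := by
    have h3 : ∀ i, ‖w i ^ (α i : ℕ)‖ ≤ A ^ (2 * E) * ρ ^ (α i : ℕ) := by
      intro i
      rw [norm_pow]
      calc ‖w i‖ ^ (α i : ℕ) ≤ (A * ρ) ^ (α i : ℕ) := pow_le_pow_left₀ (norm_nonneg _) (hw i) _
        _ = A ^ (α i : ℕ) * ρ ^ (α i : ℕ) := mul_pow _ _ _
        _ ≤ _ := by
          apply mul_le_mul_of_nonneg_right _ (by positivity)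
          exact pow_le_pow_right₀ hA (by omega)
    refine (Finset.prod_le_prod (fun i _ => norm_nonneg _) (fun i _ => h3 i)).trans
      (le_of_eq ?_)
    rw [Finset.prod_mul_distrib, Finset.prod_const, Finset.card_univ, Fintype.card_fin,
      Finset.prod_pow_eq_pow_sum]
  refine (mul_le_mul h1 h2 (Finset.prod_nonneg fun i _ => norm_nonneg _)
    (by positivity)).trans (le_of_eq ?_)
  ring

theorem det_small {r : ℕ} (k : ℕ) (hk : 1 ≤ k) {ι : Type} [Fintype ι] [DecidableEq ι]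
    (t : ι → ℕ) (e : ι → Fin r → ℤ) (ht : ∀ f, needs k (e f) ≤ t f) (A : ℝ) (hA : 1 ≤ A) :
    ∃ C : ℝ, 0 < C ∧ ∀ (X R ρ V : ℝ), 1 ≤ X → 1 ≤ R → 0 < ρ → ρ ≤ R → 0 ≤ V →
      ∀ (θ : Fin r → ℂ) (c : ℂ) (n : ι → ℂ) (z γ : ι → Fin r → ℂ) (z0 : Fin r → ℂ),
      (∀ i, ‖θ i‖ ≤ A) → ‖c‖ ≤ A → (∀ q, ‖n q‖ ≤ A * X) →
      (∀ q i, ‖z q i - z0 i‖ ≤ A * ρ) → (∀ q i, R / A ≤ ‖z q i‖) → (∀ q i, ‖z q i‖ ≤ A * R) →
      (∀ i, ‖z0 i‖ ≤ A * R) → (∀ q i, z q i ^ k * γ q i = c * (n q - θ i)) →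
      (∀ m : ι → ℕ × (Fin r → ℕ), Function.Injective m → (∀ f, (m f).1 ≤ t f) →
        ∏ f, (R ^ (∑ i, e f i : ℤ) * X ^ (m f).1 * (ρ / R) ^ (∑ i, (m f).2 i)) ≤ V) →
      ‖(Matrix.of fun q f => fn k (n q) (z q) (γ q) (t f) (e f)).det‖ ≤ C * V := by
  classical
  set tm := Finset.univ.sup t with htm
  have htm' : ∀ f, t f ≤ tm := fun f => Finset.le_sup (f := t) (Finset.mem_univ f)
  set E := Finset.univ.sup (fun f => Finset.univ.sup fun i => (e f i).natAbs) with hE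
  have hE' : ∀ f i, (e f i).natAbs ≤ E := fun f i =>
    (Finset.le_sup (f := fun i => (e f i).natAbs) (Finset.mem_univ i)).trans
      (Finset.le_sup (f := fun f => Finset.univ.sup fun i => (e f i).natAbs)
        (Finset.mem_univ f))
  have hm2 : ∀ f i, (e f i + E).toNat ≤ 2 * E := fun f i => by
    have := hE' f i
    omega
  have hA0 : 0 < A := by linarith
  set K₃ : ℝ := (2 * A ^ 2) ^ tm * (2 ^ (2 * E) * A ^ (2 * E)) ^ r *
    (A ^ tm * (A ^ (2 * E)) ^ r) with hK₃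
  have hK₃0 : 0 < K₃ := by positivity
  set T := Fin (tm + 1) × (Fin r → Fin (2 * E + 1)) with hT
  set Nn := Fintype.card ι with hNn
  refine ⟨(Fintype.card T : ℝ) ^ Nn * (Nn.factorial * K₃ ^ Nn) * A ^ (E * r * Nn), ?_, ?_⟩
  · have h1 : 0 < (Fintype.card T : ℝ) := by
      have : 0 < Fintype.card T := Fintype.card_pos
      exact_mod_cast this
    have h2 : 0 < (Nn.factorial : ℝ) := by exact_mod_cast Nn.factorial_pos
    positivity
  intro X R ρ V hX hR hρ hρR hV θ c n z γ z0 hθ hc hn hz hzl hzu hz0 hzγ hV'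
  have hR0 : 0 < R := by linarith
  have hX0 : 0 < X := by linarith
  -- the two factors
  set AA : ι → T → ℂ := fun f p => (detsPl k c θ (t f) (e f)).coeff p.1 *
    ∏ i, ((((e f i + E).toNat).choose (p.2 i) : ℂ) * z0 i ^ ((e f i + E).toNat - p.2 i)) with hAA
  set BB : T → ι → ℂ := fun p q => n q ^ (p.1 : ℕ) * ∏ i, (z q i - z0 i) ^ (p.2 i : ℕ) with hBB
  have hentry : ∀ q f, (∏ i, z q i ^ E) * fn k (n q) (z q) (γ q) (t f) (e f) =
      ∑ p, AA f p * BB p q := by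
    intro q f
    rw [dets_row (hE' f) hk (hzγ q), dets_pl_sum k c θ (ht f) (htm' f) (n q)]
    have h1 : ∏ i, z q i ^ (e f i + E).toNat = ∑ α : Fin r → Fin (2 * E + 1),
        ∏ i, (((((e f i + E).toNat).choose (α i) : ℂ) * z0 i ^ ((e f i + E).toNat - α i)) *
          (z q i - z0 i) ^ (α i : ℕ)) := by
      rw [← Fintype.prod_sum (fun (i : Fin r) (a : Fin (2 * E + 1)) =>
        (((((e f i + E).toNat).choose a : ℂ) * z0 i ^ ((e f i + E).toNat - a)) *
          (z q i - z0 i) ^ (a : ℕ)))]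
      exact Finset.prod_congr rfl fun i _ => dets_binom _ _ (hm2 f i)
    rw [h1, Fintype.sum_prod_type, Finset.sum_mul_sum]
    refine Finset.sum_congr rfl fun s _ => Finset.sum_congr rfl fun α _ => ?_
    simp only [hAA, hBB]
    rw [Finset.prod_mul_distrib]
    ring
  have hmat : (Matrix.of fun q f => (fun q => ∏ i, z q i ^ E) q *
      (Matrix.of fun q f => fn k (n q) (z q) (γ q) (t f) (e f)) q f) =
      (Matrix.of fun f q => ∑ p, AA f p * BB p q).transpose := by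
    ext q f
    simp only [Matrix.of_apply, Matrix.transpose_apply]
    exact hentry q f
  have hdet := Matrix.det_mul_column (fun q => ∏ i, z q i ^ E)
    (Matrix.of fun q f => fn k (n q) (z q) (γ q) (t f) (e f))
  rw [hmat, Matrix.det_transpose] at hdet
  -- the bound
  have hAbd : ∀ f (p : T), ‖AA f p‖ ≤ (2 * A ^ 2) ^ tm *
      ((2 ^ (2 * E) * A ^ (2 * E)) ^ r * (R ^ ∑ i, (e f i + E).toNat) *
        (R⁻¹) ^ ∑ i, ((p.2 i : ℕ))) := by
    intro f p
    simp only [hAA]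
    rw [norm_mul]
    refine mul_le_mul ((dets_pl_coeff hA k hc hθ (ht f) p.1).trans
      (pow_le_pow_right₀ (by nlinarith) (htm' f)))
      (dets_A_bound hA hR (hm2 f) hz0 p.2) (norm_nonneg _) (by positivity)
  have hBbd : ∀ (p : T) q, ‖BB p q‖ ≤ (A ^ tm * (A ^ (2 * E)) ^ r) *
      (X ^ (p.1 : ℕ) * ρ ^ ∑ i, ((p.2 i : ℕ))) := fun p q =>
    dets_B_bound hA hX hρ (hn q) (hz q) p.1 p.2
  have hAz : ∀ f (p : T), t f < p.1 → AA f p = 0 := by
    intro f p hp
    simp only [hAA]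
    rw [coeff_eq_zero_of_natDegree_lt
      (lt_of_le_of_lt (dets_pl_natDegree k c θ (ht f)) hp), zero_mul]
  have hRm : ∀ f, R ^ (∑ i, (e f i + E).toNat) = R ^ (E * r) * R ^ (∑ i, e f i : ℤ) := by
    intro f
    rw [← zpow_natCast, ← zpow_natCast, ← zpow_add₀ hR0.ne']
    congr 1
    push_cast
    have h1 : ∀ i, ((e f i + E).toNat : ℤ) = e f i + E := fun i => by
      have := hE' f i
      omega
    rw [Finset.sum_congr rfl fun i _ => h1 i, Finset.sum_add_distrib, Finset.sum_const,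
      Finset.card_univ, Fintype.card_fin, nsmul_eq_mul]
    ring
  have hprod : ∀ f (p : T) q, ‖AA f p‖ * ‖BB p q‖ ≤ (K₃ * R ^ (E * r)) *
      (R ^ (∑ i, e f i : ℤ) * X ^ (p.1 : ℕ) * (ρ / R) ^ ∑ i, ((p.2 i : ℕ))) := by
    intro f p q
    refine (mul_le_mul (hAbd f p) (hBbd p q) (norm_nonneg _) (by positivity)).trans
      (le_of_eq ?_)
    rw [hRm f, div_eq_mul_inv, mul_pow, hK₃]
    ring
  have hgen := dets_generic AA BB ((K₃ * R ^ (E * r)) ^ Nn * V) (by positivity) (by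
    intro φ σ hφ
    by_cases hs : ∀ j, ((φ j).1 : ℕ) ≤ t (σ j)
    · refine (Finset.prod_le_prod (fun j _ => by positivity)
        (fun j _ => hprod (σ j) (φ j) j)).trans ?_
      have h0 : ∏ j, ((K₃ * R ^ (E * r)) * (R ^ (∑ i, e (σ j) i : ℤ) * X ^ ((φ j).1 : ℕ) *
          (ρ / R) ^ ∑ i, (((φ j).2 i : ℕ)))) = (K₃ * R ^ (E * r)) ^ Nn *
          ∏ j, (R ^ (∑ i, e (σ j) i : ℤ) * X ^ ((φ j).1 : ℕ) *
          (ρ / R) ^ ∑ i, (((φ j).2 i : ℕ))) := by
        rw [Finset.prod_mul_distrib, Finset.prod_const, Finset.card_univ]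
      rw [h0]
      refine mul_le_mul_of_nonneg_left ?_ (by positivity)
      have h1 := hV' (fun f => (((φ (σ.symm f)).1 : ℕ), fun i => ((φ (σ.symm f)).2 i : ℕ))) (by
        intro f g hfg
        simp only [Prod.mk.injEq] at hfg
        have h2 : φ (σ.symm f) = φ (σ.symm g) := by
          refine Prod.ext (Fin.ext hfg.1) (funext fun i => Fin.ext ?_)
          exact congrFun hfg.2 i
        exact σ.symm.injective (hφ h2)) (fun f => by
          have := hs (σ.symm f)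
          rwa [Equiv.apply_symm_apply] at this)
      refine le_trans (le_of_eq ?_) h1
      refine Eq.trans ?_ (Equiv.prod_comp σ (fun f => R ^ (∑ i, e f i : ℤ) *
        X ^ (((φ (σ.symm f)).1 : ℕ)) * (ρ / R) ^ (∑ i, (((φ (σ.symm f)).2 i : ℕ)))))
      refine Finset.prod_congr rfl fun j _ => ?_
      simp only [Equiv.symm_apply_apply]
    · push Not at hs
      obtain ⟨j, hj⟩ := hs
      have h0 : ∏ j, (‖AA (σ j) (φ j)‖ * ‖BB (φ j) j‖) = 0 :=
        Finset.prod_eq_zero (Finset.mem_univ j) (by rw [hAz _ _ hj, norm_zero, zero_mul])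
      rw [h0]
      positivity)
  rw [hdet, norm_mul, norm_prod] at hgen
  have hlow : (R / A) ^ (E * r * Nn) ≤ ∏ q, ‖∏ i, z q i ^ E‖ := by
    have h1 : ∀ q, (R / A) ^ (E * r) ≤ ‖∏ i, z q i ^ E‖ := by
      intro q
      rw [norm_prod]
      have h2 : (R / A) ^ (E * r) = ∏ _i : Fin r, (R / A) ^ E := by
        rw [Finset.prod_const, Finset.card_univ, Fintype.card_fin, pow_mul]
      rw [h2]
      refine Finset.prod_le_prod (fun i _ => by positivity) fun i _ => ?_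
      rw [norm_pow]
      exact pow_le_pow_left₀ (by positivity) (hzl q i) _
    have h3 : (R / A) ^ (E * r * Nn) = ∏ _q : ι, (R / A) ^ (E * r) := by
      rw [Finset.prod_const, Finset.card_univ, pow_mul]
    rw [h3]
    exact Finset.prod_le_prod (fun q _ => by positivity) fun q _ => h1 q
  set Dt := ‖(Matrix.of fun q f => fn k (n q) (z q) (γ q) (t f) (e f)).det‖ with hDt
  have hDt0 : 0 ≤ Dt := norm_nonneg _
  have hpos : 0 < (R / A) ^ (E * r * Nn) := by positivity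
  refine le_of_mul_le_mul_left ?_ hpos
  calc (R / A) ^ (E * r * Nn) * Dt ≤ (∏ q, ‖∏ i, z q i ^ E‖) * Dt :=
        mul_le_mul_of_nonneg_right hlow hDt0
    _ ≤ _ := hgen
    _ = _ := by
      have h5 : (R / A) ^ (E * r * Nn) * A ^ (E * r * Nn) = R ^ (E * r * Nn) := by
        rw [← mul_pow, div_mul_cancel₀ _ hA0.ne']
      rw [mul_pow, ← pow_mul]
      calc (Fintype.card T : ℝ) ^ Fintype.card ι * ((Fintype.card ι).factorial *
            (K₃ ^ Nn * R ^ (E * r * Nn) * V)) =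
          (Fintype.card T : ℝ) ^ Nn * (Nn.factorial * K₃ ^ Nn) * V * R ^ (E * r * Nn) := by
            ring
        _ = _ := by rw [← h5]; ring

end Vale.Agent.P018.K
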