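import Vale.Agent.P018.K.Defs

/-! # P018, K-method, module K8: the family of functions, from the integral criterion. -/

namespace Vale.Agent.P018.K

open Polynomial

theorem family_pow_sub_le (x y : ℝ) (hy : 0 ≤ y) (hxy : y ≤ x) (n : ℕ) :
    x ^ (n + 1) - y ^ (n + 1) ≤ (n + 1) * (x - y) * x ^ n := by
  induction n with
  | zero => simp
  | succ n ih =>
    have h1 : y ^ (n + 1) ≤ x ^ (n + 1) := pow_le_pow_left₀ hy hxy _
    have h2 : x * (x ^ (n + 1) - y ^ (n + 1)) ≤ x * ((n + 1) * (x - y) * x ^ n) :=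
      mul_le_mul_of_nonneg_left ih (hy.trans hxy)
    have h3 : y ^ (n + 1) * (x - y) ≤ x ^ (n + 1) * (x - y) :=
      mul_le_mul_of_nonneg_right h1 (sub_nonneg.2 hxy)
    have e1 : x ^ (n + 1 + 1) - y ^ (n + 1 + 1) =
        x * (x ^ (n + 1) - y ^ (n + 1)) + y ^ (n + 1) * (x - y) := by ring
    have e2 : (((n + 1 : ℕ) : ℝ) + 1) * (x - y) * x ^ (n + 1) =
        x * ((n + 1) * (x - y) * x ^ n) + x ^ (n + 1) * (x - y) := by push_cast; ring
    rw [e1, e2]
    linarith

theorem family_le_pow_sub (x y : ℝ) (hy : 0 ≤ y) (hxy : y ≤ x) (n : ℕ) :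
    (n + 1) * (x - y) * y ^ n ≤ x ^ (n + 1) - y ^ (n + 1) := by
  induction n with
  | zero => simp
  | succ n ih =>
    have h1 : y ^ (n + 1) ≤ x ^ (n + 1) := pow_le_pow_left₀ hy hxy _
    have h2 : y * ((n + 1) * (x - y) * y ^ n) ≤ y * (x ^ (n + 1) - y ^ (n + 1)) :=
      mul_le_mul_of_nonneg_left ih hy
    have h3 : y ^ (n + 1) * (x - y) ≤ x ^ (n + 1) * (x - y) :=
      mul_le_mul_of_nonneg_right h1 (sub_nonneg.2 hxy)
    have e1 : x ^ (n + 1 + 1) - y ^ (n + 1 + 1) =
        y * (x ^ (n + 1) - y ^ (n + 1)) + x ^ (n + 1) * (x - y) := by ring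
    have e2 : (((n + 1 : ℕ) : ℝ) + 1) * (x - y) * y ^ (n + 1) =
        y * ((n + 1) * (x - y) * y ^ n) + y ^ (n + 1) * (x - y) := by push_cast; ring
    rw [e1, e2]
    linarith

/-- the upper bound for the lattice sums -/
noncomputable def family_g (r : ℕ) (b Y : ℝ) : ℝ :=
  (Y + r * b) ^ (r + 1) / ((r + 1).factorial * b ^ r)

theorem family_g_nonneg (r : ℕ) (b Y : ℝ) (hb : 0 < b) (hY : 0 ≤ Y + r * b) :
    0 ≤ family_g r b Y := by
  unfold family_g; positivity

theorem family_g_step (r : ℕ) (b Y : ℝ) (hb : 0 < b) (hY : 0 ≤ Y) :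
    family_g r b Y ≤ family_g (r + 1) b Y - family_g (r + 1) b (Y - b) := by
  have hy : 0 ≤ Y + r * b := by positivity
  have h := family_le_pow_sub (Y + (r + 1) * b) (Y + r * b) hy (by linarith) (r + 1)
  unfold family_g
  rw [← sub_div]
  have e1 : Y + ((r + 1 : ℕ) : ℝ) * b = Y + (r + 1) * b := by push_cast; ring
  have e2 : Y - b + ((r + 1 : ℕ) : ℝ) * b = Y + r * b := by push_cast; ring
  rw [e1, e2]
  have hf : ((r + 1 + 1).factorial : ℝ) = (r + 2) * (r + 1).factorial := by
    rw [Nat.factorial_succ (r + 1)]; push_cast; ring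
  rw [hf, div_le_div_iff₀ (by positivity) (by positivity)]
  have e3 : (Y + r * b) ^ (r + 1) * ((r + 2) * ((r + 1).factorial : ℝ) * b ^ (r + 1)) =
      ((((r + 1 : ℕ) : ℝ) + 1) * (Y + (r + 1) * b - (Y + r * b)) * (Y + r * b) ^ (r + 1)) *
        (((r + 1).factorial : ℝ) * b ^ r) := by
    push_cast; ring
  rw [e3]
  exact mul_le_mul_of_nonneg_right h (by positivity)

theorem family_g_sum (r : ℕ) (b : ℝ) (hb : 0 < b) (N : ℕ) : ∀ Y : ℝ, b * N ≤ Y →
    ∑ c ∈ Finset.range (N + 1), family_g r b (Y - b * c) ≤ family_g (r + 1) b Y := by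
  induction N with
  | zero =>
    intro Y hY
    have hY' : 0 ≤ Y := by simpa using hY
    have h1 := family_g_step r b Y hb hY'
    have h2 := family_g_nonneg (r + 1) b (Y - b) hb (by push_cast; nlinarith [mul_nonneg (Nat.cast_nonneg (α := ℝ) r) hb.le])
    simp only [zero_add, Finset.range_one, Finset.sum_singleton, Nat.cast_zero, mul_zero, sub_zero]
    linarith
  | succ N ih =>
    intro Y hY
    have hN : 0 ≤ b * N := by positivity
    push_cast at hY
    have hY' : 0 ≤ Y := by nlinarith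
    have h1 := family_g_step r b Y hb hY'
    have h2 := ih (Y - b) (by linarith)
    rw [Finset.sum_range_succ']
    have e : ∀ c : ℕ, Y - b - b * c = Y - b * ((c + 1 : ℕ) : ℝ) := fun c => by push_cast; ring
    simp only [e] at h2
    simp only [Nat.cast_zero, mul_zero, sub_zero]
    linarith

/-- upper bound for lattice sums -/
theorem upper_sum (r : ℕ) (b Y : ℝ) (hb : 0 < b) (hY : 0 ≤ Y) (A : Finset (Fin r → ℕ)) :
    ∑ α ∈ A, (Y - b * ∑ i, (α i : ℝ)) ≤ (Y + r * b) ^ (r + 1) / ((r + 1).factorial * b ^ r) := by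
  induction r generalizing Y with
  | zero =>
    have hA : A.card ≤ 1 := by
      have := Finset.card_le_univ A
      simpa using this
    simp only [Finset.univ_eq_empty, Finset.sum_empty, mul_zero, sub_zero, Finset.sum_const,
      nsmul_eq_mul, Nat.cast_zero, zero_mul, add_zero, zero_add, pow_one, pow_zero, mul_one,
      Nat.factorial_one, Nat.cast_one, div_one]
    have hA' : (A.card : ℝ) ≤ 1 := by exact_mod_cast hA
    nlinarith
  | succ r ih =>
    change _ ≤ family_g (r + 1) b Y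
    set N := ⌊Y / b⌋₊ with hN
    have hNY : b * N ≤ Y := by
      have := Nat.floor_le (div_nonneg hY hb.le)
      rw [← hN, le_div_iff₀ hb] at this
      linarith
    refine le_trans ?_ (family_g_sum r b hb N Y hNY)
    set I := A.image (fun α => α 0) with hI
    have h1 : ∑ α ∈ A, (Y - b * ∑ i, (α i : ℝ)) =
        ∑ c ∈ I, ∑ α ∈ A.filter (fun α => α 0 = c), (Y - b * ∑ i, (α i : ℝ)) :=
      (Finset.sum_fiberwise_of_maps_to (fun α hα => Finset.mem_image_of_mem _ hα) _).symm
    rw [h1]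
    have h2 : ∀ c ∈ I, ∑ α ∈ A.filter (fun α => α 0 = c), (Y - b * ∑ i, (α i : ℝ)) ≤
        if c ∈ Finset.range (N + 1) then family_g r b (Y - b * c) else 0 := by
      intro c _
      have e : ∑ α ∈ A.filter (fun α => α 0 = c), (Y - b * ∑ i, (α i : ℝ)) =
          ∑ β ∈ (A.filter (fun α => α 0 = c)).image Fin.tail,
            ((Y - b * c) - b * ∑ i, (β i : ℝ)) := by
        rw [Finset.sum_image]
        · refine Finset.sum_congr rfl fun α hα => ?_
          have hc : α 0 = c := (Finset.mem_filter.1 hα).2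
          rw [Fin.sum_univ_succ, hc]
          simp only [Fin.tail]
          ring
        · intro α hα β hβ hab
          have hc : α 0 = c := (Finset.mem_filter.1 (Finset.mem_coe.1 hα)).2
          have hc' : β 0 = c := (Finset.mem_filter.1 (Finset.mem_coe.1 hβ)).2
          rw [← Fin.cons_self_tail α, ← Fin.cons_self_tail β, hab, hc, hc']
      rw [e]
      split_ifs with hc
      · have hcN : (c : ℝ) ≤ N := by
          have := Finset.mem_range.1 hc
          exact_mod_cast Nat.lt_succ_iff.1 this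
        refine ih (Y - b * c) ?_ _
        nlinarith
      · refine Finset.sum_nonpos fun β _ => ?_
        have hcN : Y / b < c := by
          rw [Finset.mem_range, not_lt] at hc
          exact (Nat.floor_lt (div_nonneg hY hb.le)).1 (by omega)
        rw [div_lt_iff₀ hb] at hcN
        have : 0 ≤ b * ∑ i, (β i : ℝ) := by positivity
        linarith
    refine (Finset.sum_le_sum h2).trans ?_
    have h3 : ∀ c : ℕ, 0 ≤ if c ∈ Finset.range (N + 1) then family_g r b (Y - b * c) else 0 := by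
      intro c
      split_ifs with hc
      · have hcN : (c : ℝ) ≤ N := by
          have := Finset.mem_range.1 hc
          exact_mod_cast Nat.lt_succ_iff.1 this
        refine family_g_nonneg r b _ hb ?_
        have : (0 : ℝ) ≤ r * b := by positivity
        nlinarith
      · exact le_rfl
    calc ∑ c ∈ I, (if c ∈ Finset.range (N + 1) then family_g r b (Y - b * c) else 0)
        ≤ ∑ c ∈ I ∪ Finset.range (N + 1),
            (if c ∈ Finset.range (N + 1) then family_g r b (Y - b * c) else 0) :=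
          Finset.sum_le_sum_of_subset_of_nonneg Finset.subset_union_left fun c _ _ => h3 c
      _ = ∑ c ∈ Finset.range (N + 1),
            (if c ∈ Finset.range (N + 1) then family_g r b (Y - b * c) else 0) := by
          refine (Finset.sum_subset Finset.subset_union_right fun c _ hc => ?_).symm
          rw [if_neg hc]
      _ = ∑ c ∈ Finset.range (N + 1), family_g r b (Y - b * c) :=
          Finset.sum_congr rfl fun c hc => by rw [if_pos hc]

/-- telescoping, lower bound -/
theorem family_low_tel (w : ℝ) (hw : 0 < w) (M N : ℕ) : ∀ Y : ℝ, w * N ≤ Y → Y < w * (N + 1) →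
    Y ^ (M + 1) ≤ (M + 1) * w * ∑ n ∈ Finset.range (N + 1), (Y - w * n) ^ M := by
  induction N with
  | zero =>
    intro Y h1 h2
    simp only [Nat.cast_zero, mul_zero, zero_add, mul_one] at h1 h2
    simp only [zero_add, Finset.range_one, Finset.sum_singleton, Nat.cast_zero, mul_zero, sub_zero]
    have hM : 0 ≤ (M : ℝ) * w * Y ^ M := by positivity
    have hY : Y ^ M * Y ≤ Y ^ M * w := mul_le_mul_of_nonneg_left h2.le (by positivity)
    rw [pow_succ]
    nlinarith
  | succ N ih =>
    intro Y h1 h2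
    push_cast at h1 h2
    have hN : 0 ≤ w * N := by positivity
    have h3 := ih (Y - w) (by linarith) (by linarith)
    have h4 := family_pow_sub_le Y (Y - w) (by linarith) (by linarith) M
    rw [Finset.sum_range_succ']
    have e : ∀ c : ℕ, Y - w - w * c = Y - w * ((c + 1 : ℕ) : ℝ) := fun c => by push_cast; ring
    simp only [e] at h3
    simp only [Nat.cast_zero, mul_zero, sub_zero]
    rw [mul_add]
    have e5 : (M + 1) * (Y - (Y - w)) * Y ^ M = (M + 1) * w * Y ^ M := by ring
    rw [e5] at h4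
    linarith

/-- lower bound for lattice sums -/
theorem family_lower_sum {ι : Type*} [DecidableEq ι] [Fintype ι] (w : ℝ) (hw : 0 < w)
    (S : Finset ι) : ∀ Y : ℝ, 0 ≤ Y →
    ∃ A : Finset (ι → ℕ), (∀ c ∈ A, ∀ i ∉ S, c i = 0) ∧
      Y ^ (S.card + 1) / ((S.card + 1).factorial * w ^ S.card) ≤
        ∑ c ∈ A, (Y - w * ∑ i, (c i : ℝ)) := by
  induction S using Finset.induction_on with
  | empty =>
    intro Y hY
    refine ⟨{0}, ?_, ?_⟩
    · intro c hc i _
      rw [Finset.mem_singleton] at hc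
      rw [hc]; rfl
    · simp
  | insert a S ha ih =>
    intro Y hY
    have hex : ∀ n : ℕ, ∃ A : Finset (ι → ℕ), 0 ≤ Y - w * n → ((∀ c ∈ A, ∀ i ∉ S, c i = 0) ∧
      (Y - w * n) ^ (S.card + 1) / ((S.card + 1).factorial * w ^ S.card) ≤
        ∑ c ∈ A, ((Y - w * n) - w * ∑ i, (c i : ℝ))) := by
      intro n
      by_cases h : 0 ≤ Y - w * n
      · obtain ⟨A, hA⟩ := ih _ h
        exact ⟨A, fun _ => hA⟩
      · exact ⟨∅, fun h' => (h h').elim⟩
    choose A hA using hex
    set N := ⌊Y / w⌋₊ with hN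
    have hNY : w * N ≤ Y := by
      have := Nat.floor_le (div_nonneg hY hw.le)
      rw [← hN, le_div_iff₀ hw] at this
      linarith
    have hNY' : Y < w * (N + 1) := by
      have := Nat.lt_floor_add_one (Y / w)
      rw [← hN, div_lt_iff₀ hw] at this
      linarith
    have hn : ∀ n ∈ Finset.range (N + 1), 0 ≤ Y - w * n := by
      intro n hn
      have : (n : ℝ) ≤ N := by exact_mod_cast Nat.lt_succ_iff.1 (Finset.mem_range.1 hn)
      nlinarith
    set I : Finset (Σ _ : ℕ, (ι → ℕ)) := (Finset.range (N + 1)).sigma A with hI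
    set Φ : (Σ _ : ℕ, (ι → ℕ)) → (ι → ℕ) := fun x => Function.update x.2 a x.1 with hΦ
    have hinj : Set.InjOn Φ I := by
      rintro ⟨n, c⟩ h1 ⟨n', c'⟩ h2 h
      rw [Finset.mem_coe, hI, Finset.mem_sigma] at h1 h2
      have hc : c a = 0 := (hA n (hn n h1.1)).1 c h1.2 a ha
      have hc' : c' a = 0 := (hA n' (hn n' h2.1)).1 c' h2.2 a ha
      have e1 : n = n' := by
        have := congrFun h a
        simpa [hΦ] using this
      have e2 : c = c' := by
        funext i
        by_cases hi : i = a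
        · rw [hi, hc, hc']
        · have := congrFun h i
          simpa [hΦ, hi] using this
      rw [e1, e2]
    refine ⟨I.image Φ, ?_, ?_⟩
    · intro c hc i hi
      rw [Finset.mem_image] at hc
      obtain ⟨⟨n, c'⟩, hx, rfl⟩ := hc
      rw [hI, Finset.mem_sigma] at hx
      rw [Finset.mem_insert, not_or] at hi
      simp only [hΦ, Function.update_of_ne hi.1]
      exact (hA n (hn n hx.1)).1 c' hx.2 i hi.2
    · rw [Finset.sum_image hinj, hI, Finset.sum_sigma, Finset.card_insert_of_notMem ha]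
      have h1 : ∀ n ∈ Finset.range (N + 1),
          (Y - w * n) ^ (S.card + 1) / ((S.card + 1).factorial * w ^ S.card) ≤
          ∑ c ∈ A n, (Y - w * ∑ i, ((Φ ⟨n, c⟩ i : ℕ) : ℝ)) := by
        intro n hn'
        refine (hA n (hn n hn')).2.trans_eq (Finset.sum_congr rfl fun c hc => ?_)
        have hc0 : c a = 0 := (hA n (hn n hn')).1 c hc a ha
        have e : ∑ i, ((Φ ⟨n, c⟩ i : ℕ) : ℝ) = n + ∑ i, (c i : ℝ) := by
          rw [← Finset.add_sum_erase _ _ (Finset.mem_univ a),
            ← Finset.add_sum_erase _ (fun i => (c i : ℝ)) (Finset.mem_univ a), hc0]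
          simp only [hΦ, Function.update_self, Nat.cast_zero, zero_add]
          congr 1
          refine Finset.sum_congr rfl fun i hi => ?_
          rw [Function.update_of_ne (Finset.ne_of_mem_erase hi)]
        rw [e]; ring
      refine le_trans ?_ (Finset.sum_le_sum h1)
      rw [← Finset.sum_div]
      have h2 := family_low_tel w hw (S.card + 1) N Y hNY hNY'
      have hf : ((S.card + 1 + 1).factorial : ℝ) = (S.card + 2) * (S.card + 1).factorial := by
        rw [Nat.factorial_succ (S.card + 1)]; push_cast; ring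
      rw [hf, div_le_div_iff₀ (by positivity) (by positivity)]
      have h3 := mul_le_mul_of_nonneg_right h2
        (show (0 : ℝ) ≤ (S.card + 1).factorial * w ^ S.card by positivity)
      refine h3.trans_eq ?_
      push_cast
      ring

theorem family_lower_sum' {ι : Type*} [DecidableEq ι] [Fintype ι] (w : ℝ) (hw : 0 < w)
    (S : Finset ι) (Y : ℝ) :
    ∃ A : Finset (ι → ℕ), (∀ c ∈ A, ∀ i ∉ S, c i = 0) ∧
      (max Y 0) ^ (S.card + 1) / ((S.card + 1).factorial * w ^ S.card) ≤
        ∑ c ∈ A, (Y - w * ∑ i, (c i : ℝ)) := by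
  rcases le_total 0 Y with h | h
  · rw [max_eq_left h]
    exact family_lower_sum w hw S Y h
  · refine ⟨∅, by simp, ?_⟩
    rw [max_eq_right h]
    simp

theorem family_card {ι : Type*} [DecidableEq ι] (J : Finset ι) (hJ : J.Nonempty) (n : ℕ) :
    ((n : ℝ) + 1) ^ (J.card - 1) ≤ (J.card - 1).factorial * (Finset.piAntidiag J n).card := by
  have h1 : (Finset.piAntidiag J n).card = (J.card + n - 1).choose n := by
    rw [← Finset.card_finsuppAntidiag_nat_eq_choose, Finset.finsuppAntidiag, Finset.card_map,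
      Finset.card_attach]
  have hj : 1 ≤ J.card := hJ.card_pos
  obtain ⟨j, hj⟩ : ∃ j, J.card = j + 1 := ⟨J.card - 1, by omega⟩
  rw [h1, hj]
  have h2 := Nat.pow_succ_le_ascFactorial (n + 1) j
  rw [Nat.ascFactorial_eq_factorial_mul_choose] at h2
  have h3 : (j + 1 + n - 1).choose n = (n + j).choose j := by
    rw [show j + 1 + n - 1 = n + j by omega]
    exact Nat.choose_symm_add.symm ▸ rfl
  rw [h3, Nat.add_sub_cancel]
  exact_mod_cast h2

/-- the function of the integral -/
noncomputable def family_f (j q : ℕ) (w M x : ℝ) : ℝ := x ^ (j - 1) * (max (w * x - M) 0) ^ q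

theorem family_f_nonneg (j q : ℕ) (w M : ℝ) {x : ℝ} (hx : 0 ≤ x) : 0 ≤ family_f j q w M x := by
  unfold family_f; positivity

theorem family_f_cont (j q : ℕ) (w M : ℝ) : Continuous (family_f j q w M) := by
  unfold family_f; fun_prop

theorem family_f_mono (j q : ℕ) (w M : ℝ) (hw : 0 < w) {x y : ℝ} (hx : 0 ≤ x) (hxy : x ≤ y) :
    family_f j q w M x ≤ family_f j q w M y := by
  unfold family_f
  have h1 : x ^ (j - 1) ≤ y ^ (j - 1) := pow_le_pow_left₀ hx hxy _
  have h2 : max (w * x - M) 0 ≤ max (w * y - M) 0 :=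
    max_le_max_right _ (by nlinarith)
  have h3 : (max (w * x - M) 0) ^ q ≤ (max (w * y - M) 0) ^ q :=
    pow_le_pow_left₀ (le_max_right _ _) h2 _
  exact mul_le_mul h1 h3 (by positivity) (pow_nonneg (hx.trans hxy) _)

theorem family_f_scale (j q : ℕ) (w m t κ : ℝ) (ht : 0 < t) :
    ∫ x in (0 : ℝ)..(t * κ), family_f j q w (m * t) x =
      t ^ (j - 1 + q + 1) * ∫ u in (0 : ℝ)..κ, family_f j q w m u := by
  have h := intervalIntegral.integral_comp_mul_left (a := 0) (b := κ)
    (family_f j q w (m * t)) ht.ne'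
  rw [mul_zero, smul_eq_mul] at h
  have h2 : ∀ u, family_f j q w (m * t) (t * u) = t ^ (j - 1 + q) * family_f j q w m u := by
    intro u
    unfold family_f
    have e : max (w * (t * u) - m * t) 0 = t * max (w * u - m) 0 := by
      rw [mul_max_of_nonneg _ _ ht.le, mul_zero]
      congr 1; ring
    rw [e, mul_pow, mul_pow, pow_add]; ring
  simp only [h2, intervalIntegral.integral_const_mul] at h
  have h3 : ∫ x in (0 : ℝ)..(t * κ), family_f j q w (m * t) x =
      t * (t ^ (j - 1 + q) * ∫ u in (0 : ℝ)..κ, family_f j q w m u) := by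
    rw [h, mul_inv_cancel_left₀ ht.ne']
  rw [h3]; ring

theorem family_f_sum (j q : ℕ) (w M : ℝ) (hw : 0 < w) (D : ℕ) {κ : ℝ} (h0 : 0 ≤ κ)
    (hκ : κ ≤ D + 1) :
    ∫ x in (0 : ℝ)..κ, family_f j q w M x ≤
      ∑ n ∈ Finset.range (D + 1), family_f j q w M ((n : ℝ) + 1) := by
  have h1 : ∫ x in (0 : ℝ)..κ, family_f j q w M x ≤
      ∫ x in (0 : ℝ)..(0 + ((D + 1 : ℕ) : ℝ)), family_f j q w M x := by
    refine intervalIntegral.integral_mono_interval le_rfl h0 (by push_cast; linarith) ?_
      ((family_f_cont j q w M).intervalIntegrable _ _)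
    refine (MeasureTheory.ae_restrict_iff' measurableSet_Ioc).2 (Filter.Eventually.of_forall ?_)
    intro x hx
    exact family_f_nonneg j q w M hx.1.le
  refine h1.trans ?_
  have h2 := MonotoneOn.integral_le_sum (f := family_f j q w M) (x₀ := 0) (a := D + 1)
    (fun x hx y _ hxy => family_f_mono j q w M hw hx.1 hxy)
  refine h2.trans_eq (Finset.sum_congr rfl fun n _ => ?_)
  push_cast
  rw [zero_add]

/-- the constants of the integral criterion -/
noncomputable def family_C (r j : ℕ) (w : ℝ) : ℝ :=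
  ((j - 1).factorial * (r - j + 1).factorial * w ^ (r - j))⁻¹

theorem family_Jint (r : ℕ) (m w κ : ℝ) : Jint r m w κ =
    ∑ J ∈ (Finset.univ : Finset (Finset (Fin r))).filter Finset.Nonempty,
      family_C r J.card w * ∫ u in (0 : ℝ)..κ, family_f J.card (r - J.card + 1) w m u := by
  set G : ℕ → ℝ := fun j => if j = 0 then 0 else
    family_C r j w * ∫ u in (0 : ℝ)..κ, family_f j (r - j + 1) w m u with hG
  have h1 : ∑ J ∈ (Finset.univ : Finset (Finset (Fin r))).filter Finset.Nonempty,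
      family_C r J.card w * ∫ u in (0 : ℝ)..κ, family_f J.card (r - J.card + 1) w m u =
      ∑ J ∈ (Finset.univ : Finset (Fin r)).powerset, G J.card := by
    rw [Finset.sum_filter, Finset.powerset_univ]
    refine Finset.sum_congr rfl fun J _ => ?_
    by_cases hJ : J.Nonempty
    · rw [if_pos hJ, hG]
      simp only
      rw [if_neg hJ.card_pos.ne']
    · rw [if_neg hJ, hG]
      simp only
      rw [Finset.not_nonempty_iff_eq_empty.1 hJ, Finset.card_empty, if_pos rfl]
  rw [h1, Finset.sum_powerset_apply_card G, Finset.card_univ, Fintype.card_fin]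
  have h2 : Finset.range (r + 1) = insert 0 (Finset.Icc 1 r) := by
    ext j
    simp only [Finset.mem_range, Finset.mem_insert, Finset.mem_Icc]
    omega
  rw [h2, Finset.sum_insert (by simp)]
  unfold Jint
  have h3 : r.choose 0 • G 0 = 0 := by simp [hG]
  rw [h3, zero_add]
  refine Finset.sum_congr rfl fun j hj => ?_
  have hj0 : j ≠ 0 := by
    have := (Finset.mem_Icc.1 hj).1
    omega
  simp only [hG, if_neg hj0, nsmul_eq_mul, family_C, family_f]
  rw [div_eq_mul_inv, mul_assoc]

/-- the vector with negative entries `-(p+1)` on `J` and `c` off `J` -/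
def family_e {r : ℕ} (J : Finset (Fin r)) (p c : Fin r → ℕ) (i : Fin r) : ℤ :=
  if i ∈ J then -((p i : ℤ) + 1) else (c i : ℤ)

theorem family_e_needs {r : ℕ} (k : ℕ) (hk : 1 ≤ k) (J : Finset (Fin r)) (p c : Fin r → ℕ)
    (t : ℕ) (hJ : J.card ≤ t) (hp : ∑ i ∈ J, p i ≤ k * (t - J.card)) :
    needs k (family_e J p c) ≤ t := by
  have h1 : ∀ i, need k (family_e J p c i) = if i ∈ J then p i / k + 1 else 0 := by
    intro i
    unfold need family_e
    split_ifs with h
    · have e : (-(-((p i : ℤ) + 1))).toNat = p i + 1 := by omega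
      rw [e, show p i + 1 + (k - 1) = p i + k by omega, Nat.add_div_right _ (by omega)]
    · have e : (-((c i : ℕ) : ℤ)).toNat = 0 := by omega
      rw [e, zero_add, Nat.div_eq_of_lt (by omega)]
  unfold needs
  simp only [h1]
  rw [Finset.sum_ite_mem, Finset.univ_inter, Finset.sum_add_distrib, Finset.sum_const,
    smul_eq_mul, mul_one]
  have h2 : k * ∑ i ∈ J, p i / k ≤ k * (t - J.card) := by
    refine le_trans ?_ hp
    rw [Finset.mul_sum]
    exact Finset.sum_le_sum fun i _ => Nat.mul_div_le _ _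
  have h3 : ∑ i ∈ J, p i / k ≤ t - J.card := Nat.le_of_mul_le_mul_left h2 (by omega)
  omega

theorem family_e_sum {r : ℕ} (J : Finset (Fin r)) (p c : Fin r → ℕ)
    (hc : ∀ i ∉ Jᶜ, c i = 0) :
    ∑ i, ((family_e J p c i : ℤ) : ℝ) = -((∑ i ∈ J, (p i : ℝ)) + J.card) + ∑ i, (c i : ℝ) := by
  have h1 : ∀ i, ((family_e J p c i : ℤ) : ℝ) =
      -(if i ∈ J then ((p i : ℝ) + 1) else 0) + (c i : ℝ) := by
    intro i
    unfold family_e
    by_cases h : i ∈ J
    · have : c i = 0 := hc i (by simp [h])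
      rw [if_pos h, if_pos h, this]
      push_cast; ring
    · rw [if_neg h, if_neg h]
      push_cast; ring
  simp only [h1]
  rw [Finset.sum_add_distrib, Finset.sum_neg_distrib, Finset.sum_ite_mem, Finset.univ_inter,
    Finset.sum_add_distrib, Finset.sum_const, nsmul_eq_mul, mul_one]

theorem family_e_inj {r : ℕ} {J J' : Finset (Fin r)} {p c p' c' : Fin r → ℕ}
    (hp : ∀ i ∉ J, p i = 0) (hp' : ∀ i ∉ J', p' i = 0) (hc : ∀ i ∉ Jᶜ, c i = 0)
    (hc' : ∀ i ∉ J'ᶜ, c' i = 0) (h : family_e J p c = family_e J' p' c') :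
    J = J' ∧ p = p' ∧ c = c' := by
  have hJ : J = J' := by
    ext i
    have := congrFun h i
    unfold family_e at this
    constructor
    · intro hi
      by_contra hi'
      rw [if_pos hi, if_neg hi'] at this
      omega
    · intro hi'
      by_contra hi
      rw [if_neg hi, if_pos hi'] at this
      omega
  subst hJ
  refine ⟨rfl, ?_, ?_⟩
  · funext i
    have := congrFun h i
    unfold family_e at this
    by_cases hi : i ∈ J
    · rw [if_pos hi, if_pos hi] at this
      omega
    · rw [hp i hi, hp' i hi]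
  · funext i
    have := congrFun h i
    unfold family_e at this
    by_cases hi : i ∈ J
    · rw [hc i (by simp [hi]), hc' i (by simp [hi])]
    · rw [if_neg hi, if_neg hi] at this
      omega

/-- the functions of degree `t` -/
theorem family_level (k r : ℕ) (hk : 1 ≤ k) (w m : ℝ) (hw : 0 < w) (t : ℕ)
    (ht : r ≤ t) (ht0 : 0 < t) :
    ∃ B : Finset (Fin r → ℤ), (∀ e ∈ B, needs k e ≤ t) ∧
      (t : ℝ) ^ (r + 1) * Jint r m w (k * (1 - r / t)) ≤
        ∑ e ∈ B, (-(m * (t : ℝ)) - w * ∑ i, (e i : ℝ)) := by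
  have hex : ∀ (J : Finset (Fin r)) (n : ℕ), ∃ A : Finset (Fin r → ℕ),
      (∀ c ∈ A, ∀ i ∉ Jᶜ, c i = 0) ∧
      (max (w * (n + J.card) - m * t) 0) ^ (Jᶜ.card + 1) /
        ((Jᶜ.card + 1).factorial * w ^ Jᶜ.card) ≤
        ∑ c ∈ A, ((w * (n + J.card) - m * t) - w * ∑ i, (c i : ℝ)) :=
    fun J n => family_lower_sum' w hw Jᶜ _
  choose A hA1 hA2 using hex
  set I : Finset (Σ _ : Finset (Fin r), Σ _ : ℕ, Σ _ : Fin r → ℕ, (Fin r → ℕ)) :=
    ((Finset.univ : Finset (Finset (Fin r))).filter Finset.Nonempty).sigma fun J =>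
      (Finset.range (k * (t - J.card) + 1)).sigma fun n =>
        (Finset.piAntidiag J n).sigma fun _ => A J n with hI
  set Φ : (Σ _ : Finset (Fin r), Σ _ : ℕ, Σ _ : Fin r → ℕ, (Fin r → ℕ)) → (Fin r → ℤ) :=
    fun x => family_e x.1 x.2.2.1 x.2.2.2 with hΦ
  have hmem : ∀ x ∈ I, x.1.Nonempty ∧ x.2.1 ≤ k * (t - x.1.card) ∧
      ∑ i ∈ x.1, x.2.2.1 i = x.2.1 ∧ (∀ i ∉ x.1, x.2.2.1 i = 0) ∧
      x.2.2.2 ∈ A x.1 x.2.1 := by
    intro x hx
    rw [hI, Finset.mem_sigma, Finset.mem_sigma, Finset.mem_sigma, Finset.mem_filter,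
      Finset.mem_range, Finset.mem_piAntidiag] at hx
    obtain ⟨⟨-, h1⟩, h2, ⟨h3, h4⟩, h5⟩ := hx
    refine ⟨h1, by omega, h3, fun i hi => ?_, h5⟩
    by_contra h
    exact hi (h4 i h)
  have hinj : Set.InjOn Φ I := by
    rintro ⟨J, n, p, c⟩ h1 ⟨J', n', p', c'⟩ h2 h
    obtain ⟨-, -, a3, a4, a5⟩ := hmem _ h1
    obtain ⟨-, -, b3, b4, b5⟩ := hmem _ h2
    simp only at a3 a4 a5 b3 b4 b5
    obtain ⟨e1, e2, e3⟩ := family_e_inj a4 b4 (hA1 _ _ _ a5) (hA1 _ _ _ b5) h
    subst e1 e2 e3
    have e4 : n = n' := a3.symm.trans b3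
    rw [e4]
  refine ⟨I.image Φ, ?_, ?_⟩
  · intro e he
    rw [Finset.mem_image] at he
    obtain ⟨x, hx, rfl⟩ := he
    obtain ⟨h1, h2, h3, -, -⟩ := hmem x hx
    refine family_e_needs k hk _ _ _ t ?_ (by rw [h3]; exact h2)
    have := Finset.card_le_univ x.1
    rw [Fintype.card_fin] at this
    omega
  · rw [Finset.sum_image hinj, hI, Finset.sum_sigma, family_Jint, Finset.mul_sum]
    refine Finset.sum_le_sum fun J hJ => ?_
    have hJn : J.Nonempty := (Finset.mem_filter.1 hJ).2
    have hJ1 : 1 ≤ J.card := hJn.card_pos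
    have hJr : J.card ≤ r := by
      have := Finset.card_le_univ J
      rwa [Fintype.card_fin] at this
    have hJc : Jᶜ.card = r - J.card := by rw [Finset.card_compl, Fintype.card_fin]
    have htR : (0 : ℝ) < t := by exact_mod_cast ht0
    rw [Finset.sum_sigma]
    have hC0 : 0 ≤ family_C r J.card w := by unfold family_C; positivity
    -- the inner sums
    have h1 : ∀ n ∈ Finset.range (k * (t - J.card) + 1),
        family_C r J.card w * family_f J.card (r - J.card + 1) w (m * t) ((n : ℝ) + 1) ≤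
        ∑ x ∈ (Finset.piAntidiag J n).sigma fun _ => A J n,
          (-(m * (t : ℝ)) - w * ∑ i, ((Φ ⟨J, n, x⟩ i : ℤ) : ℝ)) := by
      intro n _
      rw [Finset.sum_sigma]
      have h2 : ∀ p ∈ Finset.piAntidiag J n,
          (max (w * (n + J.card) - m * t) 0) ^ (Jᶜ.card + 1) /
            ((Jᶜ.card + 1).factorial * w ^ Jᶜ.card) ≤
          ∑ c ∈ A J n, (-(m * (t : ℝ)) - w * ∑ i, ((Φ ⟨J, n, p, c⟩ i : ℤ) : ℝ)) := by
        intro p hp
        rw [Finset.mem_piAntidiag] at hp
        refine (hA2 J n).trans_eq (Finset.sum_congr rfl fun c hc => ?_)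
        have e : ∑ i, ((Φ ⟨J, n, p, c⟩ i : ℤ) : ℝ) =
            -((∑ i ∈ J, (p i : ℝ)) + J.card) + ∑ i, (c i : ℝ) :=
          family_e_sum J p c (hA1 J n c hc)
        have e2 : ∑ i ∈ J, (p i : ℝ) = n := by exact_mod_cast hp.1
        rw [e, e2]; ring
      refine le_trans ?_ (Finset.sum_le_sum h2)
      rw [Finset.sum_const, nsmul_eq_mul, hJc]
      have h3 := family_card J hJn n
      have h4 : (max (w * (n + 1) - m * t) 0) ^ (r - J.card + 1) ≤
          (max (w * (n + J.card) - m * t) 0) ^ (r - J.card + 1) := by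
        refine pow_le_pow_left₀ (le_max_right _ _) (max_le_max_right _ ?_) _
        have : (1 : ℝ) ≤ J.card := by exact_mod_cast hJ1
        nlinarith
      unfold family_C family_f
      have h5 : ((n : ℝ) + 1) ^ (J.card - 1) * (max (w * (n + 1) - m * t) 0) ^ (r - J.card + 1) ≤
          ((J.card - 1).factorial * (Finset.piAntidiag J n).card) *
            (max (w * (n + J.card) - m * t) 0) ^ (r - J.card + 1) :=
        mul_le_mul h3 h4 (by positivity) (by positivity)
      rw [inv_mul_le_iff₀ (by positivity)]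
      refine h5.trans_eq ?_
      field_simp
    refine le_trans ?_ (Finset.sum_le_sum h1)
    rw [← Finset.mul_sum]
    have h6 : (k : ℝ) * (1 - r / t) * t ≤ ((k * (t - J.card) : ℕ) : ℝ) + 1 := by
      have e1 : (k : ℝ) * (1 - r / t) * t = k * (t - r) := by field_simp
      have e2 : ((k * (t - J.card) : ℕ) : ℝ) = k * (t - J.card) := by
        rw [Nat.cast_mul, Nat.cast_sub (by omega)]
      rw [e1, e2]
      have e3 : (J.card : ℝ) ≤ r := by exact_mod_cast hJr
      have e4 : (0 : ℝ) ≤ k := Nat.cast_nonneg k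
      nlinarith
    have h7 : 0 ≤ (k : ℝ) * (1 - r / t) := by
      refine mul_nonneg (Nat.cast_nonneg k) (sub_nonneg.2 ?_)
      rw [div_le_one htR]
      exact_mod_cast ht
    have h8 := family_f_sum J.card (r - J.card + 1) w (m * t) hw (k * (t - J.card))
      (κ := t * ((k : ℝ) * (1 - r / t))) (by positivity) (by rw [mul_comm]; exact h6)
    rw [family_f_scale _ _ _ _ _ _ htR] at h8
    have e : J.card - 1 + (r - J.card + 1) + 1 = r + 1 := by omega
    rw [e] at h8
    calc (t : ℝ) ^ (r + 1) * (family_C r J.card w *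
          ∫ u in (0 : ℝ)..(k * (1 - r / t)), family_f J.card (r - J.card + 1) w m u)
        = family_C r J.card w * ((t : ℝ) ^ (r + 1) *
          ∫ u in (0 : ℝ)..(k * (1 - r / t)), family_f J.card (r - J.card + 1) w m u) := by ring
      _ ≤ _ := mul_le_mul_of_nonneg_left h8 hC0

theorem family_Jint_cont (r : ℕ) (m w : ℝ) : Continuous fun x => Jint r m w x := by
  unfold Jint
  refine continuous_finsetSum _ fun j _ => Continuous.mul continuous_const ?_
  refine intervalIntegral.continuous_primitive (fun a b => ?_) 0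
  have : Continuous fun u : ℝ => u ^ (j - 1) * (max (w * u - m) 0) ^ (r - j + 1) := by fun_prop
  exact this.intervalIntegrable a b

theorem exists_family (k r : ℕ) (hk : 1 ≤ k) (hr : 1 ≤ r) (w b m : ℝ) (hw : 0 < w) (hb : 0 < b)
    (hm0 : 0 ≤ m) (hm1 : m < 1)
    (h : (1 - m) ^ (r + 1) / ((r + 1).factorial * b ^ r) < Jint r m w k) :
    ∃ (T : ℕ) (B : Finset (ℕ × (Fin r → ℤ))) (V : ℝ),
      (∀ p ∈ B, p.1 ≤ T ∧ needs k p.2 ≤ p.1) ∧
      (∀ T' : Finset (ℕ × (Fin r → ℕ)), (∀ τ ∈ T', τ.1 ≤ T) →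
        ∑ τ ∈ T', (-(m * (τ.1 : ℝ)) + τ.1 - b * ∑ i, (τ.2 i : ℝ)) ≤ V) ∧
      V < ∑ p ∈ B, (-(m * (p.1 : ℝ)) - w * ∑ i, (p.2 i : ℝ)) := by
  have hex : ∀ t : ℕ, ∃ B : Finset (Fin r → ℤ), (∀ e ∈ B, needs k e ≤ t) ∧ (r ≤ t → 0 < t →
      (t : ℝ) ^ (r + 1) * Jint r m w (k * (1 - r / t)) ≤
        ∑ e ∈ B, (-(m * (t : ℝ)) - w * ∑ i, (e i : ℝ))) := by
    intro t
    by_cases ht : r ≤ t ∧ 0 < t
    · obtain ⟨B, h1, h2⟩ := family_level k r hk w m hw t ht.1 ht.2
      exact ⟨B, h1, fun _ _ => h2⟩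
    · exact ⟨∅, by simp, fun h1 h2 => (ht ⟨h1, h2⟩).elim⟩
  choose Bt hB1 hB2 using hex
  set D : ℕ → ℝ := fun t => (∑ e ∈ Bt t, (-(m * (t : ℝ)) - w * ∑ i, (e i : ℝ))) -
    family_g r b ((1 - m) * t) with hD
  set c0 : ℝ := (1 - m) ^ (r + 1) / ((r + 1).factorial * b ^ r) with hc0
  set δ : ℝ := (Jint r m w k - c0) / 2 with hδ
  have hδ0 : 0 < δ := by rw [hδ]; linarith
  -- the limit
  have hlim : Filter.Tendsto (fun t : ℕ => Jint r m w (k * (1 - r / t)) -
      ((1 - m) + (r * b) / t) ^ (r + 1) / ((r + 1).factorial * b ^ r)) Filter.atTop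
      (nhds (Jint r m w k - c0)) := by
    refine Filter.Tendsto.sub ?_ ?_
    · have h1 : Filter.Tendsto (fun t : ℕ => (k : ℝ) * (1 - (r : ℝ) / t)) Filter.atTop
          (nhds ((k : ℝ) * (1 - 0))) :=
        (tendsto_const_nhds.sub (tendsto_const_div_atTop_nhds_zero_nat (r : ℝ))).const_mul _
      rw [sub_zero, mul_one] at h1
      exact ((family_Jint_cont r m w).tendsto _).comp h1
    · have h1 : Filter.Tendsto (fun t : ℕ => (1 - m) + (r * b) / (t : ℝ)) Filter.atTop
          (nhds ((1 - m) + 0)) :=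
        tendsto_const_nhds.add (tendsto_const_div_atTop_nhds_zero_nat (r * b : ℝ))
      rw [add_zero] at h1
      exact (h1.pow (r + 1)).div_const _
  have hev : ∀ᶠ t : ℕ in Filter.atTop, δ ≤ D t := by
    have h1 : ∀ᶠ t : ℕ in Filter.atTop, δ < Jint r m w (k * (1 - r / t)) -
      ((1 - m) + (r * b) / t) ^ (r + 1) / ((r + 1).factorial * b ^ r) :=
      hlim.eventually (lt_mem_nhds (by rw [hδ]; linarith))
    filter_upwards [h1, Filter.eventually_ge_atTop r, Filter.eventually_ge_atTop 1]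
      with t ht1 ht2 ht3
    have htR : (1 : ℝ) ≤ t := by exact_mod_cast ht3
    have ht0 : (0 : ℝ) < t := by linarith
    have h2 := hB2 t ht2 ht3
    have h3 : family_g r b ((1 - m) * t) = (t : ℝ) ^ (r + 1) *
        (((1 - m) + (r * b) / t) ^ (r + 1) / ((r + 1).factorial * b ^ r)) := by
      unfold family_g
      have e : (1 - m) * t + r * b = t * ((1 - m) + (r * b) / t) := by field_simp
      rw [e, mul_pow, mul_div_assoc]
    have h4 : (1 : ℝ) ≤ (t : ℝ) ^ (r + 1) := one_le_pow₀ htR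
    have h5 : δ * 1 ≤ (Jint r m w (k * (1 - r / t)) -
      ((1 - m) + (r * b) / t) ^ (r + 1) / ((r + 1).factorial * b ^ r)) * (t : ℝ) ^ (r + 1) :=
      mul_le_mul ht1.le h4 zero_le_one (hδ0.le.trans ht1.le)
    change δ ≤ (∑ e ∈ Bt t, (-(m * (t : ℝ)) - w * ∑ i, (e i : ℝ))) - family_g r b ((1 - m) * t)
    rw [h3]
    linarith
  obtain ⟨t0, ht0⟩ := Filter.eventually_atTop.1 hev
  obtain ⟨N, hN⟩ := exists_nat_gt (-(∑ t ∈ Finset.range t0, D t) / δ)
  rw [div_lt_iff₀ hδ0] at hN
  set T := t0 + N with hT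
  have hsum : 0 < ∑ t ∈ Finset.range (T + 1), D t := by
    have e : T + 1 = t0 + (N + 1) := by rw [hT]; ring
    rw [e, Finset.sum_range_add]
    have h1 : ((N + 1 : ℕ) : ℝ) * δ ≤ ∑ i ∈ Finset.range (N + 1), D (t0 + i) := by
      have := Finset.card_nsmul_le_sum (Finset.range (N + 1)) (fun i => D (t0 + i)) δ
        (fun i _ => ht0 _ (by omega))
      rwa [Finset.card_range, nsmul_eq_mul] at this
    push_cast at h1
    linarith
  refine ⟨T, (Finset.range (T + 1)).biUnion fun t => (Bt t).image fun e => (t, e),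
    ∑ t ∈ Finset.range (T + 1), family_g r b ((1 - m) * t), ?_, ?_, ?_⟩
  · intro p hp
    rw [Finset.mem_biUnion] at hp
    obtain ⟨t, ht, hp⟩ := hp
    rw [Finset.mem_image] at hp
    obtain ⟨e, he, rfl⟩ := hp
    exact ⟨Nat.lt_succ_iff.1 (Finset.mem_range.1 ht), hB1 t e he⟩
  · intro T' hT'
    have h1 := Finset.sum_finset_product T' (Finset.range (T + 1))
      (fun t => (T'.filter fun τ => τ.1 = t).image Prod.snd)
      (by
        rintro ⟨t, α⟩
        simp only [Finset.mem_range, Finset.mem_image, Finset.mem_filter, Prod.exists]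
        constructor
        · intro hp
          exact ⟨Nat.lt_succ_iff.2 (hT' _ hp), t, α, ⟨hp, rfl⟩, rfl⟩
        · rintro ⟨-, t', α', ⟨hp, rfl⟩, rfl⟩
          exact hp)
      (f := fun τ : ℕ × (Fin r → ℕ) => (-(m * (τ.1 : ℝ)) + τ.1 - b * ∑ i, (τ.2 i : ℝ)))
    rw [h1]
    refine Finset.sum_le_sum fun t _ => ?_
    have h2 := upper_sum r b ((1 - m) * t) hb (mul_nonneg (by linarith) (Nat.cast_nonneg t))
      ((T'.filter fun τ => τ.1 = t).image Prod.snd)
    refine le_trans (le_of_eq (Finset.sum_congr rfl fun α _ => ?_)) h2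
    ring
  · have h1 := Finset.sum_finset_product
      ((Finset.range (T + 1)).biUnion fun t => (Bt t).image fun e => (t, e))
      (Finset.range (T + 1)) Bt
      (by
        rintro ⟨t, e⟩
        simp only [Finset.mem_biUnion, Finset.mem_image, Prod.mk.injEq]
        constructor
        · rintro ⟨t', ht', e', he', rfl, rfl⟩
          exact ⟨ht', he'⟩
        · rintro ⟨ht, he⟩
          exact ⟨t, ht, e, he, rfl, rfl⟩)
      (f := fun p : ℕ × (Fin r → ℤ) => (-(m * (p.1 : ℝ)) - w * ∑ i, (p.2 i : ℝ)))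
    rw [h1, ← sub_pos, ← Finset.sum_sub_distrib]
    exact hsum

end Vale.Agent.P018.K
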