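import Vale.Agent.P018.K.Defs

/-! # P018, K-method, module K1: the splitting field. -/

namespace Vale.Agent.P018.K

open Polynomial NumberField

/-- the monic polynomial is irreducible over the rational numbers -/
theorem field_irreducible (f : ℤ[X]) (hirr : Irreducible (f.map (Int.castRingHom ℚ)))
    (hd : 1 ≤ f.natDegree) :
    Irreducible (f.integralNormalization.map (Int.castRingHom ℚ)) := by
  have hf0 : f ≠ 0 := by
    rintro rfl
    simp at hd
  have ha : ((f.leadingCoeff : ℤ) : ℚ) ≠ 0 := by
    exact_mod_cast leadingCoeff_ne_zero.2 hf0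
  set a : ℚ := ((f.leadingCoeff : ℤ) : ℚ) with hadef
  let _ : Invertible a := invertibleOfNonzero ha
  have h1 := integralNormalization_eval₂_leadingCoeff_mul hd
    ((C : ℚ →+* ℚ[X]).comp (Int.castRingHom ℚ)) X
  have h2 : (f.integralNormalization.map (Int.castRingHom ℚ)).comp (C a * X)
      = C (a ^ (f.natDegree - 1)) * f.map (Int.castRingHom ℚ) := by
    rw [comp, eval₂_map, C_pow]
    rw [RingHom.comp_apply] at h1
    rw [show C a = C ((Int.castRingHom ℚ) f.leadingCoeff) from rfl, h1, Polynomial.map]
  have h3 : Irreducible ((f.integralNormalization.map (Int.castRingHom ℚ)).comp (C a * X)) := by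
    rw [h2]
    have hu : IsUnit (C (a ^ (f.natDegree - 1)) : ℚ[X]) :=
      isUnit_C.2 (pow_ne_zero _ ha).isUnit
    exact (irreducible_isUnit_mul hu).2 hirr
  have h4 : algEquivCMulXAddC a 0 (f.integralNormalization.map (Int.castRingHom ℚ))
      = (f.integralNormalization.map (Int.castRingHom ℚ)).comp (C a * X) := by
    rw [algEquivCMulXAddC_apply, C_0, add_zero, comp_eq_aeval]
  rw [← h4] at h3
  exact (MulEquiv.irreducible_iff (algEquivCMulXAddC a 0)).1 h3

/-- enumeration of the roots of a monic separable polynomial which splits -/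
theorem field_roots {L : Type} [Field L] {P : L[X]} (hm : P.Monic) (hs : P.Splits)
    (hsep : P.Separable) {d : ℕ} (hd : P.natDegree = d) :
    ∃ θ : Fin d → L, Function.Injective θ ∧ P = ∏ i, (X - C (θ i)) := by
  classical
  have hn : P.roots.Nodup := nodup_roots hsep
  have hc : P.roots.toFinset.card = d := by
    rw [Multiset.toFinset_card_of_nodup hn, ← hs.natDegree_eq_card_roots, hd]
  let e : Fin d ≃ P.roots.toFinset := (P.roots.toFinset.equivFinOfCardEq hc).symm
  refine ⟨fun i => (e i : L), fun i j h => e.injective (Subtype.ext h), ?_⟩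
  conv_lhs => rw [hs.eq_prod_roots_of_monic hm]
  have h1 : (P.roots.map fun a => X - C a).prod = ∏ x ∈ P.roots.toFinset, (X - C x) := by
    rw [Finset.prod_multiset_map_count]
    refine Finset.prod_congr rfl fun x hx => ?_
    rw [Multiset.count_eq_one_of_mem hn (Multiset.mem_toFinset.1 hx), pow_one]
  rw [h1, ← Finset.prod_coe_sort]
  exact (Equiv.prod_comp e fun x : P.roots.toFinset => X - C (x : L)).symm

/-- Splitting field of `f`, with the monic polynomial `G(x) = a₀^(d-1) f(x/a₀)` whose roots
`θ i = a₀ * (roots of f)` are algebraic integers. -/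
theorem exists_field (f : ℤ[X]) (hirr : Irreducible (f.map (Int.castRingHom ℚ)))
    (hd : 2 ≤ f.natDegree) :
    ∃ (L : Type) (_ : Field L) (_ : NumberField L) (θ : Fin f.natDegree → 𝓞 L) (G : ℤ[X]) (a0 : ℤ),
      a0 ≠ 0 ∧ G.Monic ∧ G.natDegree = f.natDegree ∧
      Irreducible (G.map (Int.castRingHom ℚ)) ∧ Function.Injective θ ∧
      G.map (algebraMap ℤ (𝓞 L)) = ∏ i, (X - C (θ i)) ∧
      ∀ n : ℤ, G.eval (a0 * n) = a0 ^ (f.natDegree - 1) * f.eval n := by
  have hf0 : f ≠ 0 := by
    rintro rfl
    simp at hd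
  have hd1 : 1 ≤ f.natDegree := by omega
  set G : ℤ[X] := f.integralNormalization with hG
  have hGm : G.Monic := monic_integralNormalization hf0
  have hGd : G.natDegree = f.natDegree := natDegree_integralNormalization
  have hGi : Irreducible (G.map (Int.castRingHom ℚ)) := field_irreducible f hirr hd1
  let P : ℚ[X] := G.map (Int.castRingHom ℚ)
  let L : Type := P.SplittingField
  have hNF : NumberField L :=
    { to_charZero := inferInstance
      to_finiteDimensional := by
        have h : Module.Finite ℚ P.SplittingField := inferInstance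
        convert h }
  have hPL : (P.map (algebraMap ℚ L)) = G.map (algebraMap ℤ L) := by
    rw [Polynomial.map_map]
    congr 1
  have hsplit : (G.map (algebraMap ℤ L)).Splits := by
    rw [← hPL]
    exact SplittingField.splits P
  have hsep : (G.map (algebraMap ℤ L)).Separable := by
    rw [← hPL]
    exact (Irreducible.separable hGi).map
  have hdeg : (G.map (algebraMap ℤ L)).natDegree = f.natDegree := by
    rw [hGm.natDegree_map, hGd]
  obtain ⟨θ, hθ, hprod⟩ := field_roots (hGm.map _) hsplit hsep hdeg
  have hint : ∀ i, IsIntegral ℤ (θ i) := by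
    intro i
    refine ⟨G, hGm, ?_⟩
    rw [← eval_map, hprod, eval_prod]
    exact Finset.prod_eq_zero (Finset.mem_univ i) (by simp)
  obtain ⟨θ', hθ'⟩ : ∃ θ' : Fin f.natDegree → 𝓞 L, ∀ i, algebraMap (𝓞 L) L (θ' i) = θ i :=
    ⟨fun i => ⟨θ i, hint i⟩, fun i => rfl⟩
  refine ⟨L, inferInstance, hNF, θ', G, f.leadingCoeff,
    leadingCoeff_ne_zero.2 hf0, hGm, hGd, hGi, ?_, ?_, ?_⟩
  · intro i j h
    exact hθ (by rw [← hθ', ← hθ', h])
  · refine Polynomial.map_injective (algebraMap (𝓞 L) L) RingOfIntegers.coe_injective ?_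
    rw [Polynomial.map_map, Polynomial.map_prod]
    have h1 : (algebraMap (𝓞 L) L).comp (algebraMap ℤ (𝓞 L)) = algebraMap ℤ L :=
      RingHom.ext_int _ _
    rw [h1, hprod]
    refine Finset.prod_congr rfl fun i _ => ?_
    rw [Polynomial.map_sub, map_X, map_C, hθ']
  · intro n
    have h := integralNormalization_eval₂_leadingCoeff_mul hd1 (RingHom.id ℤ) n
    simpa only [eval₂_id, RingHom.id_apply] using h

end Vale.Agent.P018.K
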