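import Vale.Agent.P018.K.Asym

/-! # P018, K-method, module K9a: numerical verification of admissibility for
`(7, 4)`, `(9, 5)`, `(11, 6)`. -/

set_option linter.all false

namespace Vale.Agent.P018.K

open Polynomial MeasureTheory

/-- one term of the integral, after the substitution `v = w u` -/
theorem numA_term (m w k : ℝ) (hw : 0 < w) (hm : 0 ≤ m) (hmk : m ≤ w * k) (p q : ℕ) (hq : q ≠ 0) :
    w ^ (p + 1) * ∫ u in (0 : ℝ)..k, u ^ p * (max (w * u - m) 0) ^ q =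
      ∫ v in m..(w * k), v ^ p * (v - m) ^ q := by
  have h1 : ∫ u in (0 : ℝ)..k, u ^ p * (max (w * u - m) 0) ^ q =
      ∫ u in (0 : ℝ)..k, (fun v : ℝ => (v / w) ^ p * (max (v - m) 0) ^ q) (w * u) := by
    refine intervalIntegral.integral_congr fun u _ => ?_
    simp only
    rw [mul_div_cancel_left₀ _ hw.ne']
  have h0 := intervalIntegral.integral_comp_mul_left (a := 0) (b := k)
    (fun v : ℝ => (v / w) ^ p * (max (v - m) 0) ^ q) hw.ne'
  rw [h1, h0, mul_zero, smul_eq_mul]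
  have hc : Continuous fun v : ℝ => (v / w) ^ p * (max (v - m) 0) ^ q := by fun_prop
  rw [← intervalIntegral.integral_add_adjacent_intervals (hc.intervalIntegrable 0 m)
    (hc.intervalIntegrable m (w * k))]
  have h2 : ∫ v in (0 : ℝ)..m, (v / w) ^ p * (max (v - m) 0) ^ q = 0 := by
    have h5 : ∫ v in (0 : ℝ)..m, (v / w) ^ p * (max (v - m) 0) ^ q = ∫ v in (0 : ℝ)..m, (0 : ℝ) := by
      refine intervalIntegral.integral_congr fun v hv => ?_
      rw [Set.uIcc_of_le hm] at hv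
      show (v / w) ^ p * (max (v - m) 0) ^ q = 0
      rw [max_eq_right (by linarith [hv.2]), zero_pow hq, mul_zero]
    rw [h5, intervalIntegral.integral_zero]
  have h3 : ∫ v in m..(w * k), (v / w) ^ p * (max (v - m) 0) ^ q =
      ∫ v in m..(w * k), (w ^ p)⁻¹ * (v ^ p * (v - m) ^ q) := by
    refine intervalIntegral.integral_congr fun v hv => ?_
    rw [Set.uIcc_of_le hmk] at hv
    show (v / w) ^ p * (max (v - m) 0) ^ q = (w ^ p)⁻¹ * (v ^ p * (v - m) ^ q)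
    rw [max_eq_left (by linarith [hv.1]), div_pow]
    field_simp
  rw [h2, h3, zero_add, intervalIntegral.integral_const_mul]
  field_simp
  ring

/-- the integral for `r = 3` -/
theorem Jint_three (m w k : ℝ) (hw : 0 < w) (hm : 0 ≤ m) (hmk : m ≤ w * k) :
    Jint 3 m w k * w ^ 3 =
      ∫ u in m..(w * k), ((u - m) ^ 3 / 2 + 3 * u * (u - m) ^ 2 / 2 + u ^ 2 * (u - m) / 2) := by
  have t1 := numA_term m w k hw hm hmk 0 3 (by norm_num)
  have t2 := numA_term m w k hw hm hmk 1 2 (by norm_num)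
  have t3 := numA_term m w k hw hm hmk 2 1 (by norm_num)
  have hI : ∀ p q : ℕ, IntervalIntegrable (fun v : ℝ => v ^ p * (v - m) ^ q) volume m (w * k) :=
    fun p q => Continuous.intervalIntegrable (by fun_prop) _ _
  have e : ∫ u in m..(w * k), ((u - m) ^ 3 / 2 + 3 * u * (u - m) ^ 2 / 2 + u ^ 2 * (u - m) / 2) =
      ∫ u in m..(w * k), ((1 / 2) * (u ^ 0 * (u - m) ^ 3) + (3 / 2) * (u ^ 1 * (u - m) ^ 2) +
        (1 / 2) * (u ^ 2 * (u - m) ^ 1)) := by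
    refine intervalIntegral.integral_congr fun u _ => ?_
    show _ = _
    ring
  rw [e, intervalIntegral.integral_add (((hI 0 3).const_mul _).add ((hI 1 2).const_mul _))
    ((hI 2 1).const_mul _), intervalIntegral.integral_add ((hI 0 3).const_mul _)
    ((hI 1 2).const_mul _), intervalIntegral.integral_const_mul,
    intervalIntegral.integral_const_mul, intervalIntegral.integral_const_mul, ← t1, ← t2, ← t3]
  unfold Jint
  have hs : Finset.Icc 1 3 = ({1, 2, 3} : Finset ℕ) := by decide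
  rw [hs, Finset.sum_insert (by decide), Finset.sum_insert (by decide), Finset.sum_singleton]
  have c1 : Nat.choose 3 1 = 3 := by decide
  have c2 : Nat.choose 3 2 = 3 := by decide
  have c3 : Nat.choose 3 3 = 1 := by decide
  simp only [c1, c2, c3]
  norm_num [Nat.factorial]
  field_simp
  ring

/-- the integral for `r = 4` -/
theorem Jint_four (m w k : ℝ) (hw : 0 < w) (hm : 0 ≤ m) (hmk : m ≤ w * k) :
    Jint 4 m w k * w ^ 4 =
      ∫ u in m..(w * k), ((u - m) ^ 4 / 6 + u * (u - m) ^ 3 + u ^ 2 * (u - m) ^ 2 +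
        u ^ 3 * (u - m) / 6) := by
  have t1 := numA_term m w k hw hm hmk 0 4 (by norm_num)
  have t2 := numA_term m w k hw hm hmk 1 3 (by norm_num)
  have t3 := numA_term m w k hw hm hmk 2 2 (by norm_num)
  have t4 := numA_term m w k hw hm hmk 3 1 (by norm_num)
  have hI : ∀ p q : ℕ, IntervalIntegrable (fun v : ℝ => v ^ p * (v - m) ^ q) volume m (w * k) :=
    fun p q => Continuous.intervalIntegrable (by fun_prop) _ _
  have e : ∫ u in m..(w * k), ((u - m) ^ 4 / 6 + u * (u - m) ^ 3 + u ^ 2 * (u - m) ^ 2 +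
        u ^ 3 * (u - m) / 6) =
      ∫ u in m..(w * k), ((1 / 6) * (u ^ 0 * (u - m) ^ 4) + u ^ 1 * (u - m) ^ 3 +
        u ^ 2 * (u - m) ^ 2 + (1 / 6) * (u ^ 3 * (u - m) ^ 1)) := by
    refine intervalIntegral.integral_congr fun u _ => ?_
    show _ = _
    ring
  rw [e, intervalIntegral.integral_add ((((hI 0 4).const_mul _).add (hI 1 3)).add (hI 2 2))
    ((hI 3 1).const_mul _), intervalIntegral.integral_add (((hI 0 4).const_mul _).add (hI 1 3))
    (hI 2 2), intervalIntegral.integral_add ((hI 0 4).const_mul _) (hI 1 3),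
    intervalIntegral.integral_const_mul, intervalIntegral.integral_const_mul, ← t1, ← t2, ← t3,
    ← t4]
  unfold Jint
  have hs : Finset.Icc 1 4 = ({1, 2, 3, 4} : Finset ℕ) := by decide
  rw [hs, Finset.sum_insert (by decide), Finset.sum_insert (by decide),
    Finset.sum_insert (by decide), Finset.sum_singleton]
  have c1 : Nat.choose 4 1 = 4 := by decide
  have c2 : Nat.choose 4 2 = 6 := by decide
  have c3 : Nat.choose 4 3 = 4 := by decide
  have c4 : Nat.choose 4 4 = 1 := by decide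
  simp only [c1, c2, c3, c4]
  norm_num [Nat.factorial]
  field_simp
  ring

theorem numA_J3 (m w k : ℝ) (hw : 0 < w) (hm : 0 ≤ m) (hmk : m ≤ w * k) :
    Jint 3 m w k * w ^ 3 = 5 / 8 * (w * k - m) ^ 4 + 5 / 6 * m * (w * k - m) ^ 3 +
      m ^ 2 / 4 * (w * k - m) ^ 2 := by
  rw [Jint_three m w k hw hm hmk]
  have h : ∀ u ∈ Set.uIcc m (w * k), HasDerivAt (fun u : ℝ => 5 / 8 * (u - m) ^ 4 +
      5 / 6 * m * (u - m) ^ 3 + m ^ 2 / 4 * (u - m) ^ 2)
      ((u - m) ^ 3 / 2 + 3 * u * (u - m) ^ 2 / 2 + u ^ 2 * (u - m) / 2) u := by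
    intro u _
    have h0 : HasDerivAt (fun u : ℝ => u - m) 1 u := (hasDerivAt_id u).sub_const m
    have h1 := ((h0.pow 4).const_mul (5 / 8)).add ((h0.pow 3).const_mul (5 / 6 * m)) |>.add
      ((h0.pow 2).const_mul (m ^ 2 / 4))
    refine h1.congr_deriv ?_
    norm_num
    ring
  rw [intervalIntegral.integral_eq_sub_of_hasDerivAt h
    (Continuous.intervalIntegrable (by fun_prop) _ _)]
  ring

theorem numA_J4 (m w k : ℝ) (hw : 0 < w) (hm : 0 ≤ m) (hmk : m ≤ w * k) :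
    Jint 4 m w k * w ^ 4 = 7 / 15 * (w * k - m) ^ 5 + 7 / 8 * m * (w * k - m) ^ 4 +
      m ^ 2 / 2 * (w * k - m) ^ 3 + m ^ 3 / 12 * (w * k - m) ^ 2 := by
  rw [Jint_four m w k hw hm hmk]
  have h : ∀ u ∈ Set.uIcc m (w * k), HasDerivAt (fun u : ℝ => 7 / 15 * (u - m) ^ 5 +
      7 / 8 * m * (u - m) ^ 4 + m ^ 2 / 2 * (u - m) ^ 3 + m ^ 3 / 12 * (u - m) ^ 2)
      ((u - m) ^ 4 / 6 + u * (u - m) ^ 3 + u ^ 2 * (u - m) ^ 2 + u ^ 3 * (u - m) / 6) u := by
    intro u _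
    have h0 : HasDerivAt (fun u : ℝ => u - m) 1 u := (hasDerivAt_id u).sub_const m
    have h1 := ((h0.pow 5).const_mul (7 / 15)).add ((h0.pow 4).const_mul (7 / 8 * m)) |>.add
      ((h0.pow 3).const_mul (m ^ 2 / 2)) |>.add ((h0.pow 2).const_mul (m ^ 3 / 12))
    refine h1.congr_deriv ?_
    norm_num
    ring
  rw [intervalIntegral.integral_eq_sub_of_hasDerivAt h
    (Continuous.intervalIntegrable (by fun_prop) _ _)]
  ring

/-- admissibility from a strict inequality at the maximal value of `β` -/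
theorem numA_adm (d k r : ℕ) (a m β : ℝ) (hr : 1 ≤ r) (hrd : r < d) (ha : 1 ≤ a) (hm : 0 ≤ m)
    (hm1 : m < 1) (hβ0 : 0 < β) (hβ : β * a * (d - r) = d - r * a)
    (h : (1 - m) ^ (r + 1) < (r + 1).factorial * β ^ r * (Jint r m (a / d) k * (a / d) ^ r)) :
    Adm d k a := by
  have hd : (0 : ℝ) < d := by exact_mod_cast (by omega : 0 < d)
  have hdr : (0 : ℝ) < d - r := by
    have : (r : ℝ) < d := by exact_mod_cast hrd
    linarith
  have ha0 : 0 < a := by linarith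
  have hβ1 : β ≤ 1 := by
    by_contra hc
    push Not at hc
    have h1 : 1 * (a * (d - r)) < β * (a * (d - r)) :=
      mul_lt_mul_of_pos_right hc (mul_pos ha0 hdr)
    have h2 : (d : ℝ) ≤ a * d := by nlinarith
    nlinarith
  -- a slightly smaller value of β
  have hcont : Continuous fun t : ℝ =>
      ((r + 1).factorial : ℝ) * t ^ r * (Jint r m (a / d) k * (a / d) ^ r) := by fun_prop
  have hev : ∀ᶠ t in nhdsWithin β (Set.Iio β), (1 - m) ^ (r + 1) <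
      ((r + 1).factorial : ℝ) * t ^ r * (Jint r m (a / d) k * (a / d) ^ r) :=
    (hcont.continuousAt.eventually_const_lt h).filter_mono nhdsWithin_le_nhds
  have hev2 : ∀ᶠ t in nhdsWithin β (Set.Iio β), t ∈ Set.Ioo 0 β := Ioo_mem_nhdsLT hβ0
  obtain ⟨t, ht1, ht2⟩ := (hev.and hev2).exists
  have hw : 0 < a / d := div_pos ha0 hd
  refine ⟨r, m, t * (a / d), hr, hrd.le, hm, hm1, mul_pos ht2.1 hw, ?_, ?_, ?_⟩
  · have : t < 1 := lt_of_lt_of_le ht2.2 hβ1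
    nlinarith
  · have h3 : a * r / d + t * (a / d) * (d - r) < a * r / d + β * (a / d) * (d - r) := by
      have : t * (a / d) * (d - r) < β * (a / d) * (d - r) :=
        mul_lt_mul_of_pos_right (mul_lt_mul_of_pos_right ht2.2 hw) hdr
      linarith
    have h4 : a * r / d + β * (a / d) * (d - r) = 1 := by
      field_simp
      linarith
    linarith
  · have hf : (0 : ℝ) < (r + 1).factorial := by exact_mod_cast Nat.factorial_pos _
    rw [div_lt_iff₀ (mul_pos hf (pow_pos (mul_pos ht2.1 hw) r)), mul_pow]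
    linarith

theorem adm_seven (a : ℝ) (ha : 1 ≤ a) (ha2 : a ≤ 7 / 4) : Adm 7 4 a := by
  obtain ⟨x, rfl⟩ : ∃ x : ℝ, a = 7 * (1 - x) / 4 := ⟨1 - 4 * a / 7, by ring⟩
  have hx0 : 0 ≤ x := by linarith
  have hx1 : x ≤ 3 / 7 := by linarith
  have h1x : (0 : ℝ) < 1 - x := by linarith
  have hw : 0 < 7 * (1 - x) / 4 / (7 : ℕ) := by positivity
  have hwk : 7 * (1 - x) / 4 / (7 : ℕ) * (4 : ℕ) = 1 - x := by push_cast; ring
  have hβ0 : 0 < (1 + 3 * x) / (4 * (1 - x)) := by positivity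
  have hβ : (1 + 3 * x) / (4 * (1 - x)) * (7 * (1 - x) / 4) * (((7 : ℕ) : ℝ) - (3 : ℕ)) =
      ((7 : ℕ) : ℝ) - (3 : ℕ) * (7 * (1 - x) / 4) := by
    push_cast
    field_simp
    ring
  have key : ∀ m : ℝ, 0 ≤ m → m < 1 → m ≤ 1 - x →
      (1 - m) ^ 4 * (64 * (1 - x) ^ 3) < 24 * (1 + 3 * x) ^ 3 *
        (5 / 8 * (1 - x - m) ^ 4 + 5 / 6 * m * (1 - x - m) ^ 3 + m ^ 2 / 4 * (1 - x - m) ^ 2) →
      Adm 7 4 (7 * (1 - x) / 4) := by
    intro m hm hm1 hmx hI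
    refine numA_adm 7 4 3 _ m _ (by norm_num) (by norm_num) ha hm hm1 hβ0 hβ ?_
    rw [numA_J3 m _ _ hw hm (by rw [hwk]; exact hmx), hwk, div_pow]
    have e : (((3 + 1).factorial : ℕ) : ℝ) = 24 := by norm_num [Nat.factorial]
    rw [e]
    have hpos : (0 : ℝ) < 64 * (1 - x) ^ 3 := by positivity
    rw [show 24 * ((1 + 3 * x) ^ 3 / (4 * (1 - x)) ^ 3) *
        (5 / 8 * (1 - x - m) ^ 4 + 5 / 6 * m * (1 - x - m) ^ 3 + m ^ 2 / 4 * (1 - x - m) ^ 2) =
        (24 * (1 + 3 * x) ^ 3 *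
        (5 / 8 * (1 - x - m) ^ 4 + 5 / 6 * m * (1 - x - m) ^ 3 + m ^ 2 / 4 * (1 - x - m) ^ 2)) /
        (64 * (1 - x) ^ 3) by
      rw [mul_pow]; ring]
    rw [lt_div_iff₀ hpos]
    exact hI
  rcases eq_or_lt_of_le hx0 with h0 | h0
  · refine key (3 / 4) (by norm_num) (by norm_num) (by rw [← h0]; norm_num) ?_
    rw [← h0]; norm_num
  rcases le_total x (3 / 10) with h1 | h1
  · refine key (1 - 5 / 2 * x) (by linarith) (by linarith) (by linarith) ?_
    have hP : 0 < 216 + 1944 * x - 34303 * x ^ 2 + 124617 * x ^ 3 - 123645 * x ^ 4 +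
        36355 * x ^ 5 := by
      rcases le_total x (3 / 20) with h2 | h2
      · obtain ⟨s, hs⟩ : ∃ s, s = x := ⟨x, rfl⟩
        have ht : 0 ≤ 3 / 20 - x := by linarith
        have e : (216 + 1944 * x - 34303 * x ^ 2 + 124617 * x ^ 3 - 123645 * x ^ 4 +
            36355 * x ^ 5) * (3 / 20) ^ 5 =
            216 * (3 / 20 - x) ^ 5 + 6858 / 5 * x * (3 / 20 - x) ^ 4 +
            1021833 / 400 * x ^ 2 * (3 / 20 - x) ^ 3 + 16117839 / 8000 * x ^ 3 * (3 / 20 - x) ^ 2 +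
            22704543 / 32000 * x ^ 4 * (3 / 20 - x) + 61779393 / 640000 * x ^ 5 := by ring
        have h3 : 0 < (216 + 1944 * x - 34303 * x ^ 2 + 124617 * x ^ 3 - 123645 * x ^ 4 +
            36355 * x ^ 5) * (3 / 20) ^ 5 := by
          rw [e]; positivity
        exact pos_of_mul_pos_left h3 (by positivity)
      · have hs : 0 ≤ x - 3 / 20 := by linarith
        have ht : 0 ≤ 3 / 10 - x := by linarith
        have e : (216 + 1944 * x - 34303 * x ^ 2 + 124617 * x ^ 3 - 123645 * x ^ 4 +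
            36355 * x ^ 5) * (3 / 20) ^ 5 =
            61779393 / 640000 * (3 / 10 - x) ^ 5 +
            16370307 / 64000 * (x - 3 / 20) * (3 / 10 - x) ^ 4 +
            3196899 / 16000 * (x - 3 / 20) ^ 2 * (3 / 10 - x) ^ 3 +
            1822509 / 8000 * (x - 3 / 20) ^ 3 * (3 / 10 - x) ^ 2 +
            2783277 / 8000 * (x - 3 / 20) ^ 4 * (3 / 10 - x) +
            3268143 / 20000 * (x - 3 / 20) ^ 5 := by ring
        have h3 : 0 < (216 + 1944 * x - 34303 * x ^ 2 + 124617 * x ^ 3 - 123645 * x ^ 4 +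
            36355 * x ^ 5) * (3 / 20) ^ 5 := by
          rw [e]
          rcases eq_or_lt_of_le hs with h5 | h5
          · rw [← h5]
            have : 0 < 3 / 10 - x := by linarith
            positivity
          · positivity
        exact pos_of_mul_pos_left h3 (by positivity)
    have h4 := mul_pos hP (pow_pos h0 2)
    have e : 24 * (1 + 3 * x) ^ 3 *
        (5 / 8 * (1 - x - (1 - 5 / 2 * x)) ^ 4 + 5 / 6 * (1 - 5 / 2 * x) *
          (1 - x - (1 - 5 / 2 * x)) ^ 3 + (1 - 5 / 2 * x) ^ 2 / 4 * (1 - x - (1 - 5 / 2 * x)) ^ 2) -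
        (1 - (1 - 5 / 2 * x)) ^ 4 * (64 * (1 - x) ^ 3) =
        (216 + 1944 * x - 34303 * x ^ 2 + 124617 * x ^ 3 - 123645 * x ^ 4 +
            36355 * x ^ 5) * x ^ 2 / 16 := by ring
    have h6 : 0 < (216 + 1944 * x - 34303 * x ^ 2 + 124617 * x ^ 3 - 123645 * x ^ 4 +
            36355 * x ^ 5) * x ^ 2 / 16 := by positivity
    linarith
  · refine key 0 le_rfl (by norm_num) h1x.le ?_
    have hA : (0 : ℝ) ≤ x - 3 / 10 := by linarith
    have hB : (0 : ℝ) ≤ 3 / 7 - x := by linarith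
    have h5 : 64 < 15 * (1 + 3 * x) ^ 3 * (1 - x) := by
      nlinarith [mul_nonneg hA hB, mul_nonneg (mul_nonneg hA hA) hB,
        mul_nonneg (mul_nonneg (mul_nonneg hA hA) hA) hB]
    have e : 24 * (1 + 3 * x) ^ 3 *
        (5 / 8 * (1 - x - 0) ^ 4 + 5 / 6 * 0 * (1 - x - 0) ^ 3 + 0 ^ 2 / 4 * (1 - x - 0) ^ 2) -
        (1 - 0) ^ 4 * (64 * (1 - x) ^ 3) = (1 - x) ^ 3 * (15 * (1 + 3 * x) ^ 3 * (1 - x) - 64) := by
      ring
    have h6 : 0 < (1 - x) ^ 3 * (15 * (1 + 3 * x) ^ 3 * (1 - x) - 64) :=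
      mul_pos (pow_pos h1x 3) (by linarith)
    linarith

theorem adm_nine (a : ℝ) (ha : 1 ≤ a) (ha2 : a ≤ 9 / 5) : Adm 9 5 a := by
  obtain ⟨x, rfl⟩ : ∃ x : ℝ, a = 9 * (1 - x) / 5 := ⟨1 - 5 * a / 9, by ring⟩
  have hx0 : 0 ≤ x := by linarith
  have hx1 : x ≤ 4 / 9 := by linarith
  have h1x : (0 : ℝ) < 1 - x := by linarith
  have hw : 0 < 9 * (1 - x) / 5 / (9 : ℕ) := by positivity
  have hwk : 9 * (1 - x) / 5 / (9 : ℕ) * (5 : ℕ) = 1 - x := by push_cast; ring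
  have hβ0 : 0 < (1 + 4 * x) / (5 * (1 - x)) := by positivity
  have hβ : (1 + 4 * x) / (5 * (1 - x)) * (9 * (1 - x) / 5) * (((9 : ℕ) : ℝ) - (4 : ℕ)) =
      ((9 : ℕ) : ℝ) - (4 : ℕ) * (9 * (1 - x) / 5) := by
    push_cast
    field_simp
    ring
  have key : ∀ m : ℝ, 0 ≤ m → m < 1 → m ≤ 1 - x →
      (1 - m) ^ 5 * (625 * (1 - x) ^ 4) < 120 * (1 + 4 * x) ^ 4 *
        (7 / 15 * (1 - x - m) ^ 5 + 7 / 8 * m * (1 - x - m) ^ 4 + m ^ 2 / 2 * (1 - x - m) ^ 3 +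
          m ^ 3 / 12 * (1 - x - m) ^ 2) →
      Adm 9 5 (9 * (1 - x) / 5) := by
    intro m hm hm1 hmx hI
    refine numA_adm 9 5 4 _ m _ (by norm_num) (by norm_num) ha hm hm1 hβ0 hβ ?_
    rw [numA_J4 m _ _ hw hm (by rw [hwk]; exact hmx), hwk, div_pow]
    have e : (((4 + 1).factorial : ℕ) : ℝ) = 120 := by norm_num [Nat.factorial]
    rw [e]
    have hpos : (0 : ℝ) < 625 * (1 - x) ^ 4 := by positivity
    rw [show 120 * ((1 + 4 * x) ^ 4 / (5 * (1 - x)) ^ 4) *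
        (7 / 15 * (1 - x - m) ^ 5 + 7 / 8 * m * (1 - x - m) ^ 4 + m ^ 2 / 2 * (1 - x - m) ^ 3 +
          m ^ 3 / 12 * (1 - x - m) ^ 2) =
        (120 * (1 + 4 * x) ^ 4 *
        (7 / 15 * (1 - x - m) ^ 5 + 7 / 8 * m * (1 - x - m) ^ 4 + m ^ 2 / 2 * (1 - x - m) ^ 3 +
          m ^ 3 / 12 * (1 - x - m) ^ 2)) /
        (625 * (1 - x) ^ 4) by
      rw [mul_pow]; ring]
    rw [lt_div_iff₀ hpos]
    exact hI
  rcases eq_or_lt_of_le hx0 with h0 | h0
  · refine key (4 / 5) (by norm_num) (by norm_num) (by rw [← h0]; norm_num) ?_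
    rw [← h0]; norm_num
  · refine key (1 - 2 * x) (by linarith) (by linarith) (by linarith) ?_
    have ht : 0 < 1 / 2 - x := by linarith
    have hQ : 0 < 10 + 160 * x + 945 * x ^ 2 - 17674 * x ^ 3 + 81216 * x ^ 4 - 123264 * x ^ 5 +
        77696 * x ^ 6 - 18464 * x ^ 7 := by
      have e : (10 + 160 * x + 945 * x ^ 2 - 17674 * x ^ 3 + 81216 * x ^ 4 - 123264 * x ^ 5 +
          77696 * x ^ 6 - 18464 * x ^ 7) * (1 / 2) ^ 7 =
          10 * (1 / 2 - x) ^ 7 + 150 * x * (1 / 2 - x) ^ 6 + 3705 / 4 * x ^ 2 * (1 / 2 - x) ^ 5 +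
          522 * x ^ 3 * (1 / 2 - x) ^ 4 + 1103 / 2 * x ^ 4 * (1 / 2 - x) ^ 3 +
          1893 * x ^ 5 * (1 / 2 - x) ^ 2 + 6529 / 4 * x ^ 6 * (1 / 2 - x) +
          1643 / 4 * x ^ 7 := by ring
      have h3 : 0 < (10 + 160 * x + 945 * x ^ 2 - 17674 * x ^ 3 + 81216 * x ^ 4 - 123264 * x ^ 5 +
          77696 * x ^ 6 - 18464 * x ^ 7) * (1 / 2) ^ 7 := by
        rw [e]; positivity
      exact pos_of_mul_pos_left h3 (by positivity)
    have e : 120 * (1 + 4 * x) ^ 4 *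
        (7 / 15 * (1 - x - (1 - 2 * x)) ^ 5 + 7 / 8 * (1 - 2 * x) * (1 - x - (1 - 2 * x)) ^ 4 +
          (1 - 2 * x) ^ 2 / 2 * (1 - x - (1 - 2 * x)) ^ 3 +
          (1 - 2 * x) ^ 3 / 12 * (1 - x - (1 - 2 * x)) ^ 2) -
        (1 - (1 - 2 * x)) ^ 5 * (625 * (1 - x) ^ 4) =
        (10 + 160 * x + 945 * x ^ 2 - 17674 * x ^ 3 + 81216 * x ^ 4 - 123264 * x ^ 5 +
        77696 * x ^ 6 - 18464 * x ^ 7) * x ^ 2 := by ring
    have h6 := mul_pos hQ (pow_pos h0 2)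
    linarith

theorem adm_eleven (a : ℝ) (ha : 1 ≤ a) (ha2 : a ≤ 11 / 6) : Adm 11 6 a := by
  obtain ⟨x, rfl⟩ : ∃ x : ℝ, a = 11 * (1 - x) / 6 := ⟨1 - 6 * a / 11, by ring⟩
  have hx0 : 0 ≤ x := by linarith
  have hx1 : x ≤ 5 / 11 := by linarith
  have h1x : (0 : ℝ) < 1 - x := by linarith
  have hw : 0 < 11 * (1 - x) / 6 / (11 : ℕ) := by positivity
  have hwk : 11 * (1 - x) / 6 / (11 : ℕ) * (6 : ℕ) = 1 - x := by push_cast; ring
  have hβ0 : 0 < 2 * (1 + 2 * x) / (7 * (1 - x)) := by positivity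
  have hβ : 2 * (1 + 2 * x) / (7 * (1 - x)) * (11 * (1 - x) / 6) * (((11 : ℕ) : ℝ) - (4 : ℕ)) =
      ((11 : ℕ) : ℝ) - (4 : ℕ) * (11 * (1 - x) / 6) := by
    push_cast
    field_simp
    ring
  have key : ∀ m : ℝ, 0 ≤ m → m < 1 → m ≤ 1 - x →
      (1 - m) ^ 5 * (2401 * (1 - x) ^ 4) < 1920 * (1 + 2 * x) ^ 4 *
        (7 / 15 * (1 - x - m) ^ 5 + 7 / 8 * m * (1 - x - m) ^ 4 + m ^ 2 / 2 * (1 - x - m) ^ 3 +
          m ^ 3 / 12 * (1 - x - m) ^ 2) →
      Adm 11 6 (11 * (1 - x) / 6) := by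
    intro m hm hm1 hmx hI
    refine numA_adm 11 6 4 _ m _ (by norm_num) (by norm_num) ha hm hm1 hβ0 hβ ?_
    rw [numA_J4 m _ _ hw hm (by rw [hwk]; exact hmx), hwk, div_pow]
    have e : (((4 + 1).factorial : ℕ) : ℝ) = 120 := by norm_num [Nat.factorial]
    rw [e]
    have hpos : (0 : ℝ) < 2401 * (1 - x) ^ 4 := by positivity
    rw [show 120 * ((2 * (1 + 2 * x)) ^ 4 / (7 * (1 - x)) ^ 4) *
        (7 / 15 * (1 - x - m) ^ 5 + 7 / 8 * m * (1 - x - m) ^ 4 + m ^ 2 / 2 * (1 - x - m) ^ 3 +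
          m ^ 3 / 12 * (1 - x - m) ^ 2) =
        (1920 * (1 + 2 * x) ^ 4 *
        (7 / 15 * (1 - x - m) ^ 5 + 7 / 8 * m * (1 - x - m) ^ 4 + m ^ 2 / 2 * (1 - x - m) ^ 3 +
          m ^ 3 / 12 * (1 - x - m) ^ 2)) /
        (2401 * (1 - x) ^ 4) by
      rw [mul_pow, mul_pow]; ring]
    rw [lt_div_iff₀ hpos]
    exact hI
  rcases eq_or_lt_of_le hx0 with h0 | h0
  · refine key (4 / 5) (by norm_num) (by norm_num) (by rw [← h0]; norm_num) ?_
    rw [← h0]; norm_num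
  · refine key (1 - 2 * x) (by linarith) (by linarith) (by linarith) ?_
    have ht : 0 < 1 / 2 - x := by linarith
    have hQ : 0 < 10 + 80 * x + 225 * x ^ 2 - 4596 * x ^ 3 + 19056 * x ^ 4 - 29148 * x ^ 5 +
        19160 * x ^ 6 - 4706 * x ^ 7 := by
      have e : (10 + 80 * x + 225 * x ^ 2 - 4596 * x ^ 3 + 19056 * x ^ 4 - 29148 * x ^ 5 +
          19160 * x ^ 6 - 4706 * x ^ 7) * (1 / 2) ^ 7 =
          10 * (1 / 2 - x) ^ 7 + 110 * x * (1 / 2 - x) ^ 6 + 2025 / 4 * x ^ 2 * (1 / 2 - x) ^ 5 +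
          2627 / 4 * x ^ 3 * (1 / 2 - x) ^ 4 + 1211 / 2 * x ^ 4 * (1 / 2 - x) ^ 3 +
          4701 / 8 * x ^ 5 * (1 / 2 - x) ^ 2 + 2751 / 8 * x ^ 6 * (1 / 2 - x) +
          4767 / 64 * x ^ 7 := by ring
      have h3 : 0 < (10 + 80 * x + 225 * x ^ 2 - 4596 * x ^ 3 + 19056 * x ^ 4 - 29148 * x ^ 5 +
          19160 * x ^ 6 - 4706 * x ^ 7) * (1 / 2) ^ 7 := by
        rw [e]; positivity
      exact pos_of_mul_pos_left h3 (by positivity)
    have e : 1920 * (1 + 2 * x) ^ 4 *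
        (7 / 15 * (1 - x - (1 - 2 * x)) ^ 5 + 7 / 8 * (1 - 2 * x) * (1 - x - (1 - 2 * x)) ^ 4 +
          (1 - 2 * x) ^ 2 / 2 * (1 - x - (1 - 2 * x)) ^ 3 +
          (1 - 2 * x) ^ 3 / 12 * (1 - x - (1 - 2 * x)) ^ 2) -
        (1 - (1 - 2 * x)) ^ 5 * (2401 * (1 - x) ^ 4) =
        16 * (10 + 80 * x + 225 * x ^ 2 - 4596 * x ^ 3 + 19056 * x ^ 4 - 29148 * x ^ 5 +
        19160 * x ^ 6 - 4706 * x ^ 7) * x ^ 2 := by ring
    have h6 := mul_pos hQ (pow_pos h0 2)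
    linarith

end Vale.Agent.P018.K
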