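import Vale.Agent.P018.K.Defs

/-! # P018, K-method, module K9b: numerical verification of admissibility for `2 k ≥ d`, `d ≥ 12`. -/

namespace Vale.Agent.P018.K

open MeasureTheory

/-- the polynomial value of the integral for `r = 4`. -/
noncomputable def numB_P (m s : ℝ) : ℝ :=
  7 / 15 * s ^ 5 + 7 / 8 * m * s ^ 4 + 1 / 2 * m ^ 2 * s ^ 3 + 1 / 12 * m ^ 3 * s ^ 2

theorem numB_P_mono (m : ℝ) (hm : 0 ≤ m) {s t : ℝ} (hs : 0 ≤ s) (hst : s ≤ t) :
    numB_P m s ≤ numB_P m t := by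
  unfold numB_P
  gcongr

theorem numB_Jint_four (m w k : ℝ) (hw : 0 < w) (hm : 0 ≤ m) (hmk : m ≤ w * k) :
    Jint 4 m w k * w ^ 4 = numB_P m (w * k - m) := by
  have hc : ∀ n l : ℕ, Continuous fun u : ℝ => u ^ n * (max (w * u - m) 0) ^ l := by
    intro n l; fun_prop
  have hi : ∀ n l : ℕ, IntervalIntegrable (fun u : ℝ => u ^ n * (max (w * u - m) 0) ^ l)
      volume 0 k := fun n l => (hc n l).intervalIntegrable _ _
  have h1 : Jint 4 m w k * w ^ 4 = w * ∫ u in (0 : ℝ)..k,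
      ((max (w * u - m) 0) ^ 4 / 6 + (w * u) * (max (w * u - m) 0) ^ 3 +
        (w * u) ^ 2 * (max (w * u - m) 0) ^ 2 + (w * u) ^ 3 * (max (w * u - m) 0) / 6) := by
    have e : (fun u : ℝ => ((max (w * u - m) 0) ^ 4 / 6 + (w * u) * (max (w * u - m) 0) ^ 3 +
        (w * u) ^ 2 * (max (w * u - m) 0) ^ 2 + (w * u) ^ 3 * (max (w * u - m) 0) / 6)) =
        fun u : ℝ => (1 / 6) * (u ^ 0 * (max (w * u - m) 0) ^ 4) +
          w * (u ^ 1 * (max (w * u - m) 0) ^ 3) + w ^ 2 * (u ^ 2 * (max (w * u - m) 0) ^ 2) +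
          w ^ 3 / 6 * (u ^ 3 * (max (w * u - m) 0) ^ 1) := by
      funext u; ring
    rw [e, intervalIntegral.integral_add
      ((((hi 0 4).const_mul _).add ((hi 1 3).const_mul _)).add ((hi 2 2).const_mul _))
      ((hi 3 1).const_mul _),
      intervalIntegral.integral_add (((hi 0 4).const_mul _).add ((hi 1 3).const_mul _))
      ((hi 2 2).const_mul _),
      intervalIntegral.integral_add ((hi 0 4).const_mul _) ((hi 1 3).const_mul _)]
    simp only [intervalIntegral.integral_const_mul]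
    have hI : Finset.Icc 1 4 = ({1, 2, 3, 4} : Finset ℕ) := by decide
    rw [Jint, hI]
    rw [Finset.sum_insert (by decide), Finset.sum_insert (by decide),
      Finset.sum_insert (by decide), Finset.sum_singleton]
    norm_num [Nat.choose, Nat.factorial]
    field_simp
    ring
  rw [h1]
  have h2 : (w * ∫ u in (0 : ℝ)..k,
      ((max (w * u - m) 0) ^ 4 / 6 + (w * u) * (max (w * u - m) 0) ^ 3 +
        (w * u) ^ 2 * (max (w * u - m) 0) ^ 2 + (w * u) ^ 3 * (max (w * u - m) 0) / 6)) =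
      ∫ x in (0 : ℝ)..(w * k), ((max (x - m) 0) ^ 4 / 6 + x * (max (x - m) 0) ^ 3 +
        x ^ 2 * (max (x - m) 0) ^ 2 + x ^ 3 * (max (x - m) 0) / 6) := by
    have := intervalIntegral.mul_integral_comp_mul_left (a := 0) (b := k)
      (f := fun x : ℝ => (max (x - m) 0) ^ 4 / 6 + x * (max (x - m) 0) ^ 3 +
        x ^ 2 * (max (x - m) 0) ^ 2 + x ^ 3 * (max (x - m) 0) / 6) (c := w)
    simpa using this
  rw [h2]
  have hcont : Continuous fun x : ℝ => (max (x - m) 0) ^ 4 / 6 + x * (max (x - m) 0) ^ 3 +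
        x ^ 2 * (max (x - m) 0) ^ 2 + x ^ 3 * (max (x - m) 0) / 6 := by fun_prop
  rw [← intervalIntegral.integral_add_adjacent_intervals (b := m)
    (hcont.intervalIntegrable _ _) (hcont.intervalIntegrable _ _)]
  have h3 : (∫ x in (0 : ℝ)..m, ((max (x - m) 0) ^ 4 / 6 + x * (max (x - m) 0) ^ 3 +
        x ^ 2 * (max (x - m) 0) ^ 2 + x ^ 3 * (max (x - m) 0) / 6)) = 0 := by
    rw [intervalIntegral.integral_congr (g := fun _ => (0 : ℝ))]
    · simp
    · intro x hx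
      rw [Set.uIcc_of_le hm] at hx
      have : max (x - m) 0 = 0 := max_eq_right (by linarith [hx.2])
      simp [this]
  rw [h3, zero_add]
  have h4 : ∀ x ∈ Set.uIcc m (w * k), HasDerivAt (fun x => numB_P m (x - m))
      ((max (x - m) 0) ^ 4 / 6 + x * (max (x - m) 0) ^ 3 +
        x ^ 2 * (max (x - m) 0) ^ 2 + x ^ 3 * (max (x - m) 0) / 6) x := by
    intro x hx
    rw [Set.uIcc_of_le hmk] at hx
    have hmax : max (x - m) 0 = x - m := max_eq_left (by linarith [hx.1])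
    rw [hmax]
    have hb : HasDerivAt (fun x : ℝ => x - m) 1 x := (hasDerivAt_id x).sub_const m
    have h5 := ((((hb.pow 5).const_mul (7 / 15 : ℝ)).add ((hb.pow 4).const_mul (7 / 8 * m))).add
      ((hb.pow 3).const_mul (1 / 2 * m ^ 2))).add ((hb.pow 2).const_mul (1 / 12 * m ^ 3))
    refine h5.congr_deriv ?_
    simp only [Nat.cast_ofNat]
    ring
  rw [intervalIntegral.integral_eq_sub_of_hasDerivAt h4 (hcont.intervalIntegrable _ _)]
  simp [numB_P]

theorem numB_poly1 (a : ℝ) (ha : 1 ≤ a) (ha2 : a ≤ 27 / 20) :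
    0 < (49 / 100) ^ 4 * (7 / 4) * (a * (3 - a) ^ 4) - 1 := by
  have key : (49 / 100) ^ 4 * (7 / 4) * (a * (3 - a) ^ 4) - 1 - 1 / 1000 =
      (35036816 / 300125) * (a - 1) ^ 0 * (27 / 20 - a) ^ 5 +
      (714505972 / 1500625) * (a - 1) ^ 1 * (27 / 20 - a) ^ 4 +
      (10779355631 / 15006250) * (a - 1) ^ 2 * (27 / 20 - a) ^ 3 +
      (71838492473 / 150062500) * (a - 1) ^ 3 * (27 / 20 - a) ^ 2 +
      (5825243730713 / 48020000000) * (a - 1) ^ 4 * (27 / 20 - a) ^ 1 +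
      (1548161301467 / 960400000000) * (a - 1) ^ 5 * (27 / 20 - a) ^ 0 := by
    ring
  have hx : 0 ≤ a - 1 := by linarith
  have hy : 0 ≤ 27 / 20 - a := by linarith
  have pos : ∀ x y : ℝ, 0 ≤ x → 0 ≤ y → 0 ≤
      (35036816 / 300125) * x ^ 0 * y ^ 5 +
      (714505972 / 1500625) * x ^ 1 * y ^ 4 +
      (10779355631 / 15006250) * x ^ 2 * y ^ 3 +
      (71838492473 / 150062500) * x ^ 3 * y ^ 2 +
      (5825243730713 / 48020000000) * x ^ 4 * y ^ 1 +
      (1548161301467 / 960400000000) * x ^ 5 * y ^ 0 := by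
    intro x y hx hy
    positivity
  have := pos _ _ hx hy
  rw [← key] at this
  linarith

theorem numB_poly2 (a : ℝ) (ha : 27 / 20 ≤ a) (ha2 : a ≤ 3 / 2) :
    0 < (147 / 100 - 49 / 100 * a) ^ 4 * (56 * (9 / 10 - 2 / 5 * a) ^ 5 +
      105 * (9 / 10 * a - 9 / 10) * (9 / 10 - 2 / 5 * a) ^ 4 +
      60 * (9 / 10 * a - 9 / 10) ^ 2 * (9 / 10 - 2 / 5 * a) ^ 3 +
      10 * (9 / 10 * a - 9 / 10) ^ 3 * (9 / 10 - 2 / 5 * a) ^ 2) -
      (19 / 10 - 9 / 10 * a) ^ 5 * a ^ 4 := by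
  have key : (147 / 100 - 49 / 100 * a) ^ 4 * (56 * (9 / 10 - 2 / 5 * a) ^ 5 +
      105 * (9 / 10 * a - 9 / 10) * (9 / 10 - 2 / 5 * a) ^ 4 +
      60 * (9 / 10 * a - 9 / 10) ^ 2 * (9 / 10 - 2 / 5 * a) ^ 3 +
      10 * (9 / 10 * a - 9 / 10) ^ 3 * (9 / 10 - 2 / 5 * a) ^ 2) -
      (19 / 10 - 9 / 10 * a) ^ 5 * a ^ 4 - 1 / 1000 =
      (644330135820453304649 / 1537734375000000) * (a - 27 / 20) ^ 0 * (3 / 2 - a) ^ 9 +
      (97213696697632896163 / 34171875000000) * (a - 27 / 20) ^ 1 * (3 / 2 - a) ^ 8 +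
      (246593992039731089411 / 27337500000000) * (a - 27 / 20) ^ 2 * (3 / 2 - a) ^ 7 +
      (149316119384500765637 / 8201250000000) * (a - 27 / 20) ^ 3 * (3 / 2 - a) ^ 6 +
      (7204643203516012021 / 273375000000) * (a - 27 / 20) ^ 4 * (3 / 2 - a) ^ 5 +
      (766921669839344533 / 27337500000) * (a - 27 / 20) ^ 5 * (3 / 2 - a) ^ 4 +
      (173882908519157231 / 8201250000) * (a - 27 / 20) ^ 6 * (3 / 2 - a) ^ 3 +
      (2893918121371913 / 273375000) * (a - 27 / 20) ^ 7 * (3 / 2 - a) ^ 2 +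
      (84559076302067 / 27337500) * (a - 27 / 20) ^ 8 * (3 / 2 - a) ^ 1 +
      (9789318388907 / 24603750) * (a - 27 / 20) ^ 9 * (3 / 2 - a) ^ 0 := by
    ring
  have hx : 0 ≤ a - 27 / 20 := by linarith
  have hy : 0 ≤ 3 / 2 - a := by linarith
  have pos : ∀ x y : ℝ, 0 ≤ x → 0 ≤ y → 0 ≤
      (644330135820453304649 / 1537734375000000) * x ^ 0 * y ^ 9 +
      (97213696697632896163 / 34171875000000) * x ^ 1 * y ^ 8 +
      (246593992039731089411 / 27337500000000) * x ^ 2 * y ^ 7 +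
      (149316119384500765637 / 8201250000000) * x ^ 3 * y ^ 6 +
      (7204643203516012021 / 273375000000) * x ^ 4 * y ^ 5 +
      (766921669839344533 / 27337500000) * x ^ 5 * y ^ 4 +
      (173882908519157231 / 8201250000) * x ^ 6 * y ^ 3 +
      (2893918121371913 / 273375000) * x ^ 7 * y ^ 2 +
      (84559076302067 / 27337500) * x ^ 8 * y ^ 1 +
      (9789318388907 / 24603750) * x ^ 9 * y ^ 0 := by
    intro x y hx hy
    positivity
  have := pos _ _ hx hy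
  rw [← key] at this
  linarith

theorem numB_poly3 (a : ℝ) (ha : 3 / 2 ≤ a) (ha2 : a ≤ 2) :
    0 < (147 / 100 - 49 / 100 * a) ^ 4 * (56 * (9 / 10 - 2 / 5 * a) ^ 5 +
      105 * (9 / 10 * a - 9 / 10) * (9 / 10 - 2 / 5 * a) ^ 4 +
      60 * (9 / 10 * a - 9 / 10) ^ 2 * (9 / 10 - 2 / 5 * a) ^ 3 +
      10 * (9 / 10 * a - 9 / 10) ^ 3 * (9 / 10 - 2 / 5 * a) ^ 2) -
      (19 / 10 - 9 / 10 * a) ^ 5 * a ^ 4 := by
  have key : (147 / 100 - 49 / 100 * a) ^ 4 * (56 * (9 / 10 - 2 / 5 * a) ^ 5 +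
      105 * (9 / 10 * a - 9 / 10) * (9 / 10 - 2 / 5 * a) ^ 4 +
      60 * (9 / 10 * a - 9 / 10) ^ 2 * (9 / 10 - 2 / 5 * a) ^ 3 +
      10 * (9 / 10 * a - 9 / 10) ^ 3 * (9 / 10 - 2 / 5 * a) ^ 2) -
      (19 / 10 - 9 / 10 * a) ^ 5 * a ^ 4 - 1 / 1000 =
      (9789318388907 / 1250000000000) * (a - 3 / 2) ^ 0 * (2 - a) ^ 9 +
      (32026547065293 / 312500000000) * (a - 3 / 2) ^ 1 * (2 - a) ^ 8 +
      (717353416858077 / 1250000000000) * (a - 3 / 2) ^ 2 * (2 - a) ^ 7 +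
      (997544524624161 / 625000000000) * (a - 3 / 2) ^ 3 * (2 - a) ^ 6 +
      (1517072254016011 / 625000000000) * (a - 3 / 2) ^ 4 * (2 - a) ^ 5 +
      (661968498403111 / 312500000000) * (a - 3 / 2) ^ 5 * (2 - a) ^ 4 +
      (2632204312897 / 2441406250) * (a - 3 / 2) ^ 6 * (2 - a) ^ 3 +
      (3105688398253 / 9765625000) * (a - 3 / 2) ^ 7 * (2 - a) ^ 2 +
      (1968752711267 / 39062500000) * (a - 3 / 2) ^ 8 * (2 - a) ^ 1 +
      (64212897951 / 19531250000) * (a - 3 / 2) ^ 9 * (2 - a) ^ 0 := by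
    ring
  have hx : 0 ≤ a - 3 / 2 := by linarith
  have hy : 0 ≤ 2 - a := by linarith
  have pos : ∀ x y : ℝ, 0 ≤ x → 0 ≤ y → 0 ≤
      (9789318388907 / 1250000000000) * x ^ 0 * y ^ 9 +
      (32026547065293 / 312500000000) * x ^ 1 * y ^ 8 +
      (717353416858077 / 1250000000000) * x ^ 2 * y ^ 7 +
      (997544524624161 / 625000000000) * x ^ 3 * y ^ 6 +
      (1517072254016011 / 625000000000) * x ^ 4 * y ^ 5 +
      (661968498403111 / 312500000000) * x ^ 5 * y ^ 4 +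
      (2632204312897 / 2441406250) * x ^ 6 * y ^ 3 +
      (3105688398253 / 9765625000) * x ^ 7 * y ^ 2 +
      (1968752711267 / 39062500000) * x ^ 8 * y ^ 1 +
      (64212897951 / 19531250000) * x ^ 9 * y ^ 0 := by
    intro x y hx hy
    positivity
  have := pos _ _ hx hy
  rw [← key] at this
  linarith

/-- Case `1 ≤ a ≤ 27/20`, `m = 0`. -/
theorem numB_case1 (a : ℝ) (ha : 1 ≤ a) (ha2 : a ≤ 27 / 20) :
    (1 - 0 : ℝ) ^ 5 < 120 * (49 * (3 - a) / (100 * a)) ^ 4 * numB_P 0 (a / 2 - 0) := by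
  have h0 : 0 < a := by linarith
  have e : 120 * (49 * (3 - a) / (100 * a)) ^ 4 * numB_P 0 (a / 2 - 0) =
      (49 / 100) ^ 4 * (7 / 4) * (a * (3 - a) ^ 4) := by
    unfold numB_P; field_simp; ring
  rw [e]
  have := numB_poly1 a ha ha2
  norm_num at this ⊢
  linarith

/-- Case `27/20 ≤ a ≤ 2`, `m = 9 (a - 1) / 10`. -/
theorem numB_case2 (a : ℝ) (ha : 27 / 20 ≤ a) (ha2 : a ≤ 2) :
    (1 - 9 / 10 * (a - 1)) ^ 5 <
      120 * (49 * (3 - a) / (100 * a)) ^ 4 *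
        numB_P (9 / 10 * (a - 1)) (a / 2 - 9 / 10 * (a - 1)) := by
  have h0 : 0 < a := by linarith
  have e : 120 * (49 * (3 - a) / (100 * a)) ^ 4 *
        numB_P (9 / 10 * (a - 1)) (a / 2 - 9 / 10 * (a - 1)) =
      ((147 / 100 - 49 / 100 * a) ^ 4 * (56 * (9 / 10 - 2 / 5 * a) ^ 5 +
      105 * (9 / 10 * a - 9 / 10) * (9 / 10 - 2 / 5 * a) ^ 4 +
      60 * (9 / 10 * a - 9 / 10) ^ 2 * (9 / 10 - 2 / 5 * a) ^ 3 +
      10 * (9 / 10 * a - 9 / 10) ^ 3 * (9 / 10 - 2 / 5 * a) ^ 2)) / a ^ 4 := by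
    unfold numB_P; field_simp; ring
  rw [e, lt_div_iff₀ (by positivity)]
  have e2 : (1 - 9 / 10 * (a - 1)) ^ 5 * a ^ 4 = (19 / 10 - 9 / 10 * a) ^ 5 * a ^ 4 := by ring
  rw [e2]
  rcases le_total a (3 / 2) with h | h
  · have := numB_poly2 a ha h
    linarith
  · have := numB_poly3 a h ha2
    linarith

theorem numB_adm (d k : ℕ) (hd : 12 ≤ d) (hk : d ≤ 2 * k) (a m : ℝ) (ha : 1 ≤ a)
    (ha2 : a ≤ 2) (hm : 0 ≤ m) (hm1 : m < 1) (hma : m ≤ a / 2)
    (h : (1 - m) ^ 5 < 120 * (49 * (3 - a) / (100 * a)) ^ 4 * numB_P m (a / 2 - m)) :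
    Adm d k a := by
  have hd' : (12 : ℝ) ≤ d := by exact_mod_cast hd
  have hd0 : (0 : ℝ) < d := by linarith
  have hk' : (d : ℝ) ≤ 2 * k := by exact_mod_cast hk
  have h0 : 0 < a := by linarith
  have hw : 0 < a / d := by positivity
  have hwk : a / 2 ≤ a / d * k := by
    rw [div_mul_eq_mul_div, div_le_div_iff₀ (by norm_num) hd0]
    nlinarith
  refine ⟨4, m, 49 * (3 - a) / (100 * d), by norm_num, by omega, hm, hm1, ?_, ?_, ?_, ?_⟩
  · have : 0 < 3 - a := by linarith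
    positivity
  · rw [div_lt_div_iff₀ (by positivity) hd0]
    nlinarith
  · have e : a * ((4 : ℕ) : ℝ) / d + 49 * (3 - a) / (100 * d) * (d - ((4 : ℕ) : ℝ)) =
        (400 * a + 49 * (3 - a) * (d - 4)) / (100 * d) := by
      push_cast; field_simp; ring
    rw [e, div_lt_one (by positivity)]
    nlinarith [mul_nonneg (by linarith : (0 : ℝ) ≤ d - 12) (by linarith : (0 : ℝ) ≤ a - 1)]
  · have hJ := numB_Jint_four m (a / d) k hw hm (hma.trans hwk)
    have hmono : numB_P m (a / 2 - m) ≤ numB_P m (a / d * k - m) :=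
      numB_P_mono m hm (by linarith) (by linarith)
    have hb : (49 * (3 - a) / (100 * a)) = (49 * (3 - a) / (100 * d)) / (a / d) := by
      field_simp
    have hbpos : 0 < 49 * (3 - a) / (100 * (d : ℝ)) := by
      have : 0 < 3 - a := by linarith
      positivity
    have hw4 : 0 < (a / d) ^ 4 := by positivity
    rw [div_lt_iff₀ (by positivity)]
    have h2 : (1 - m) ^ 5 < 120 * (49 * (3 - a) / (100 * a)) ^ 4 *
        (Jint 4 m (a / d) k * (a / d) ^ 4) := by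
      refine h.trans_le ?_
      rw [hJ]
      gcongr
    rw [hb, div_pow] at h2
    have e3 : 120 * ((49 * (3 - a) / (100 * (d : ℝ))) ^ 4 / (a / d) ^ 4) *
        (Jint 4 m (a / d) k * (a / d) ^ 4) =
        Jint 4 m (a / d) k * (120 * (49 * (3 - a) / (100 * (d : ℝ))) ^ 4) := by
      field_simp
    rw [e3] at h2
    have e4 : (((4 + 1).factorial : ℕ) : ℝ) = 120 := by norm_num [Nat.factorial]
    rw [e4]
    exact h2

theorem adm_half (d k : ℕ) (hd : 12 ≤ d) (hk : d ≤ 2 * k) (hkd : k ≤ d) (a : ℝ) (ha : 1 ≤ a)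
    (ha2 : a ≤ (d : ℝ) / k) : Adm d k a := by
  have hk' : (d : ℝ) ≤ 2 * k := by exact_mod_cast hk
  have hd' : (12 : ℝ) ≤ d := by exact_mod_cast hd
  have hk0 : (0 : ℝ) < k := by linarith
  have ha3 : a ≤ 2 := by
    refine ha2.trans ?_
    rw [div_le_iff₀ hk0]
    exact hk'
  rcases le_total a (27 / 20) with h | h
  · exact numB_adm d k hd hk a 0 ha ha3 le_rfl (by norm_num) (by linarith) (numB_case1 a ha h)
  · exact numB_adm d k hd hk a (9 / 10 * (a - 1)) ha ha3 (by linarith) (by linarith) (by linarith)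
      (numB_case2 a h ha3)

end Vale.Agent.P018.K
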