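import Vale.Agent.P018.K.Asym
import Vale.Agent.P018.K.NumA
import Vale.Agent.P018.K.NumB

/-! # P018, K-method, module K9: numerical verification of admissibility for `2 k > d`
(in `NumA` and `NumB`). -/
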