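import Vale.Agent.P018.K.Local
import Vale.Agent.P018.K.Family
import Vale.Agent.P018.K.Num
import Vale.Agent.P018.K.Asym
import Vale.Agent.P018.Main2
import Vale.Agent.P018.Multipliable

/-! # P018, K-method, module K11: final assembly. -/

namespace Vale.Agent.P018.K

open Polynomial Filter Topology Asymptotics

/-- the bound near one exponent -/
theorem fin_local (f : ℤ[X]) (hirr : Irreducible (f.map (Int.castRingHom ℚ))) (k : ℕ)
    (hk : 2 ≤ k) (hkd : k < f.natDegree) (a : ℝ) (ha : 1 ≤ a) (hadm : Adm f.natDegree k a) :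
    ∃ ε η K : ℝ, 0 < ε ∧ 0 < η ∧ 0 < K ∧ ∃ X0 : ℕ, ∀ X P : ℕ, X0 ≤ X → X ≤ P →
      (X : ℝ) ^ (a - ε) ≤ P → (P : ℝ) ≤ (X : ℝ) ^ (a + ε) →
      ((pairs f k X P).card : ℝ) ≤ K * (X : ℝ) ^ (1 - η) := by
  obtain ⟨r, m, b, hr, hrd, hm0, hm1, hb, hba, hfin, hJ⟩ := hadm
  have hd0 : (0 : ℝ) < f.natDegree := by exact_mod_cast (show 0 < f.natDegree by omega)
  obtain ⟨T, B, V, hB, hV, hcrit⟩ := exists_family k r (by omega) hr (a / f.natDegree) b m
    (by positivity) hb hm0 hm1 hJ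
  refine local_bound f hirr k hk hkd a ha r hr hrd b hb hba T (fun t => -(m * (t : ℝ))) ?_ B hB V
    hV hcrit hfin
  intro s t hst
  have h1 : (s : ℝ) ≤ t := by exact_mod_cast hst
  simp only [neg_le_neg_iff]
  exact mul_le_mul_of_nonneg_left h1 hm0

/-- the property proved by compactness -/
def FinP (f : ℤ[X]) (k : ℕ) (s : Set ℝ) : Prop :=
  ∃ η K : ℝ, 0 < η ∧ 0 < K ∧ ∃ X0 : ℕ, ∀ X P : ℕ, X0 ≤ X → X ≤ P →
    Real.log P / Real.log X ∈ s → ((pairs f k X P).card : ℝ) ≤ K * (X : ℝ) ^ (1 - η)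

theorem fin_union (f : ℤ[X]) (k : ℕ) {s t : Set ℝ} (hs : FinP f k s) (ht : FinP f k t) :
    FinP f k (s ∪ t) := by
  obtain ⟨η1, K1, hη1, hK1, X1, h1⟩ := hs
  obtain ⟨η2, K2, hη2, hK2, X2, h2⟩ := ht
  refine ⟨min η1 η2, max K1 K2, lt_min hη1 hη2, lt_max_of_lt_left hK1, max (max X1 X2) 1, ?_⟩
  intro X P hX hXP hmem
  have hX1 : X1 ≤ X := le_trans (le_trans (le_max_left _ _) (le_max_left _ _)) hX
  have hX2 : X2 ≤ X := le_trans (le_trans (le_max_right _ _) (le_max_left _ _)) hX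
  have hXr : (1 : ℝ) ≤ X := by exact_mod_cast le_trans (le_max_right _ _) hX
  rcases hmem with h | h
  · refine (h1 X P hX1 hXP h).trans ?_
    exact mul_le_mul (le_max_left _ _)
      (Real.rpow_le_rpow_of_exponent_le hXr (by linarith [min_le_left η1 η2]))
      (by positivity) (by positivity)
  · refine (h2 X P hX2 hXP h).trans ?_
    exact mul_le_mul (le_max_right _ _)
      (Real.rpow_le_rpow_of_exponent_le hXr (by linarith [min_le_right η1 η2]))
      (by positivity) (by positivity)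

theorem fin_near (f : ℤ[X]) (hirr : Irreducible (f.map (Int.castRingHom ℚ))) (k : ℕ)
    (hk : 2 ≤ k) (hkd : k < f.natDegree) (a : ℝ) (ha : 1 ≤ a) (hadm : Adm f.natDegree k a) :
    ∃ ε : ℝ, 0 < ε ∧ FinP f k (Set.Ioo (a - ε) (a + ε)) := by
  obtain ⟨ε, η, K, hε, hη, hK, X0, h⟩ := fin_local f hirr k hk hkd a ha hadm
  refine ⟨ε, hε, η, K, hη, hK, max X0 2, ?_⟩
  intro X P hX hXP hmem
  have hX0 : X0 ≤ X := le_trans (le_max_left _ _) hX
  have hX2 : 2 ≤ X := le_trans (le_max_right _ _) hX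
  have hXr : (1 : ℝ) < X := by exact_mod_cast (show 1 < X by omega)
  have hPr : (0 : ℝ) < P := by exact_mod_cast (show 0 < P by omega)
  have hl : 0 < Real.log X := Real.log_pos hXr
  refine h X P hX0 hXP ?_ ?_
  · have h1 := (lt_div_iff₀ hl).1 hmem.1
    rw [← Real.log_rpow (by linarith)] at h1
    exact ((Real.log_lt_log_iff (by positivity) hPr).1 h1).le
  · have h1 := (div_lt_iff₀ hl).1 hmem.2
    rw [← Real.log_rpow (by linarith)] at h1
    exact ((Real.log_lt_log_iff hPr (by positivity)).1 h1).le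

/-- if every exponent `a ∈ [1, d/k]` is admissible, the tail is small. -/
theorem tail_of_adm (f : ℤ[X]) (hirr : Irreducible (f.map (Int.castRingHom ℚ))) (k : ℕ)
    (hk : 2 ≤ k) (hkd : k < f.natDegree)
    (hadm : ∀ a : ℝ, 1 ≤ a → a ≤ (f.natDegree : ℝ) / k → Adm f.natDegree k a) :
    Tendsto (fun X : ℕ => (tail f k X : ℝ) / X) atTop (𝓝 0) := by
  have hk0 : (0 : ℝ) < k := by exact_mod_cast (show 0 < k by omega)
  have hdk : (1 : ℝ) ≤ (f.natDegree : ℝ) / k := by
    rw [le_div_iff₀ hk0, one_mul]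
    exact_mod_cast hkd.le
  -- compactness
  have hcomp : FinP f k (Set.Icc 1 ((f.natDegree : ℝ) / k)) := by
    refine isCompact_Icc.induction_on ?_ ?_ ?_ ?_
    · exact ⟨1, 1, one_pos, one_pos, 0, fun X P _ _ h => absurd h (Set.notMem_empty _)⟩
    · intro s t hst ht
      obtain ⟨η, K, hη, hK, X0, h⟩ := ht
      exact ⟨η, K, hη, hK, X0, fun X P h1 h2 h3 => h X P h1 h2 (hst h3)⟩
    · intro s t hs ht
      exact fin_union f k hs ht
    · intro a ha
      obtain ⟨ε, hε, h⟩ := fin_near f hirr k hk hkd a ha.1 (hadm a ha.1 ha.2)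
      exact ⟨_, mem_nhdsWithin_of_mem_nhds (Ioo_mem_nhds (by linarith) (by linarith)), h⟩
  obtain ⟨ε, hε, hend⟩ := fin_near f hirr k hk hkd _ hdk (hadm _ hdk le_rfl)
  obtain ⟨η, K, hη, hK, X1, hX1⟩ := fin_union f k hcomp hend
  refine tail_of_pairs f hirr k hk hkd ?_
  intro A hA
  refine ⟨η, K, hη, hK, max (max X1 2) (⌈Real.exp (|Real.log A| / (k * ε))⌉₊ + 1), ?_⟩
  intro X P hX hXP hPA
  have h1 : X1 ≤ X := le_trans (le_trans (le_max_left _ _) (le_max_left _ _)) hX
  have h2 : 2 ≤ X := le_trans (le_trans (le_max_right _ _) (le_max_left _ _)) hX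
  have h3 : ⌈Real.exp (|Real.log A| / (k * ε))⌉₊ + 1 ≤ X := le_trans (le_max_right _ _) hX
  apply hX1 X P h1 hXP
  have hXr : (1 : ℝ) < X := by exact_mod_cast (show 1 < X by omega)
  have hXP' : (X : ℝ) ≤ P := by exact_mod_cast hXP
  have hPr : (0 : ℝ) < P := by linarith
  have hl : 0 < Real.log X := Real.log_pos hXr
  have hlP : Real.log X ≤ Real.log P := Real.log_le_log (by linarith) hXP'
  have h4 : Real.exp (|Real.log A| / (k * ε)) < X := by
    have h5 := Nat.le_ceil (Real.exp (|Real.log A| / (k * ε)))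
    have h6 : ((⌈Real.exp (|Real.log A| / (k * ε))⌉₊ + 1 : ℕ) : ℝ) ≤ X := by exact_mod_cast h3
    push_cast at h6
    linarith
  have h7 : |Real.log A| / (k * ε) < Real.log X := (Real.lt_log_iff_exp_lt (by linarith)).2 h4
  have h8 : |Real.log A| < k * ε * Real.log X := by
    rw [div_lt_iff₀ (by positivity)] at h7
    linarith
  have h9 : k * Real.log P ≤ Real.log A + f.natDegree * Real.log X := by
    have h10 := Real.log_le_log (by positivity) hPA
    rwa [Real.log_pow, Real.log_mul hA.ne' (by positivity), Real.log_pow] at h10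
  have hge : 1 ≤ Real.log P / Real.log X := by
    rw [le_div_iff₀ hl, one_mul]
    exact hlP
  by_cases hle : Real.log P / Real.log X ≤ (f.natDegree : ℝ) / k
  · exact Or.inl ⟨hge, hle⟩
  · right
    push Not at hle
    refine ⟨by linarith, ?_⟩
    rw [div_lt_iff₀ hl]
    have h11 : Real.log A < k * ε * Real.log X := lt_of_le_of_lt (le_abs_self _) h8
    have h12 : k * Real.log P < k * (((f.natDegree : ℝ) / k + ε) * Real.log X) := by
      have h13 : k * (((f.natDegree : ℝ) / k + ε) * Real.log X) =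
          f.natDegree * Real.log X + k * ε * Real.log X := by
        field_simp
      rw [h13]
      linarith
    exact lt_of_mul_lt_mul_left h12 hk0.le

theorem main_of_adm (f : ℤ[X]) (k : ℕ) (hk : 2 ≤ k)
    (hirr : Irreducible (f.map (Int.castRingHom ℚ)))
    (hloc : ∀ p : ℕ, p.Prime → rho f (p ^ k) < p ^ k)
    (hadm : k < f.natDegree →
      ∀ a : ℝ, 1 ≤ a → a ≤ (f.natDegree : ℝ) / k → Adm f.natDegree k a) :
    0 < density f k ∧
    (fun X : ℕ => (countPF f k X : ℝ) - density f k * X) =o[atTop] (fun X : ℕ => (X : ℝ)) := by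
  refine sieve_main f k hk hirr hloc ?_
  rcases lt_or_ge k f.natDegree with h | h
  · exact tail_of_adm f hirr k hk h (hadm h)
  · exact tail_large_k f hirr k hk h

theorem main_half (f : ℤ[X]) (k : ℕ) (hk : 2 ≤ k)
    (hirr : Irreducible (f.map (Int.castRingHom ℚ)))
    (hloc : ∀ p : ℕ, p.Prime → rho f (p ^ k) < p ^ k)
    (hr : f.natDegree < 2 * k ∨ (12 ≤ f.natDegree ∧ f.natDegree ≤ 2 * k)) :
    0 < density f k ∧
    (fun X : ℕ => (countPF f k X : ℝ) - density f k * X) =o[atTop] (fun X : ℕ => (X : ℝ)) := by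
  by_cases h9 : 5 * f.natDegree + 2 ≤ 9 * k
  · exact main2 f k hk hirr hloc h9
  · refine main_of_adm f k hk hirr hloc fun hkd => ?_
    by_cases h12 : 12 ≤ f.natDegree
    · exact adm_half f.natDegree k h12 (by omega) hkd.le
    · have hcases : (f.natDegree = 7 ∧ k = 4) ∨ (f.natDegree = 9 ∧ k = 5) ∨
          (f.natDegree = 11 ∧ k = 6) := by omega
      rcases hcases with ⟨h1, h2⟩ | ⟨h1, h2⟩ | ⟨h1, h2⟩
      · rw [h1, h2]
        intro a ha ha2
        exact adm_seven a ha (by norm_num at ha2; linarith)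
      · rw [h1, h2]
        intro a ha ha2
        exact adm_nine a ha (by norm_num at ha2; linarith)
      · rw [h1, h2]
        intro a ha ha2
        exact adm_eleven a ha (by norm_num at ha2; linarith)

theorem main_quarter (ε : ℝ) (hε : 0 < ε) :
    ∃ d0 : ℕ, ∀ (f : ℤ[X]) (k : ℕ), 2 ≤ k → Irreducible (f.map (Int.castRingHom ℚ)) →
      (∀ p : ℕ, p.Prime → rho f (p ^ k) < p ^ k) → d0 ≤ f.natDegree →
      (1 / 4 + ε) * f.natDegree ≤ k →
      0 < density f k ∧
      (fun X : ℕ => (countPF f k X : ℝ) - density f k * X) =o[atTop] (fun X : ℕ => (X : ℝ)) := by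
  obtain ⟨d0, h0⟩ := exists_r_of_quarter ε hε
  refine ⟨d0, fun f k hk hirr hloc hd hkε => ?_⟩
  refine main_of_adm f k hk hirr hloc fun hkd => ?_
  obtain ⟨r, hr, hrk, h⟩ := h0 f.natDegree k hd hkε hkd.le
  exact adm_of_choose f.natDegree k r (by omega) hkd.le hr hrk h

end Vale.Agent.P018.K
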