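import Vale.Agent.P018.K.Defs
import Vale.Agent.P018.LinAlg

/-! # P018, K-method, module K5: from vanishing determinants to a polynomial relation. -/

namespace Vale.Agent.P018.K

open Polynomial

lemma rel_need_nonneg {k : ℕ} (hk : 1 ≤ k) (e : ℤ) : 0 ≤ e + k * need k e := by
  have h1 : (-e).toNat ≤ k * need k e := by
    unfold need
    have h := Nat.div_add_mod ((-e).toNat + (k - 1)) k
    have h2 := Nat.mod_lt ((-e).toNat + (k - 1)) (show 0 < k by omega)
    omega
  have h2 : -e ≤ ((-e).toNat : ℤ) := Int.self_le_toNat _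
  have h3 : ((-e).toNat : ℤ) ≤ ((k * need k e : ℕ) : ℤ) := by exact_mod_cast h1
  push_cast at h3
  linarith

/-- the monic polynomial of degree `t` attached to `(t, e)` -/
noncomputable def rel_M {L : Type} [Field L] {r : ℕ} (k : ℕ) (θ : Fin r → L)
    (p : ℕ × (Fin r → ℤ)) : L[X] :=
  X ^ (p.1 - needs k p.2) * ∏ i, (X - C (θ i)) ^ need k (p.2 i)

lemma rel_M_monic {L : Type} [Field L] {r : ℕ} (k : ℕ) (θ : Fin r → L)
    (p : ℕ × (Fin r → ℤ)) : (rel_M k θ p).Monic :=
  (monic_X_pow _).mul (monic_prod_of_monic _ _ fun i _ => (monic_X_sub_C _).pow _)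

lemma rel_M_natDegree {L : Type} [Field L] {r : ℕ} (k : ℕ) (θ : Fin r → L)
    {p : ℕ × (Fin r → ℤ)} (hp : needs k p.2 ≤ p.1) : (rel_M k θ p).natDegree = p.1 := by
  unfold rel_M
  rw [(monic_X_pow _).natDegree_mul (monic_prod_of_monic _ _ fun i _ => (monic_X_sub_C _).pow _),
    natDegree_X_pow, natDegree_prod_of_monic _ _ fun _ _ => (monic_X_sub_C _).pow _]
  have h1 : ∑ i, ((X - C (θ i)) ^ need k (p.2 i)).natDegree = needs k p.2 := by
    unfold needs
    refine Finset.sum_congr rfl fun i _ => ?_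
    rw [(monic_X_sub_C _).natDegree_pow, natDegree_X_sub_C, mul_one]
  rw [h1]
  omega

lemma rel_M_eval {L : Type} [Field L] {r : ℕ} (k : ℕ) (θ : Fin r → L)
    (p : ℕ × (Fin r → ℤ)) (x : L) :
    (rel_M k θ p).eval x = x ^ (p.1 - needs k p.2) * ∏ i, (x - θ i) ^ need k (p.2 i) := by
  unfold rel_M
  rw [eval_mul, eval_pow, eval_X, eval_prod]
  simp

/-- the exponent of the monomial -/
noncomputable def rel_a {r : ℕ} (E : ℕ) (e : Fin r → ℤ) : Fin r →₀ ℕ :=
  Finsupp.equivFunOnFinite.symm fun i => (e i + E).toNat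

lemma rel_a_apply {r : ℕ} (E : ℕ) (e : Fin r → ℤ) (i : Fin r) :
    rel_a E e i = (e i + E).toNat := rfl

lemma rel_a_inj {r : ℕ} {E : ℕ} {e e' : Fin r → ℤ} (he : ∀ i, |e i| ≤ E)
    (he' : ∀ i, |e' i| ≤ E) (h : rel_a E e = rel_a E e') : e = e' := by
  funext i
  have h1 := DFunLike.congr_fun h i
  rw [rel_a_apply, rel_a_apply] at h1
  have h2 := abs_le.1 (he i)
  have h3 := abs_le.1 (he' i)
  omega

lemma rel_a_degree {r : ℕ} {E : ℕ} {e : Fin r → ℤ} (he : ∀ i, |e i| ≤ E) :
    (rel_a E e).degree ≤ r * (2 * E) := by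
  rw [Finsupp.degree_eq_sum]
  calc ∑ i, rel_a E e i ≤ ∑ _i : Fin r, 2 * E := Finset.sum_le_sum fun i _ => by
        rw [rel_a_apply]
        have h2 := abs_le.1 (he i)
        omega
    _ = r * (2 * E) := by simp

/-- If all determinants of the functions `fn` at the points `S` vanish, then a nonzero polynomial
in `n` and `x_1, …, x_r`, of degree bounded in terms of `B` only, vanishes at all points. -/
theorem exists_relation {r : ℕ} (k : ℕ) (hk : 1 ≤ k) (B : Finset (ℕ × (Fin r → ℤ)))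
    (hB : ∀ p ∈ B, needs k p.2 ≤ p.1) :
    ∃ D : ℕ, ∀ (L : Type) [Field L] [CharZero L] (θ : Fin r → L) (c : L) (_hc : c ≠ 0) (S : Type)
      (n : S → ℤ) (z γ : S → Fin r → L), (∀ q i, z q i ≠ 0) →
      (∀ q i, z q i ^ k * γ q i = c * ((n q : L) - θ i)) →
      (∀ φ : B → S, (Matrix.of fun (q : B) (f : B) =>
        fn k (n (φ q) : L) (z (φ q)) (γ (φ q)) f.1.1 f.1.2).det = 0) →
      ∃ F : MvPolynomial (Fin r) L[X], F ≠ 0 ∧
        (∀ a ∈ F.support, a.degree ≤ D ∧ (F.coeff a).natDegree ≤ D) ∧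
        ∀ q, MvPolynomial.eval₂ (Polynomial.evalRingHom (n q : L)) (z q) F = 0 := by
  classical
  -- bounds
  obtain ⟨E, hE⟩ : ∃ E : ℕ, ∀ p ∈ B, ∀ i, |p.2 i| ≤ (E : ℤ) := by
    refine ⟨∑ p ∈ B, ∑ i, (p.2 i).natAbs, fun p hp i => ?_⟩
    have h1 : (p.2 i).natAbs ≤ ∑ i, (p.2 i).natAbs :=
      Finset.single_le_sum (f := fun i => (p.2 i).natAbs) (fun _ _ => Nat.zero_le _)
        (Finset.mem_univ i)
    have h2 : ∑ i, (p.2 i).natAbs ≤ ∑ p ∈ B, ∑ i, (p.2 i).natAbs :=
      Finset.single_le_sum (f := fun p : ℕ × (Fin r → ℤ) => ∑ i, (p.2 i).natAbs)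
        (fun _ _ => Nat.zero_le _) hp
    rw [Int.abs_eq_natAbs]
    exact_mod_cast h1.trans h2
  obtain ⟨T, hT⟩ : ∃ T : ℕ, ∀ p ∈ B, p.1 ≤ T :=
    ⟨B.sup fun p => p.1, fun p hp => Finset.le_sup (f := fun p : ℕ × (Fin r → ℤ) => p.1) hp⟩
  refine ⟨r * (2 * E) + T, ?_⟩
  intro L _ _ θ c hc S n z γ _hz hzγ hdet
  obtain ⟨α, hα0, hα⟩ := exists_kernel
    (fun (q : S) (f : B) => fn k (n q : L) (z q) (γ q) f.1.1 f.1.2) hdet
  -- the polynomial
  set F : MvPolynomial (Fin r) L[X] := ∑ f : B, MvPolynomial.monomial (rel_a E f.1.2)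
    (C (α f * c ^ needs k f.1.2) * rel_M k θ f.1) with hF
  have hcoeff : ∀ a, F.coeff a = ∑ f : B, if rel_a E f.1.2 = a then
      C (α f * c ^ needs k f.1.2) * rel_M k θ f.1 else 0 := by
    intro a
    rw [hF, MvPolynomial.coeff_sum]
    refine Finset.sum_congr rfl fun f _ => ?_
    rw [MvPolynomial.coeff_monomial]
  have hdeg : ∀ f : B, (C (α f * c ^ needs k f.1.2) * rel_M k θ f.1).natDegree ≤ f.1.1 := by
    intro f
    refine (natDegree_C_mul_le _ _).trans ?_
    rw [rel_M_natDegree k θ (hB _ f.2)]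
  refine ⟨F, ?_, ?_, ?_⟩
  · -- nonvanishing
    intro hF0
    obtain ⟨f1, hf1⟩ := Function.ne_iff.1 hα0
    obtain ⟨f0, hf0, hmax⟩ := Finset.exists_max_image
      (Finset.univ.filter fun f : B => α f ≠ 0) (fun f => f.1.1)
      ⟨f1, Finset.mem_filter.2 ⟨Finset.mem_univ _, hf1⟩⟩
    have hα0' : α f0 ≠ 0 := (Finset.mem_filter.1 hf0).2
    have h1 : (F.coeff (rel_a E f0.1.2)).coeff f0.1.1 = α f0 * c ^ needs k f0.1.2 := by
      rw [hcoeff, finsetSum_coeff, Finset.sum_eq_single f0]
      · rw [if_pos rfl, coeff_C_mul]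
        have h2 := (rel_M_monic k θ f0.1).coeff_natDegree
        rw [rel_M_natDegree k θ (hB _ f0.2)] at h2
        rw [h2, mul_one]
      · intro f _ hne
        by_cases hαf : α f = 0
        · simp [hαf]
        · split_ifs with hae
          · have he : f.1.2 = f0.1.2 := rel_a_inj (hE _ f.2) (hE _ f0.2) hae
            have hle := hmax f (Finset.mem_filter.2 ⟨Finset.mem_univ _, hαf⟩)
            have hlt : f.1.1 < f0.1.1 := by
              refine lt_of_le_of_ne hle fun ht => hne ?_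
              exact Subtype.ext (Prod.ext ht he)
            exact coeff_eq_zero_of_natDegree_lt ((hdeg f).trans_lt hlt)
          · exact coeff_zero _
      · intro h
        exact absurd (Finset.mem_univ _) h
    rw [hF0, MvPolynomial.coeff_zero, coeff_zero] at h1
    exact mul_ne_zero hα0' (pow_ne_zero _ hc) h1.symm
  · -- degrees
    intro a ha
    have ha' : F.coeff a ≠ 0 := MvPolynomial.mem_support_iff.1 ha
    constructor
    · rw [hcoeff] at ha'
      obtain ⟨f, _, hf⟩ := Finset.exists_ne_zero_of_sum_ne_zero ha'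
      have hae : rel_a E f.1.2 = a := by
        by_contra hne
        exact hf (if_neg hne)
      rw [← hae]
      exact (rel_a_degree (hE _ f.2)).trans (Nat.le_add_right _ _)
    · rw [hcoeff]
      refine (natDegree_sum_le_of_forall_le _ _ (n := r * (2 * E) + T) fun f _ => ?_)
      split_ifs
      · exact (hdeg f).trans ((hT _ f.2).trans (Nat.le_add_left _ _))
      · simp
  · -- vanishing
    intro q
    have hterm : ∀ f : B, MvPolynomial.eval₂ (Polynomial.evalRingHom (n q : L)) (z q)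
        (MvPolynomial.monomial (rel_a E f.1.2) (C (α f * c ^ needs k f.1.2) * rel_M k θ f.1)) =
        (α f * fn k (n q : L) (z q) (γ q) f.1.1 f.1.2) * ∏ i, z q i ^ E := by
      intro f
      rw [MvPolynomial.eval₂_monomial, coe_evalRingHom, eval_mul, eval_C, rel_M_eval,
        Finsupp.prod_fintype _ _ (fun i => pow_zero _)]
      unfold fn needs
      rw [← Finset.prod_pow_eq_pow_sum]
      have h1 : ∀ i, c ^ need k (f.1.2 i) * ((n q : L) - θ i) ^ need k (f.1.2 i) *
          z q i ^ (rel_a E f.1.2 i) =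
          γ q i ^ need k (f.1.2 i) * z q i ^ (f.1.2 i + k * need k (f.1.2 i)).toNat *
            z q i ^ E := by
        intro i
        have h2 := rel_need_nonneg hk (f.1.2 i)
        have h3 := (abs_le.1 (hE _ f.2 i)).1
        have h4 : k * need k (f.1.2 i) + rel_a E f.1.2 i =
            (f.1.2 i + k * need k (f.1.2 i)).toNat + E := by
          rw [rel_a_apply]
          zify
          rw [Int.toNat_of_nonneg (by linarith), Int.toNat_of_nonneg h2]
          ring
        rw [← mul_pow, ← hzγ q i, mul_pow, ← pow_mul, mul_assoc, mul_assoc, ← pow_add, ← h4,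
          pow_add]
        ring
      calc α f * (∏ i, c ^ need k (f.1.2 i)) * ((n q : L) ^ (f.1.1 - ∑ i, need k (f.1.2 i)) *
            ∏ i, ((n q : L) - θ i) ^ need k (f.1.2 i)) * ∏ i, z q i ^ (rel_a E f.1.2 i)
          = α f * (n q : L) ^ (f.1.1 - ∑ i, need k (f.1.2 i)) *
            ∏ i, (c ^ need k (f.1.2 i) * ((n q : L) - θ i) ^ need k (f.1.2 i) *
              z q i ^ (rel_a E f.1.2 i)) := by
            rw [Finset.prod_mul_distrib, Finset.prod_mul_distrib]
            ring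
        _ = _ := by
            rw [Finset.prod_congr rfl fun i _ => h1 i, Finset.prod_mul_distrib]
            ring
    rw [hF, MvPolynomial.eval₂_sum, Finset.sum_congr rfl fun f _ => hterm f, ← Finset.sum_mul,
      hα q, zero_mul]

end Vale.Agent.P018.K
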