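import Vale.Agent.P018.K.Defs

/-! # P018, K-method, module K3: sizes of the conjugates. -/

namespace Vale.Agent.P018.K

open Polynomial NumberField

/-- an algebraic integer all of whose conjugates have absolute value `< 1` is zero. -/
theorem eq_zero_of_conj_lt_one (L : Type) [Field L] [NumberField L] (x : 𝓞 L)
    (h : ∀ σ : L →+* ℂ, ‖σ (x : L)‖ < 1) : x = 0 := by
  by_contra hx
  obtain ⟨σ, hσ⟩ := NumberField.exists_conjugate_one_le_norm hx
  exact absurd (h σ) (not_lt.mpr hσ)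

/-- ring homomorphisms commute with `ell`. -/
theorem sizes_map_ell {R S : Type*} [CommRing R] [CommRing S] (φ : R →+* S) {d : ℕ} (θ : R)
    (y : Fin d → ℤ) : φ (ell θ y) = ell (φ θ) y := by
  simp only [ell, map_sum, map_mul, map_pow, map_intCast]

/-- the inclusion of the ring of integers commutes with `ell`. -/
theorem coe_ell (L : Type) [Field L] [NumberField L] {d : ℕ} (θ : 𝓞 L) (y : Fin d → ℤ) :
    ((ell θ y : 𝓞 L) : L) = ell (θ : L) y :=
  sizes_map_ell (algebraMap (𝓞 L) L) θ y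

/-- difference bound for `ell` in `ℂ`. -/
theorem sizes_ell_sub {d : ℕ} {z : ℂ} {A₀ M : ℝ} (hA : 1 ≤ A₀) (hz : ‖z‖ ≤ A₀) (hM : 0 ≤ M)
    {y y' : Fin d → ℤ} (h : ∀ j, |(y j : ℝ) - y' j| ≤ M) :
    ‖ell z y - ell z y'‖ ≤ d * A₀ ^ d * M := by
  have h1 : ell z y - ell z y' = ∑ j, ((y j : ℂ) - y' j) * z ^ (j : ℕ) := by
    simp only [ell, ← Finset.sum_sub_distrib, sub_mul]
  rw [h1]
  calc ‖∑ j, ((y j : ℂ) - y' j) * z ^ (j : ℕ)‖
      ≤ ∑ j : Fin d, ‖((y j : ℂ) - y' j) * z ^ (j : ℕ)‖ := norm_sum_le _ _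
    _ ≤ ∑ _j : Fin d, M * A₀ ^ d := by
        refine Finset.sum_le_sum fun j _ => ?_
        rw [norm_mul, norm_pow]
        have h2 : ‖(y j : ℂ) - y' j‖ ≤ M := by
          have h3 := h j
          rw [← Int.cast_sub] at h3 ⊢
          rwa [Complex.norm_intCast]
        have h4 : ‖z‖ ^ (j : ℕ) ≤ A₀ ^ d :=
          (pow_le_pow_left₀ (norm_nonneg _) hz _).trans (pow_le_pow_right₀ hA j.2.le)
        exact mul_le_mul h2 h4 (by positivity) hM
    _ = d * A₀ ^ d * M := by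
        rw [Finset.sum_const, Finset.card_univ, Fintype.card_fin, nsmul_eq_mul]
        ring

/-- upper and lower bounds for the conjugates of the small elements. -/
theorem exists_size (L : Type) [Field L] [NumberField L] {d : ℕ} (hd : 1 ≤ d)
    (θ : Fin d → 𝓞 L) :
    ∃ A : ℝ, 1 ≤ A ∧
      (∀ (σ : L →+* ℂ) (i : Fin d), ‖σ (θ i : L)‖ ≤ A) ∧
      (∀ (σ : L →+* ℂ) (i : Fin d) (y y' : Fin d → ℤ) (M : ℝ), (∀ j, |(y j : ℝ) - y' j| ≤ M) →
        ‖σ (ell (θ i) y : L) - σ (ell (θ i) y' : L)‖ ≤ A * M) ∧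
      (∀ (σ : L →+* ℂ) (i : Fin d) (y : Fin d → ℤ) (R : ℝ) (N : ℤ), 1 ≤ R →
        (∀ j, |(y j : ℝ)| ≤ 2 * R) → ∏ i, ell (θ i) y = (N : 𝓞 L) → R ^ d ≤ |(N : ℝ)| →
        ‖σ (ell (θ i) y : L)‖ ≤ A * R ∧ R / A ≤ ‖σ (ell (θ i) y : L)‖) := by
  obtain ⟨A₀, hA₀, hθ⟩ : ∃ A₀ : ℝ, 1 ≤ A₀ ∧
      ∀ (σ : L →+* ℂ) (i : Fin d), ‖σ (θ i : L)‖ ≤ A₀ := by
    refine ⟨1 + ∑ i, house (θ i : L), ?_, fun σ i => ?_⟩
    · exact le_add_of_nonneg_right (Finset.sum_nonneg fun i _ => house_nonneg _)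
    · have h1 := norm_embedding_le_house (θ i : L) σ
      have h2 : house (θ i : L) ≤ ∑ i, house (θ i : L) :=
        Finset.single_le_sum (f := fun i => house (θ i : L)) (fun i _ => house_nonneg _)
          (Finset.mem_univ i)
      linarith
  have hd' : (1 : ℝ) ≤ d := by exact_mod_cast hd
  have hpow : A₀ ≤ A₀ ^ d := le_self_pow₀ hA₀ (by omega)
  obtain ⟨A₁, hA₁def⟩ : ∃ A₁ : ℝ, A₁ = d * A₀ ^ d := ⟨_, rfl⟩
  have hA₀₁ : A₀ ≤ A₁ := by
    rw [hA₁def]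
    nlinarith
  have hA₁ : 1 ≤ A₁ := hA₀.trans hA₀₁
  have hle : 2 * A₁ ≤ (2 * A₁) ^ d := le_self_pow₀ (by linarith) (by omega)
  have hsub : ∀ (σ : L →+* ℂ) (i : Fin d) (y y' : Fin d → ℤ) (M : ℝ),
      (∀ j, |(y j : ℝ) - y' j| ≤ M) →
        ‖σ (ell (θ i) y : L) - σ (ell (θ i) y' : L)‖ ≤ A₁ * M := by
    intro σ i y y' M h
    have hM : 0 ≤ M := (abs_nonneg _).trans (h ⟨0, hd⟩)
    rw [sizes_map_ell σ, sizes_map_ell σ, hA₁def]
    exact sizes_ell_sub hA₀ (hθ σ i) hM h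
  have hup : ∀ (σ : L →+* ℂ) (i : Fin d) (y : Fin d → ℤ) (R : ℝ),
      (∀ j, |(y j : ℝ)| ≤ 2 * R) → ‖σ (ell (θ i) y : L)‖ ≤ 2 * A₁ * R := by
    intro σ i y R h
    have h1 := hsub σ i y (fun _ => 0) (2 * R) (fun j => by simpa using h j)
    have h2 : (ell (θ i : L) (fun _ : Fin d => (0 : ℤ))) = 0 := by simp [ell]
    rw [h2, map_zero, sub_zero] at h1
    linarith
  refine ⟨(2 * A₁) ^ d, by linarith, fun σ i => (hθ σ i).trans (by linarith), ?_, ?_⟩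
  · intro σ i y y' M h
    have hM : 0 ≤ M := (abs_nonneg _).trans (h ⟨0, hd⟩)
    refine (hsub σ i y y' M h).trans (mul_le_mul_of_nonneg_right (by linarith) hM)
  · intro σ i y R N hR hy hN hRN
    have hR0 : 0 < R := by linarith
    refine ⟨(hup σ i y R hy).trans (mul_le_mul_of_nonneg_right hle hR0.le), ?_⟩
    have h1 : ∏ i, σ (ell (θ i) y : L) = (N : ℂ) := by
      have h2 : σ ((∏ i, ell (θ i) y : 𝓞 L) : L) = σ ((N : 𝓞 L) : L) := by rw [hN]
      rw [← map_prod]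
      have h3 : (∏ i, (ell (θ i : L) y)) = ((∏ i, ell (θ i) y : 𝓞 L) : L) := by
        rw [show ((∏ i, ell (θ i) y : 𝓞 L) : L) = algebraMap (𝓞 L) L (∏ i, ell (θ i) y) from rfl,
          map_prod]
        exact Finset.prod_congr rfl fun i _ => (coe_ell L (θ i) y).symm
      rw [h3, h2]
      simp
    have h4 : R ^ d ≤ ‖σ (ell (θ i) y : L)‖ * (2 * A₁ * R) ^ (d - 1) := by
      calc R ^ d ≤ |(N : ℝ)| := hRN
        _ = ‖∏ i, σ (ell (θ i) y : L)‖ := by rw [h1, Complex.norm_intCast]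
        _ = ∏ i, ‖σ (ell (θ i) y : L)‖ := norm_prod _ _
        _ = ‖σ (ell (θ i) y : L)‖ * ∏ j ∈ Finset.univ.erase i, ‖σ (ell (θ j) y : L)‖ := by
            rw [Finset.mul_prod_erase Finset.univ (fun j => ‖σ (ell (θ j) y : L)‖)
              (Finset.mem_univ i)]
        _ ≤ ‖σ (ell (θ i) y : L)‖ * ∏ _j ∈ Finset.univ.erase i, (2 * A₁ * R) := by
            refine mul_le_mul_of_nonneg_left ?_ (norm_nonneg _)
            exact Finset.prod_le_prod (fun j _ => norm_nonneg _) (fun j _ => hup σ j y R hy)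
        _ = ‖σ (ell (θ i) y : L)‖ * (2 * A₁ * R) ^ (d - 1) := by
            rw [Finset.prod_const, Finset.card_erase_of_mem (Finset.mem_univ i),
              Finset.card_univ, Fintype.card_fin]
    have h5 : R ^ (d - 1) * R ≤ R ^ (d - 1) * (‖σ (ell (θ i) y : L)‖ * (2 * A₁) ^ (d - 1)) := by
      calc R ^ (d - 1) * R = R ^ d := by rw [← pow_succ]; congr 1; omega
        _ ≤ _ := h4
        _ = _ := by rw [mul_pow]; ring
    have h6 : R ≤ ‖σ (ell (θ i) y : L)‖ * (2 * A₁) ^ (d - 1) :=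
      le_of_mul_le_mul_left h5 (by positivity)
    have h7 : (2 * A₁) ^ (d - 1) ≤ (2 * A₁) ^ d :=
      pow_le_pow_right₀ (by linarith) (by omega)
    rw [div_le_iff₀ (by positivity)]
    exact h6.trans (mul_le_mul_of_nonneg_left h7 (norm_nonneg _))

end Vale.Agent.P018.K
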