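import Vale.Agent.P018.K.Defs
import Vale.Agent.P018.Sieve

/-! # P018, K-method, module K2: the small element and the factorisation
`c^k (n - θ_i) = π_i^k γ_i`. -/

namespace Vale.Agent.P018.K

open Polynomial NumberField

/-! ### The polynomial with coefficients `y` -/

/-- the polynomial with coefficients `y` -/
noncomputable def smPoly {d : ℕ} (y : Fin d → ℤ) : ℤ[X] := ∑ j, C (y j) * X ^ (j : ℕ)

theorem sm_eval {R : Type*} [CommRing R] {d : ℕ} (y : Fin d → ℤ) (t : R) :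
    ((smPoly y).map (algebraMap ℤ R)).eval t = ell t y := by
  unfold smPoly ell
  simp [Polynomial.map_sum, Polynomial.eval_finsetSum]

theorem sm_coeff {d : ℕ} (y : Fin d → ℤ) (j : Fin d) : (smPoly y).coeff j = y j := by
  unfold smPoly
  rw [Polynomial.finsetSum_coeff, Finset.sum_eq_single j]
  · simp
  · intro b _ hb
    rw [Polynomial.coeff_C_mul, Polynomial.coeff_X_pow, if_neg, mul_zero]
    intro h
    exact hb (Fin.ext h.symm)
  · simp

theorem sm_degree {d : ℕ} (y : Fin d → ℤ) : (smPoly y).degree < d := by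
  unfold smPoly
  exact Polynomial.degree_sum_fin_lt _

theorem sm_ne_zero {d : ℕ} {y : Fin d → ℤ} (hy : y ≠ 0) : smPoly y ≠ 0 := by
  intro h
  refine hy (funext fun j => ?_)
  rw [← sm_coeff y j, h]
  simp

theorem sm_ell_int {R : Type*} [CommRing R] {d : ℕ} (y : Fin d → ℤ) (n : ℤ) :
    ell (n : R) y = ((ell n y : ℤ) : R) := by
  unfold ell
  push_cast
  rfl

/-! ### Pigeonhole -/

theorem sm_root {d : ℕ} (hd : d ≠ 0) {p : ℕ} (hp : 0 < p) :
    ∃ M : ℕ, M ^ d ≤ p ∧ p < (M + 1) ^ d := by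
  classical
  have hex : ∃ N : ℕ, p < N ^ d := ⟨p + 1, by
    calc p < p + 1 := Nat.lt_succ_self p
      _ = (p + 1) ^ 1 := (pow_one _).symm
      _ ≤ (p + 1) ^ d := Nat.pow_le_pow_right (Nat.succ_pos p) (Nat.one_le_iff_ne_zero.2 hd)⟩
  have h1 := Nat.find_spec hex
  have h0 : Nat.find hex ≠ 0 := by
    intro h
    rw [h, zero_pow hd] at h1
    omega
  refine ⟨Nat.find hex - 1, ?_, ?_⟩
  · have := Nat.find_min hex (m := Nat.find hex - 1) (by omega)
    omega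
  · rwa [Nat.sub_add_cancel (Nat.one_le_iff_ne_zero.2 h0)]

theorem sm_pigeon {d : ℕ} (hd : d ≠ 0) {p : ℕ} (hp : 0 < p) (n : ℤ) :
    ∃ (y : Fin d → ℤ) (M : ℕ), M ^ d ≤ p ∧ y ≠ 0 ∧ (∀ j, |y j| ≤ M) ∧ (p : ℤ) ∣ ell n y := by
  obtain ⟨M, hM1, hM2⟩ := sm_root hd hp
  have : NeZero p := ⟨hp.ne'⟩
  let f : (Fin d → Fin (M + 1)) → ZMod p := fun a => ∑ j, ((a j : ℕ) : ZMod p) * (n : ZMod p) ^ (j : ℕ)
  have hcard : Fintype.card (ZMod p) < Fintype.card (Fin d → Fin (M + 1)) := by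
    rw [ZMod.card, Fintype.card_fun, Fintype.card_fin, Fintype.card_fin]
    exact hM2
  obtain ⟨a, b, hab, hf⟩ := Fintype.exists_ne_map_eq_of_card_lt f hcard
  refine ⟨fun j => ((a j : ℕ) : ℤ) - ((b j : ℕ) : ℤ), M, hM1, ?_, ?_, ?_⟩
  · intro h
    refine hab (funext fun j => Fin.ext ?_)
    have := congrFun h j
    simp only [Pi.zero_apply] at this
    omega
  · intro j
    have h1 := (a j).2
    have h2 := (b j).2
    simp only [abs_le]
    constructor <;> omega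
  · rw [← ZMod.intCast_zmod_eq_zero_iff_dvd]
    have : f a - f b = 0 := sub_eq_zero.2 hf
    rw [← this]
    unfold ell
    simp only [f]
    push_cast
    rw [← Finset.sum_sub_distrib]
    refine Finset.sum_congr rfl fun j _ => ?_
    ring

/-! ### The resultant -/

theorem sm_resultant {R : Type*} [CommRing R] [IsDomain R] {d : ℕ} {G : ℤ[X]}
    (hGd : G.natDegree = d) (θ : Fin d → R)
    (hθ : G.map (algebraMap ℤ R) = ∏ i, (X - C (θ i))) (h : ℤ[X]) :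
    ((resultant G h G.natDegree h.natDegree : ℤ) : R) =
      ∏ i, (h.map (algebraMap ℤ R)).eval (θ i) := by
  have h1 := resultant_map_map G h G.natDegree h.natDegree (algebraMap ℤ R)
  have h2 : (∏ i, (X - C (θ i))).natDegree = G.natDegree := by
    rw [Polynomial.natDegree_prod_of_monic _ _ fun i _ => monic_X_sub_C _]
    simp [hGd]
  have h3 := resultant_prod_left Finset.univ (fun i => X - C (θ i)) (h.map (algebraMap ℤ R))
    h.natDegree (by simp) natDegree_map_le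
  rw [h2, ← hθ, h1] at h3
  rw [eq_intCast] at h3
  rw [h3]
  refine Finset.prod_congr rfl fun i _ => ?_
  rw [natDegree_X_sub_C, resultant_X_sub_C_left _ _ _ natDegree_map_le]

theorem sm_resultant_ne {d : ℕ} {G : ℤ[X]} (hGd : G.natDegree = d)
    (hGi : Irreducible (G.map (Int.castRingHom ℚ))) {h : ℤ[X]} (h0 : h ≠ 0) (hh : h.degree < d) :
    resultant G h G.natDegree h.natDegree ≠ 0 := by
  intro hr
  have hinj : Function.Injective (Int.castRingHom ℚ) := Int.cast_injective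
  have h1 := resultant_map_map G h G.natDegree h.natDegree (Int.castRingHom ℚ)
  rw [hr, map_zero] at h1
  have h2 : (G.map (Int.castRingHom ℚ)).natDegree = G.natDegree := natDegree_map_eq_of_injective hinj G
  have h3 : (h.map (Int.castRingHom ℚ)).natDegree = h.natDegree := natDegree_map_eq_of_injective hinj h
  have hcop : IsCoprime (G.map (Int.castRingHom ℚ)) (h.map (Int.castRingHom ℚ)) := by
    rw [hGi.coprime_iff_not_dvd]
    intro hdvd
    have h4 : h.map (Int.castRingHom ℚ) ≠ 0 := (Polynomial.map_ne_zero_iff hinj).2 h0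
    have h5 := Polynomial.natDegree_le_of_dvd hdvd h4
    rw [h2, h3, hGd] at h5
    rw [Polynomial.degree_eq_natDegree h0] at hh
    have h6 : h.natDegree < d := by exact_mod_cast hh
    omega
  have h4 := resultant_ne_zero _ _ hcop
  rw [h2, h3] at h4
  exact h4 h1

/-! ### Divisibility -/

theorem sm_dvd_int (L : Type) [Field L] [NumberField L] {p : ℕ} (hp : p.Prime) {N : ℤ}
    (h : ((p : ℤ) : 𝓞 L) ∣ ((N : ℤ) : 𝓞 L)) : (p : ℤ) ∣ N := by
  obtain ⟨x, hx⟩ := h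
  have h1 := congrArg (Algebra.norm ℤ) hx
  rw [map_mul] at h1
  have h2 : ∀ a : ℤ, Algebra.norm ℤ ((a : ℤ) : 𝓞 L) = a ^ Module.finrank ℤ (𝓞 L) := by
    intro a
    have := Algebra.norm_algebraMap (R := ℤ) (S := 𝓞 L) a
    simpa using this
  rw [h2, h2] at h1
  have h3 : Module.finrank ℤ (𝓞 L) ≠ 0 := Module.finrank_pos.ne'
  have h4 : (p : ℤ) ∣ N ^ Module.finrank ℤ (𝓞 L) := by
    rw [h1]
    exact Dvd.dvd.mul_right (dvd_pow_self _ h3) _
  exact (Nat.prime_iff_prime_int.1 hp).dvd_of_dvd_pow h4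

/-- the local computation -/
theorem sm_local {R : Type*} [CommRing R] {π c t P g h : R} {k : ℕ} (h1 : π ∣ c * t)
    (h2 : π ∣ c * P) (h3 : P ^ k ∣ t * (g - h * t)) (hg : ∃ x y, x * g + y * P ^ k = 1) :
    π ^ k ∣ c ^ k * t := by
  let I : Ideal R :=
    { carrier := {b | π ^ k ∣ c ^ k * b}
      add_mem' := fun {a b} ha hb => by
        simp only [Set.mem_ofPred_eq] at *
        rw [mul_add]
        exact dvd_add ha hb
      zero_mem' := by simp
      smul_mem' := fun r a ha => by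
        simp only [Set.mem_ofPred_eq, smul_eq_mul] at *
        rw [mul_left_comm]
        exact Dvd.dvd.mul_left ha r }
  have hI : ∀ b, b ∈ I ↔ π ^ k ∣ c ^ k * b := fun b => Iff.rfl
  have hP : Ideal.Quotient.mk I (P ^ k) = 0 := by
    rw [Ideal.Quotient.eq_zero_iff_mem, hI, ← mul_pow]
    exact pow_dvd_pow_of_dvd h2 k
  have ht : Ideal.Quotient.mk I (t ^ k) = 0 := by
    rw [Ideal.Quotient.eq_zero_iff_mem, hI, ← mul_pow]
    exact pow_dvd_pow_of_dvd h1 k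
  obtain ⟨x, y, hxy⟩ := hg
  have hu : IsUnit (Ideal.Quotient.mk I g) := by
    have h4 := congrArg (Ideal.Quotient.mk I) hxy
    rw [map_add, map_mul, map_mul, hP, mul_zero, add_zero, map_one, mul_comm] at h4
    exact IsUnit.of_mul_eq_one _ h4
  have hn : IsNilpotent (-(Ideal.Quotient.mk I (h * t))) := by
    refine IsNilpotent.neg ⟨k, ?_⟩
    rw [← map_pow, mul_pow, map_mul, ht, mul_zero]
  have hu2 : IsUnit (Ideal.Quotient.mk I (g - h * t)) := by
    rw [map_sub, sub_eq_add_neg]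
    exact IsNilpotent.isUnit_add_left_of_commute hn hu (Commute.all _ _)
  have h5 : Ideal.Quotient.mk I (t * (g - h * t)) = 0 := by
    obtain ⟨z, hz⟩ := h3
    rw [hz, map_mul, hP, zero_mul]
  rw [map_mul] at h5
  have h6 : Ideal.Quotient.mk I t = 0 := by
    obtain ⟨w, hw⟩ := hu2
    rw [← hw] at h5
    exact (Units.mul_left_eq_zero w).1 h5
  rwa [Ideal.Quotient.eq_zero_iff_mem, hI] at h6

/-- `π_i` divides `c τ_i` and `c p`. -/
theorem sm_prod {R : Type*} [CommRing R] [IsDomain R] {d : ℕ} {P c : R} (hP : P ≠ 0)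
    {π t s : Fin d → R} (h1 : ∀ i, P ∣ π i - t i * s i) (h2 : P ∣ ∏ i, t i)
    (h3 : ∏ i, π i = P * c) (i : Fin d) : π i ∣ c * t i ∧ π i ∣ c * P := by
  classical
  constructor
  · have h4 : P ∣ t i * ∏ j ∈ Finset.univ.erase i, π j := by
      rw [← Ideal.Quotient.eq_zero_iff_dvd] at h2 ⊢
      have h5 : ∀ j, Ideal.Quotient.mk (Ideal.span {P}) (π j) =
          Ideal.Quotient.mk (Ideal.span {P}) (t j * s j) := by
        intro j
        rw [← sub_eq_zero, ← map_sub, Ideal.Quotient.eq_zero_iff_dvd]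
        exact h1 j
      rw [map_mul, map_prod]
      simp only [h5, map_mul, Finset.prod_mul_distrib]
      rw [← mul_assoc, Finset.mul_prod_erase _ (fun j => Ideal.Quotient.mk (Ideal.span {P}) (t j))
        (Finset.mem_univ i), ← map_prod, h2, zero_mul]
    obtain ⟨δ, hδ⟩ := h4
    refine ⟨δ, mul_left_cancel₀ hP ?_⟩
    have h6 := Finset.mul_prod_erase Finset.univ π (Finset.mem_univ i)
    rw [h3] at h6
    calc P * (c * t i) = t i * (P * c) := by ring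
      _ = π i * (t i * ∏ j ∈ Finset.univ.erase i, π j) := by rw [← h6]; ring
      _ = P * (π i * δ) := by rw [hδ]; ring
  · rw [mul_comm, ← h3]
    exact Finset.dvd_prod_of_mem π (Finset.mem_univ i)

/-! ### The size -/

theorem sm_size (L : Type) [Field L] [NumberField L] (σ : L →+* ℂ) {d : ℕ} (θ : Fin d → 𝓞 L)
    {p : ℕ} (hp : 0 < p) {M : ℕ} (hM : M ^ d ≤ p) {y : Fin d → ℤ} (hy : ∀ j, |y j| ≤ M) {c : ℤ}
    (hc : ∏ i, ell (θ i) y = (((p : ℤ) * c : ℤ) : 𝓞 L)) :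
    ((|c| : ℤ) : ℝ) ≤ ∏ i, ∑ j : Fin d, ‖σ (θ i)‖ ^ (j : ℕ) := by
  have h1 : ∀ i, ‖σ ((ell (θ i) y : 𝓞 L) : L)‖ ≤ M * ∑ j : Fin d, ‖σ (θ i)‖ ^ (j : ℕ) := by
    intro i
    have h2 : σ ((ell (θ i) y : 𝓞 L) : L) = ∑ j : Fin d, (y j : ℂ) * σ (θ i) ^ (j : ℕ) := by
      unfold ell
      simp
    rw [h2, Finset.mul_sum]
    refine (norm_sum_le _ _).trans (Finset.sum_le_sum fun j _ => ?_)
    rw [norm_mul, norm_pow]
    gcongr
    rw [Complex.norm_intCast]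
    exact_mod_cast hy j
  have h2 : ‖σ ((∏ i, ell (θ i) y : 𝓞 L) : L)‖ = (p : ℝ) * ((|c| : ℤ) : ℝ) := by
    rw [hc]
    simp
  have h3 : ‖σ ((∏ i, ell (θ i) y : 𝓞 L) : L)‖ = ∏ i, ‖σ ((ell (θ i) y : 𝓞 L) : L)‖ := by
    have h4 : ∀ x : 𝓞 L, σ (x : L) = (σ.comp (algebraMap (𝓞 L) L)) x := fun _ => rfl
    simp only [h4]
    rw [map_prod, norm_prod]
  rw [h3] at h2
  have h4 : ∏ i, ‖σ ((ell (θ i) y : 𝓞 L) : L)‖ ≤
      ∏ i, ((M : ℝ) * ∑ j : Fin d, ‖σ (θ i)‖ ^ (j : ℕ)) :=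
    Finset.prod_le_prod (fun i _ => norm_nonneg _) fun i _ => h1 i
  rw [h2, Finset.prod_mul_distrib, Finset.prod_const, Finset.card_univ, Fintype.card_fin] at h4
  have h5 : (0 : ℝ) < p := by exact_mod_cast hp
  have h6 : ((M : ℝ)) ^ d ≤ p := by exact_mod_cast hM
  have h7 : (0 : ℝ) ≤ ∏ i, ∑ j : Fin d, ‖σ (θ i)‖ ^ (j : ℕ) :=
    Finset.prod_nonneg fun i _ => Finset.sum_nonneg fun j _ => by positivity
  refine le_of_mul_le_mul_left (h4.trans ?_) h5
  gcongr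

/-- product of the values at the roots is an integer divisible by `p`, not zero, and small. -/
theorem exists_small (L : Type) [Field L] [NumberField L] {d : ℕ} (hd : 2 ≤ d) (G : ℤ[X])
    (hG : G.Monic) (hGd : G.natDegree = d) (hGi : Irreducible (G.map (Int.castRingHom ℚ)))
    (θ : Fin d → 𝓞 L) (hθ : G.map (algebraMap ℤ (𝓞 L)) = ∏ i, (X - C (θ i))) (k : ℕ)
    (hk : 1 ≤ k) :
    ∃ C : ℕ, 1 ≤ C ∧ ∀ (p : ℕ) (n : ℤ), p.Prime → C < p → (p : ℤ) ^ k ∣ G.eval n →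
      ∃ (y : Fin d → ℤ) (c : ℤ) (γ : Fin d → 𝓞 L), y ≠ 0 ∧ (∀ j, |y j| ^ d ≤ p) ∧ c ≠ 0 ∧
        |c| ≤ C ∧ (∏ i, ell (θ i) y = (((p : ℤ) * c : ℤ) : 𝓞 L)) ∧
        ∀ i, (c : 𝓞 L) ^ k * ((n : 𝓞 L) - θ i) = ell (θ i) y ^ k * γ i := by
  obtain ⟨σ⟩ : Nonempty (L →+* ℂ) := inferInstance
  obtain ⟨u, v, D, hD0, hD⟩ := sv_bezout G hGi
  refine ⟨⌈∏ i, ∑ j : Fin d, ‖σ (θ i)‖ ^ (j : ℕ)⌉₊ + D.natAbs + 1, by omega, ?_⟩
  intro p n hp hCp hpG
  obtain ⟨y, M, hM, hy0, hyM, hyn⟩ := sm_pigeon (d := d) (by omega) hp.pos n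
  -- the product
  have hres := sm_resultant hGd θ hθ (smPoly y)
  simp only [sm_eval] at hres
  have hres0 := sm_resultant_ne hGd hGi (sm_ne_zero hy0) (sm_degree y)
  -- the elements `s i`
  have hs : ∀ i, ∃ s, ((p : ℤ) : 𝓞 L) ∣ ell (θ i) y - ((n : 𝓞 L) - θ i) * s := by
    intro i
    have h1 : (θ i - (n : 𝓞 L)) ∣ ell (θ i) y - ell (n : 𝓞 L) y := by
      rw [← sm_eval, ← sm_eval]
      exact Polynomial.sub_dvd_eval_sub _ _ _
    obtain ⟨s, hs⟩ := h1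
    refine ⟨-s, ?_⟩
    have h2 : ell (θ i) y - ((n : 𝓞 L) - θ i) * -s = ell (n : 𝓞 L) y := by
      linear_combination hs
    rw [h2, sm_ell_int]
    obtain ⟨w, hw⟩ := hyn
    rw [hw, Int.cast_mul]
    exact dvd_mul_right _ _
  choose s hs using hs
  have hGn : ∏ i, ((n : 𝓞 L) - θ i) = ((G.eval n : ℤ) : 𝓞 L) := by
    have h1 := congrArg (Polynomial.eval (n : 𝓞 L)) hθ
    rw [Polynomial.eval_prod] at h1
    simp only [eval_sub, eval_X, eval_C] at h1
    rw [← h1]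
    simp
  have hpGn : ((p : ℤ) : 𝓞 L) ∣ ∏ i, ((n : 𝓞 L) - θ i) := by
    rw [hGn]
    obtain ⟨w, hw⟩ := (dvd_pow_self (p : ℤ) (by omega : k ≠ 0)).trans hpG
    rw [hw, Int.cast_mul]
    exact dvd_mul_right _ _
  have hp0 : ((p : ℤ) : 𝓞 L) ≠ 0 := by
    rw [Int.cast_ne_zero]
    exact_mod_cast hp.ne_zero
  -- `p` divides the product
  have hpN : ((p : ℤ) : 𝓞 L) ∣ ∏ i, ell (θ i) y := by
    rw [← Ideal.Quotient.eq_zero_iff_dvd] at hpGn ⊢
    have h5 : ∀ j, Ideal.Quotient.mk (Ideal.span {((p : ℤ) : 𝓞 L)}) (ell (θ j) y) =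
        Ideal.Quotient.mk (Ideal.span {((p : ℤ) : 𝓞 L)}) (((n : 𝓞 L) - θ j) * s j) := by
      intro j
      rw [← sub_eq_zero, ← map_sub, Ideal.Quotient.eq_zero_iff_dvd]
      exact hs j
    rw [map_prod, Finset.prod_congr rfl fun j _ => h5 j, ← map_prod, Finset.prod_mul_distrib,
      map_mul, hpGn, zero_mul]
  rw [← hres] at hpN
  obtain ⟨c, hc⟩ := sm_dvd_int L hp hpN
  have hprod : ∏ i, ell (θ i) y = (((p : ℤ) * c : ℤ) : 𝓞 L) := by rw [← hres, hc]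
  have hc0 : c ≠ 0 := by
    rintro rfl
    exact hres0 (by rw [hc, mul_zero])
  -- the size
  have hsize := sm_size L σ θ hp.pos hM hyM hprod
  have hcC : |c| ≤ ((⌈∏ i, ∑ j : Fin d, ‖σ (θ i)‖ ^ (j : ℕ)⌉₊ + D.natAbs + 1 : ℕ) : ℤ) := by
    have h1 : ((|c| : ℤ) : ℝ) ≤ (⌈∏ i, ∑ j : Fin d, ‖σ (θ i)‖ ^ (j : ℕ)⌉₊ : ℝ) :=
      hsize.trans (Nat.le_ceil _)
    have h2 : |c| ≤ ((⌈∏ i, ∑ j : Fin d, ‖σ (θ i)‖ ^ (j : ℕ)⌉₊ : ℕ) : ℤ) := by exact_mod_cast h1
    push_cast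
    have h3 := abs_nonneg D
    omega
  -- coprimality
  have hg : ¬ (p : ℤ) ∣ (derivative G).eval n := by
    intro hdvd
    have h1 := congrArg (Polynomial.eval n) hD
    rw [eval_add, eval_mul, eval_mul, eval_C] at h1
    have h2 : (p : ℤ) ∣ G.eval n := (dvd_pow_self (p : ℤ) (by omega : k ≠ 0)).trans hpG
    have h3 : (p : ℤ) ∣ D := by
      rw [← h1]
      exact dvd_add (Dvd.dvd.mul_left h2 _) (Dvd.dvd.mul_left hdvd _)
    have h4 := Int.natAbs_dvd_natAbs.2 h3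
    rw [Int.natAbs_natCast] at h4
    have h5 := Nat.le_of_dvd (Int.natAbs_pos.2 hD0) h4
    omega
  have hcop : IsCoprime ((derivative G).eval n) ((p : ℤ) ^ k) := by
    refine IsCoprime.pow_right (IsCoprime.symm ?_)
    exact (Nat.prime_iff_prime_int.1 hp).irreducible.coprime_iff_not_dvd.2 hg
  have hfac : ∀ i, ∃ γ, (c : 𝓞 L) ^ k * ((n : 𝓞 L) - θ i) = ell (θ i) y ^ k * γ := by
    intro i
    have hprod' : ∏ i, ell (θ i) y = ((p : ℤ) : 𝓞 L) * (c : 𝓞 L) := by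
      rw [hprod, Int.cast_mul]
    obtain ⟨h1, h2⟩ := sm_prod hp0 hs hpGn hprod' i
    obtain ⟨q, hq⟩ := Polynomial.binomExpansion (G.map (algebraMap ℤ (𝓞 L))) (n : 𝓞 L)
      (θ i - (n : 𝓞 L))
    have h3 : (G.map (algebraMap ℤ (𝓞 L))).eval (θ i) = 0 := by
      rw [hθ, Polynomial.eval_prod]
      exact Finset.prod_eq_zero (Finset.mem_univ i) (by simp)
    have h4 : (G.map (algebraMap ℤ (𝓞 L))).eval (n : 𝓞 L) = ((G.eval n : ℤ) : 𝓞 L) := by
      simp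
    have h5 : (derivative (G.map (algebraMap ℤ (𝓞 L)))).eval (n : 𝓞 L) =
        (((derivative G).eval n : ℤ) : 𝓞 L) := by
      rw [derivative_map]
      simp
    rw [add_sub_cancel, h3, h4, h5] at hq
    have h6 : ((p : ℤ) : 𝓞 L) ^ k ∣ ((n : 𝓞 L) - θ i) *
        ((((derivative G).eval n : ℤ) : 𝓞 L) - q * ((n : 𝓞 L) - θ i)) := by
      have h7 : ((n : 𝓞 L) - θ i) * ((((derivative G).eval n : ℤ) : 𝓞 L) -
          q * ((n : 𝓞 L) - θ i)) = ((G.eval n : ℤ) : 𝓞 L) := by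
        linear_combination hq
      rw [h7]
      obtain ⟨w, hw⟩ := hpG
      rw [hw, Int.cast_mul, Int.cast_pow]
      exact dvd_mul_right _ _
    obtain ⟨a, b, hab⟩ := hcop
    have h8 : ∃ x y : 𝓞 L, x * (((derivative G).eval n : ℤ) : 𝓞 L) +
        y * ((p : ℤ) : 𝓞 L) ^ k = 1 := by
      refine ⟨a, b, ?_⟩
      exact_mod_cast congrArg (Int.cast : ℤ → 𝓞 L) hab
    exact sm_local h1 h2 h6 h8
  choose γ hγ using hfac
  refine ⟨y, c, γ, hy0, fun j => ?_, hc0, hcC, hprod, hγ⟩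
  calc |y j| ^ d ≤ (M : ℤ) ^ d := pow_le_pow_left₀ (abs_nonneg _) (hyM j) d
    _ ≤ p := by exact_mod_cast hM

end Vale.Agent.P018.K
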