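import Vale.Agent.P018.K.Field
import Vale.Agent.P018.K.Small
import Vale.Agent.P018.K.Sizes
import Vale.Agent.P018.K.DetSmall
import Vale.Agent.P018.K.Relation
import Vale.Agent.P018.K.Count
import Vale.Agent.P018.Sieve
import Vale.Agent.P018.TailOfPairs

/-! # P018, K-method, module K7: the bound for primes of size `X^a`. -/

namespace Vale.Agent.P018.K

open Polynomial NumberField

theorem loc_map_ell {R S : Type*} [CommRing R] [CommRing S] (σ : R →+* S) {d : ℕ} (θ : R)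
    (y : Fin d → ℤ) : σ (ell θ y) = ell (σ θ) y := by
  unfold ell
  simp

theorem loc_map_fn {R S : Type*} [CommRing R] [CommRing S] (σ : R →+* S) {r : ℕ} (k : ℕ) (n : R)
    (z γ : Fin r → R) (t : ℕ) (e : Fin r → ℤ) :
    σ (fn k n z γ t e) = fn k (σ n) (fun i => σ (z i)) (fun i => σ (γ i)) t e := by
  unfold fn
  simp

theorem loc_exponent {r : ℕ} (w b : ℝ) (T : ℕ) (lam : ℕ → ℝ) (hlam : Antitone lam)
    (B : Finset (ℕ × (Fin r → ℤ))) (hB : ∀ p ∈ B, p.1 ≤ T) (V : ℝ)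
    (hV : ∀ T' : Finset (ℕ × (Fin r → ℕ)), (∀ τ ∈ T', τ.1 ≤ T) →
      ∑ τ ∈ T', (lam τ.1 + τ.1 - b * ∑ i, (τ.2 i : ℝ)) ≤ V)
    (m : B → ℕ × (Fin r → ℕ)) (hm : Function.Injective m) (hmt : ∀ f, (m f).1 ≤ f.1.1) :
    ∑ f : B, (w * ∑ i, (f.1.2 i : ℝ) + (m f).1 - b * ∑ i, ((m f).2 i : ℝ)) ≤
      V - ∑ p ∈ B, (lam p.1 - w * ∑ i, (p.2 i : ℝ)) := by
  classical
  have h1 := hV (Finset.univ.image m) (by
    intro τ hτ
    obtain ⟨f, -, rfl⟩ := Finset.mem_image.1 hτ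
    exact (hmt f).trans (hB f.1 f.2))
  rw [Finset.sum_image (fun x _ y _ h => hm h)] at h1
  have h2 : ∑ p ∈ B, (lam p.1 - w * ∑ i, (p.2 i : ℝ)) =
      ∑ f : B, (lam f.1.1 - w * ∑ i, (f.1.2 i : ℝ)) := (Finset.sum_coe_sort B _).symm
  rw [h2, le_sub_iff_add_le, ← Finset.sum_add_distrib]
  refine le_trans (Finset.sum_le_sum fun f _ => ?_) h1
  have h3 := hlam (hmt f)
  linarith

theorem loc_prod_le {r : ℕ} (d : ℕ) (hd : 1 ≤ d) (a b : ℝ) (T : ℕ) (lam : ℕ → ℝ)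
    (hlam : Antitone lam) (B : Finset (ℕ × (Fin r → ℤ))) (hB : ∀ p ∈ B, p.1 ≤ T) (V : ℝ)
    (hV : ∀ T' : Finset (ℕ × (Fin r → ℕ)), (∀ τ ∈ T', τ.1 ≤ T) →
      ∑ τ ∈ T', (lam τ.1 + τ.1 - b * ∑ i, (τ.2 i : ℝ)) ≤ V)
    (hcrit : V < ∑ p ∈ B, (lam p.1 - a / d * ∑ i, (p.2 i : ℝ))) :
    ∃ ε : ℝ, 0 < ε ∧ ∃ δ : ℝ, 0 < δ ∧ ∀ X P : ℝ, 1 ≤ X → 0 < P → X ^ (a - ε) ≤ P →
      P ≤ X ^ (a + ε) → ∀ m : B → ℕ × (Fin r → ℕ), Function.Injective m →
      (∀ f, (m f).1 ≤ f.1.1) →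
      ∏ f : B, ((P ^ (1 / d : ℝ)) ^ (∑ i, f.1.2 i : ℤ) * X ^ (m f).1 *
        (X ^ (-b)) ^ (∑ i, (m f).2 i)) ≤ X ^ (-δ) := by
  set S := ∑ p ∈ B, (lam p.1 - a / d * ∑ i, (p.2 i : ℝ)) with hS
  set E0 := ∑ f : B, |∑ i, (f.1.2 i : ℝ)| with hE0
  have hE00 : 0 ≤ E0 := Finset.sum_nonneg fun f _ => abs_nonneg _
  have hdr : (1 : ℝ) ≤ d := by exact_mod_cast hd
  refine ⟨(S - V) / (2 * (E0 + 1)), by apply div_pos <;> linarith, (S - V) / 2, by linarith, ?_⟩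
  intro X P hX hP hP1 hP2 m hm hmt
  set ε := (S - V) / (2 * (E0 + 1)) with hε
  have hεpos : 0 < ε := by rw [hε]; apply div_pos <;> linarith
  have hX0 : 0 < X := by linarith
  set l := Real.log X with hl
  have hl0 : 0 ≤ l := Real.log_nonneg hX
  have hlP1 : (a - ε) * l ≤ Real.log P := by
    have := Real.log_le_log (by positivity) hP1
    rwa [Real.log_rpow hX0] at this
  have hlP2 : Real.log P ≤ (a + ε) * l := by
    have := Real.log_le_log hP hP2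
    rwa [Real.log_rpow hX0] at this
  have hfac : ∀ f : B, (P ^ (1 / d : ℝ)) ^ (∑ i, f.1.2 i : ℤ) * X ^ (m f).1 *
      (X ^ (-b)) ^ (∑ i, (m f).2 i) =
      Real.exp ((∑ i, (f.1.2 i : ℝ)) * (Real.log P / d) + (m f).1 * l -
        b * (∑ i, ((m f).2 i : ℝ)) * l) := by
    intro f
    have e1 : (P ^ (1 / d : ℝ)) ^ (∑ i, f.1.2 i : ℤ) =
        Real.exp ((∑ i, (f.1.2 i : ℝ)) * (Real.log P / d)) := by
      rw [← Real.rpow_intCast, ← Real.rpow_mul hP.le, Real.rpow_def_of_pos hP]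
      congr 1
      push_cast
      ring
    have e2 : X ^ (m f).1 = Real.exp ((m f).1 * l) := by
      rw [Real.exp_nat_mul, hl, Real.exp_log hX0]
    have e3 : (X ^ (-b)) ^ (∑ i, (m f).2 i) = Real.exp (-(b * (∑ i, ((m f).2 i : ℝ)) * l)) := by
      rw [← Real.rpow_natCast, ← Real.rpow_mul hX0.le, Real.rpow_def_of_pos hX0]
      congr 1
      push_cast
      ring
    rw [e1, e2, e3, ← Real.exp_add, ← Real.exp_add]
    congr 1
  rw [Finset.prod_congr rfl fun f _ => hfac f, ← Real.exp_sum, Real.rpow_def_of_pos hX0,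
    Real.exp_le_exp]
  have hmain := loc_exponent (a / d) b T lam hlam B hB V hV m hm hmt
  have hterm : ∀ f : B, (∑ i, (f.1.2 i : ℝ)) * (Real.log P / d) + (m f).1 * l -
      b * (∑ i, ((m f).2 i : ℝ)) * l ≤
      (a / d * ∑ i, (f.1.2 i : ℝ) + (m f).1 - b * ∑ i, ((m f).2 i : ℝ)) * l +
        ε * l * |∑ i, (f.1.2 i : ℝ)| := by
    intro f
    have h1 : |Real.log P / d - a / d * l| ≤ ε * l := by
      rw [show Real.log P / d - a / d * l = (Real.log P - a * l) / d by ring, abs_div,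
        abs_of_pos (show (0 : ℝ) < d by linarith), div_le_iff₀ (by linarith)]
      have h2 : |Real.log P - a * l| ≤ ε * l := by
        rw [abs_le]
        constructor <;> nlinarith
      have h3 : 0 ≤ ε * l := by positivity
      nlinarith
    have h4 : (∑ i, (f.1.2 i : ℝ)) * (Real.log P / d - a / d * l) ≤
        ε * l * |∑ i, (f.1.2 i : ℝ)| := by
      refine (le_abs_self _).trans ?_
      rw [abs_mul, mul_comm]
      exact mul_le_mul_of_nonneg_right h1 (abs_nonneg _)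
    nlinarith
  refine (Finset.sum_le_sum fun f _ => hterm f).trans ?_
  rw [Finset.sum_add_distrib, ← Finset.sum_mul, ← Finset.mul_sum, ← hE0]
  have h5 : (∑ f : B, (a / d * ∑ i, (f.1.2 i : ℝ) + (m f).1 - b * ∑ i, ((m f).2 i : ℝ))) * l ≤
      (V - S) * l := mul_le_mul_of_nonneg_right hmain hl0
  have h6 : ε * E0 ≤ (S - V) / 2 := by
    rw [hε, div_mul_eq_mul_div, div_le_div_iff₀ (by linarith) (by norm_num)]
    nlinarith
  have h7 : ε * l * E0 ≤ (S - V) / 2 * l := by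
    calc ε * l * E0 = ε * E0 * l := by ring
      _ ≤ _ := mul_le_mul_of_nonneg_right h6 hl0
  nlinarith

theorem loc_class (L : Type) [Field L] [NumberField L] {d : ℕ} (hd : 1 ≤ d) (θ : Fin d → 𝓞 L)
    (hθ : Function.Injective θ) (k : ℕ) (hk : 1 ≤ k) (r : ℕ) (hr : 1 ≤ r) (hrd : r ≤ d)
    (B : Finset (ℕ × (Fin r → ℤ))) (hB : ∀ p ∈ B, needs k p.2 ≤ p.1) (A0 : ℝ) (hA0 : 1 ≤ A0)
    (Cs C1 : ℕ) :
    ∃ (K : ℝ) (Cc : ℕ), 0 < K ∧ ∀ (X R ρ V : ℝ) (H : ℕ), 1 ≤ X → 1 ≤ R → 0 < ρ → ρ ≤ R →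
      0 ≤ V → 1 ≤ H → (H : ℝ) ≤ ρ → K * V < 1 →
      (∀ m : B → ℕ × (Fin r → ℕ), Function.Injective m → (∀ f, (m f).1 ≤ f.1.1) →
        ∏ f, (R ^ (∑ i, f.1.2 i : ℤ) * X ^ (m f).1 * (ρ / R) ^ (∑ i, (m f).2 i)) ≤ V) →
      ∀ (c : ℤ) (y0 : Fin d → ℤ) (Q : Finset (ℤ × (Fin d → ℤ))), c ≠ 0 → |c| ≤ Cs →
      (∀ q ∈ Q, ∀ j, y0 j ≤ q.2 j ∧ q.2 j < y0 j + H) →
      (∀ q ∈ Q, ∀ q' ∈ Q, q.2 = q'.2 → q = q') →
      (∀ n : ℤ, (Q.filter (fun q => q.1 = n)).card ≤ C1) →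
      (∀ q ∈ Q, |(q.1 : ℝ)| ≤ A0 * X) →
      (∀ q ∈ Q, ∀ j, |(q.2 j : ℝ)| ≤ 2 * R) →
      (∀ q ∈ Q, ∃ N : ℤ, ∏ i, ell (θ i) q.2 = (N : 𝓞 L) ∧ R ^ d ≤ |(N : ℝ)|) →
      (∀ q ∈ Q, ∃ γ : Fin d → 𝓞 L, ∀ i,
        (c : 𝓞 L) ^ k * ((q.1 : 𝓞 L) - θ i) = ell (θ i) q.2 ^ k * γ i) →
      Q.card ≤ Cc * H ^ r := by
  classical
  obtain ⟨A, hA1, hAθ, hAd, hAs⟩ := exists_size L hd θ
  obtain ⟨D, hD⟩ := exists_relation k hk B hB
  obtain ⟨Cc, hCc⟩ := count_points d r D C1 hr hrd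
  set A' : ℝ := 3 * A + (Cs : ℝ) ^ k + A0 with hA'
  have hCs0 : (0 : ℝ) ≤ (Cs : ℝ) ^ k := by positivity
  have hA'1 : 1 ≤ A' := by linarith
  obtain ⟨K, hK, hdet⟩ := det_small k hk (ι := B) (fun f => f.1.1) (fun f => f.1.2)
    (fun f => hB f.1 f.2) A' hA'1
  refine ⟨K, Cc, hK, ?_⟩
  intro X R ρ V H hX hR hρ hρR hV hH hHρ hKV hm c y0 Q hc hcs hcube hinj hmult hn hy hN hγ
  rcases Q.eq_empty_or_nonempty with hQ | ⟨q0, hq0⟩
  · rw [hQ]; simp
  choose! Γ hΓ using hγ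
  have hz0 : ∀ (σ : L →+* ℂ) (i : Fin d), ‖σ (ell (θ i : L) y0)‖ ≤ A' * R := by
    intro σ i
    have h1 := hAd σ i y0 0 (3 * R) (by
      intro j
      have h2 := hcube q0 hq0 j
      have h3 := hy q0 hq0 j
      have h4 : (y0 j : ℝ) ≤ q0.2 j := by exact_mod_cast h2.1
      have h5 : (q0.2 j : ℝ) < y0 j + H := by exact_mod_cast h2.2
      rw [abs_le] at h3
      simp only [Pi.zero_apply, Int.cast_zero, sub_zero]
      rw [abs_le]
      constructor <;> linarith)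
    have h6 : σ (ell (θ i : L) (0 : Fin d → ℤ)) = 0 := by
      simp [ell]
    rw [h6, sub_zero] at h1
    refine h1.trans ?_
    nlinarith
  refine hCc L (fun i => (θ i : L)) (fun i j h => hθ (RingOfIntegers.ext h)) H hH y0 Q hcube hinj
    hmult ?_
  intro I hI
  have hne : ∀ q ∈ Q, ∀ i, ell (θ i : L) q.2 ≠ 0 := by
    intro q hq i h0
    obtain ⟨N, hN1, hN2⟩ := hN q hq
    have h1 : (ell (θ i) q.2 : 𝓞 L) = 0 := by
      apply RingOfIntegers.ext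
      exact (loc_map_ell (algebraMap (𝓞 L) L) (θ i) q.2).trans
        (h0.trans (map_zero (algebraMap (𝓞 L) L)).symm)
    have h2 : ((N : ℤ) : 𝓞 L) = 0 := by
      rw [← hN1]
      exact Finset.prod_eq_zero (Finset.mem_univ i) h1
    have h3 : N = 0 := by exact_mod_cast h2
    rw [h3] at hN2
    simp only [Int.cast_zero, abs_zero] at hN2
    have : 0 < R ^ d := by positivity
    linarith
  obtain ⟨F, hF0, hFd, hF⟩ := hD L (fun i => (θ (I i) : L)) ((c : L) ^ k)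
    (pow_ne_zero _ (by exact_mod_cast hc)) Q (fun q => q.1.1)
    (fun q i => ell (θ (I i) : L) q.1.2) (fun q i => (Γ q.1 (I i) : L))
    (fun q i => hne q.1 q.2 (I i)) (by
      intro q i
      have h1 := congrArg (algebraMap (𝓞 L) L) (hΓ q.1 q.2 (I i))
      simp only [map_mul, map_pow, map_sub, map_intCast, loc_map_ell] at h1
      exact h1.symm) (by
      intro φ
      set Mo : Matrix B B (𝓞 L) := Matrix.of fun q f =>
        fn k ((φ q).1.1 : 𝓞 L) (fun i => ell (θ (I i)) (φ q).1.2) (fun i => Γ (φ q).1 (I i))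
          f.1.1 f.1.2 with hMo
      have hmap : ∀ {S : Type} [CommRing S] (σ : 𝓞 L →+* S), σ Mo.det =
          (Matrix.of fun (q : B) (f : B) => fn k (((φ q).1.1 : ℤ) : S)
            (fun i => ell (σ (θ (I i))) (φ q).1.2) (fun i => σ (Γ (φ q).1 (I i)))
            f.1.1 f.1.2).det := by
        intro S _ σ
        rw [RingHom.map_det]
        congr 1
        ext q f
        simp only [hMo, RingHom.mapMatrix_apply, Matrix.map_apply, Matrix.of_apply, loc_map_fn,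
          loc_map_ell, map_intCast]
      have hzero : Mo.det = 0 := by
        apply eq_zero_of_conj_lt_one L
        intro σ
        have h1 := hmap (σ.comp (algebraMap (𝓞 L) L))
        have h2 : σ ((Mo.det : 𝓞 L) : L) = (σ.comp (algebraMap (𝓞 L) L)) Mo.det := rfl
        rw [h2, h1]
        refine lt_of_le_of_lt ?_ hKV
        refine hdet X R ρ V hX hR hρ hρR hV (fun i => σ (θ (I i) : L)) (((c : ℂ)) ^ k)
          (fun q => (((φ q).1.1 : ℤ) : ℂ)) _ _ (fun i => σ (ell (θ (I i) : L) y0)) ?_ ?_ ?_ ?_ ?_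
          ?_ ?_ ?_ hm
        · intro i
          refine (hAθ σ (I i)).trans ?_
          linarith
        · rw [norm_pow]
          have h3 : ‖(c : ℂ)‖ ≤ Cs := by
            rw [Complex.norm_intCast]
            exact_mod_cast hcs
          calc ‖(c : ℂ)‖ ^ k ≤ (Cs : ℝ) ^ k := pow_le_pow_left₀ (norm_nonneg _) h3 k
            _ ≤ A' := by linarith
        · intro q
          rw [Complex.norm_intCast]
          refine (hn _ (φ q).2).trans ?_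
          have : A0 ≤ A' := by linarith
          exact mul_le_mul_of_nonneg_right this (by linarith)
        · intro q i
          have h3 := hAd σ (I i) (φ q).1.2 y0 H (by
            intro j
            have h2 := hcube _ (φ q).2 j
            have h4 : (y0 j : ℝ) ≤ (φ q).1.2 j := by exact_mod_cast h2.1
            have h5 : ((φ q).1.2 j : ℝ) < y0 j + H := by exact_mod_cast h2.2
            rw [abs_le]
            constructor <;> linarith)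
          rw [loc_map_ell] at h3
          refine h3.trans ?_
          have h4 : A ≤ A' := by linarith
          exact mul_le_mul h4 hHρ (by positivity) (by linarith)
        · intro q i
          obtain ⟨N, hN1, hN2⟩ := hN _ (φ q).2
          have h3 := (hAs σ (I i) (φ q).1.2 R N hR (hy _ (φ q).2) hN1 hN2).2
          rw [loc_map_ell] at h3
          refine le_trans ?_ h3
          exact div_le_div_of_nonneg_left (by linarith) (by linarith) (by linarith)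
        · intro q i
          obtain ⟨N, hN1, hN2⟩ := hN _ (φ q).2
          have h3 := (hAs σ (I i) (φ q).1.2 R N hR (hy _ (φ q).2) hN1 hN2).1
          rw [loc_map_ell] at h3
          refine le_trans h3 ?_
          exact mul_le_mul_of_nonneg_right (by linarith) (by linarith)
        · intro i
          exact hz0 σ (I i)
        · intro q i
          have h3 := congrArg (σ.comp (algebraMap (𝓞 L) L)) (hΓ _ (φ q).2 (I i))
          simp only [map_mul, map_pow, map_sub, map_intCast, loc_map_ell] at h3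
          exact h3.symm
      have h1 := hmap (algebraMap (𝓞 L) L)
      rw [hzero, map_zero] at h1
      exact h1.symm)
  exact ⟨F, hF0, hFd, fun q hq => hF ⟨q, hq⟩⟩

theorem loc_mult_n (f : ℤ[X]) (hirr : Irreducible (f.map (Int.castRingHom ℚ))) (k : ℕ)
    (hk : 1 ≤ k) : ∃ D1 : ℕ, ∀ X P p : ℕ, X ≤ P → P < p → p.Prime →
      ((Finset.Icc 1 X).filter (fun n : ℕ => (p : ℤ) ^ k ∣ f.eval (n : ℤ))).card ≤ D1 := by
  obtain ⟨D, hD⟩ := sv_rho_bound f k hk hirr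
  refine ⟨D, fun X P p hXP hPp hp => le_trans ?_ (hD p hp)⟩
  unfold rho
  apply Finset.card_le_card
  intro n hn
  rw [Finset.mem_filter, Finset.mem_Icc] at hn
  rw [Finset.mem_filter, Finset.mem_range]
  refine ⟨?_, by push_cast; exact hn.2⟩
  have h1 : p ≤ p ^ k := Nat.le_self_pow (by omega) p
  omega

theorem loc_mult_p (f : ℤ[X]) (hirr : Irreducible (f.map (Int.castRingHom ℚ)))
    (hd : 2 ≤ f.natDegree) (k : ℕ) (hk : 1 ≤ k) : ∃ X1 : ℕ, ∀ X P : ℕ, X1 ≤ X → X ≤ P → ∀ n : ℕ,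
      ((pairs f k X P).filter (fun z => z.1 = n)).card ≤ f.natDegree := by
  classical
  refine ⟨cSum f + 2, fun X P hX hXP n => ?_⟩
  rcases ((pairs f k X P).filter (fun z => z.1 = n)).eq_empty_or_nonempty with h0 | ⟨z0, hz0⟩
  · rw [h0]; simp
  set F := (pairs f k X P).filter (fun z => z.1 = n) with hF
  have hmem : ∀ z ∈ F, z.1 = n ∧ 1 ≤ n ∧ n ≤ X ∧ P < z.2 ∧ z.2.Prime ∧
      (z.2 : ℤ) ^ k ∣ f.eval (n : ℤ) := by
    intro z hz
    rw [hF, Finset.mem_filter, pairs, Finset.mem_filter, Finset.mem_product, Finset.mem_Icc,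
      Finset.mem_Ioc] at hz
    obtain ⟨⟨⟨h1, h2⟩, h3, h4⟩, h5⟩ := hz
    rw [h5] at h1 h4
    exact ⟨h5, h1.1, h1.2, h2.1, h3, h4⟩
  have hcard : F.card = (F.image Prod.snd).card := by
    rw [Finset.card_image_of_injOn]
    intro x hx y hy hxy
    exact Prod.ext ((hmem x hx).1.trans (hmem y hy).1.symm) hxy
  have hdvd : ∏ p ∈ F.image Prod.snd, (p : ℤ) ^ k ∣ f.eval (n : ℤ) := by
    apply Finset.prod_dvd_of_coprime
    · intro p hp q hq hpq
      obtain ⟨z, hz, rfl⟩ := Finset.mem_image.1 (Finset.mem_coe.1 hp)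
      obtain ⟨w, hw, rfl⟩ := Finset.mem_image.1 (Finset.mem_coe.1 hq)
      apply IsCoprime.pow
      rw [Int.isCoprime_iff_gcd_eq_one]
      have := (Nat.coprime_primes (hmem z hz).2.2.2.2.1 (hmem w hw).2.2.2.2.1).2 hpq
      simpa [Int.gcd] using this
    · intro p hp
      obtain ⟨z, hz, rfl⟩ := Finset.mem_image.1 hp
      exact (hmem z hz).2.2.2.2.2
  have hne := eval_ne_zero_of_irreducible f hirr hd (n : ℤ)
  have h1 := Int.natAbs_dvd_natAbs.2 hdvd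
  have h2 := Nat.le_of_dvd (Int.natAbs_pos.2 hne) h1
  have h3 : (∏ p ∈ F.image Prod.snd, (p : ℤ) ^ k).natAbs = ∏ p ∈ F.image Prod.snd, p ^ k := by
    have : (∏ p ∈ F.image Prod.snd, (p : ℤ) ^ k) = ((∏ p ∈ F.image Prod.snd, p ^ k : ℕ) : ℤ) := by
      push_cast
      rfl
    rw [this, Int.natAbs_natCast]
  rw [h3] at h2
  have h4 : X ^ (F.image Prod.snd).card ≤ ∏ p ∈ F.image Prod.snd, p ^ k := by
    rw [← Finset.prod_const]
    apply Finset.prod_le_prod'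
    intro p hp
    obtain ⟨z, hz, rfl⟩ := Finset.mem_image.1 hp
    have h5 := (hmem z hz).2.2.2.1
    have h6 : z.2 ≤ z.2 ^ k := Nat.le_self_pow (by omega) _
    omega
  have h7 := abs_eval_le f (show 1 ≤ X by omega) (hmem z0 hz0).2.2.1
  have h8 : cSum f * X ^ f.natDegree < X ^ (f.natDegree + 1) := by
    rw [pow_succ, mul_comm]
    exact Nat.mul_lt_mul_of_pos_left (by omega) (Nat.pow_pos (by omega))
  have h9 : X ^ (F.image Prod.snd).card < X ^ (f.natDegree + 1) :=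
    lt_of_le_of_lt (h4.trans (h2.trans h7)) h8
  have h10 := (Nat.pow_lt_pow_iff_right (show 1 < X by omega)).1 h9
  rw [hcard]
  omega

/-- number of classes -/
theorem loc_count_classes {d : ℕ} (S : Finset (ℕ × ℕ)) (Y : ℕ × ℕ → Fin d → ℤ)
    (cc : ℕ × ℕ → ℤ) (Cs W H : ℕ) (R : ℝ) (hH : 1 ≤ H) (hHR : (H : ℝ) ≤ R)
    (hcc : ∀ z ∈ S, |cc z| ≤ Cs) (hY : ∀ z ∈ S, ∀ j, |(Y z j : ℝ)| ≤ 2 * R)
    (hW : ∀ κ : ℤ × (Fin d → ℤ),
      (S.filter (fun z => (cc z, fun j => Y z j / (H : ℤ)) = κ)).card ≤ W) :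
    (S.card : ℝ) ≤ W * ((2 * Cs + 1) * (9 * (R / H)) ^ d) := by
  classical
  have hHr : (1 : ℝ) ≤ H := by exact_mod_cast hH
  have hHz : (0 : ℤ) < (H : ℤ) := by exact_mod_cast hH
  set M : ℕ := ⌈2 * R / H⌉₊ + 1 with hM
  have hidx : ∀ z ∈ S, ∀ j, Y z j / (H : ℤ) ∈ Finset.Icc (-(M : ℤ)) M := by
    intro z hz j
    have h1 := hY z hz j
    have h2 := Nat.le_ceil (2 * R / H)
    rw [div_le_iff₀ (by linarith)] at h2
    rw [abs_le] at h1
    rw [Finset.mem_Icc]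
    constructor
    · rw [Int.le_ediv_iff_mul_le hHz]
      have h3 : (-(M : ℝ)) * H ≤ Y z j := by
        rw [hM]
        push_cast
        nlinarith
      exact_mod_cast h3
    · have h3 : (Y z j : ℝ) ≤ M * H := by
        rw [hM]
        push_cast
        nlinarith
      have h4 : Y z j ≤ M * H := by exact_mod_cast h3
      calc Y z j / (H : ℤ) ≤ (M * H) / (H : ℤ) := Int.ediv_le_ediv hHz h4
        _ = M := Int.mul_ediv_cancel _ hHz.ne'
  have hcard := Finset.card_le_mul_card_image_of_maps_to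
    (s := S) (t := (Finset.Icc (-(Cs : ℤ)) Cs) ×ˢ
      (Fintype.piFinset fun _ : Fin d => Finset.Icc (-(M : ℤ)) M))
    (f := fun z => (cc z, fun j => Y z j / (H : ℤ))) (by
      intro z hz
      rw [Finset.mem_product]
      refine ⟨?_, ?_⟩
      · rw [Finset.mem_Icc]
        exact abs_le.1 (hcc z hz)
      · rw [Fintype.mem_piFinset]
        exact hidx z hz) W (fun κ _ => hW κ)
  rw [Finset.card_product, Fintype.card_piFinset_const, Int.card_Icc, Int.card_Icc] at hcard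
  have h1 : ((Cs : ℤ) + 1 - -(Cs : ℤ)).toNat = 2 * Cs + 1 := by omega
  have h2 : ((M : ℤ) + 1 - -(M : ℤ)).toNat = 2 * M + 1 := by omega
  rw [h1, h2] at hcard
  have h3 : (S.card : ℝ) ≤ W * ((2 * Cs + 1) * (2 * M + 1) ^ d) := by exact_mod_cast hcard
  refine h3.trans ?_
  have h4 : (2 * (M : ℝ) + 1) ≤ 9 * (R / H) := by
    have h5 := Nat.ceil_lt_add_one (show 0 ≤ 2 * R / H by
      have : 0 ≤ R := by linarith
      positivity)
    have h6 : 1 ≤ R / H := by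
      rw [le_div_iff₀ (by linarith)]
      linarith
    have h7 : 2 * R / H = 2 * (R / H) := by ring
    rw [h7] at h5
    rw [hM]
    push_cast
    rw [h7]
    linarith
  have h8 : (2 * (M : ℝ) + 1) ^ d ≤ (9 * (R / H)) ^ d :=
    pow_le_pow_left₀ (by positivity) h4 d
  gcongr

/-- one class -/
theorem loc_cls {d : ℕ} (f : ℤ[X]) (k X P D1 Cc H r : ℕ) (a0 : ℤ) (ha0 : a0 ≠ 0)
    (L : Type) [Field L] [NumberField L] (θ : Fin d → 𝓞 L)
    (hXP : X ≤ P)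
    (hD1 : ∀ X P p : ℕ, X ≤ P → P < p → p.Prime →
      ((Finset.Icc 1 X).filter (fun n : ℕ => (p : ℤ) ^ k ∣ f.eval (n : ℤ))).card ≤ D1)
    (hX1 : ∀ n : ℕ, ((pairs f k X P).filter (fun z => z.1 = n)).card ≤ d)
    (A0 R : ℝ) (hR0 : 0 ≤ R) (hRd : R ^ d = P) (hA0 : |(a0 : ℝ)| ≤ A0)
    (Y : ℕ × ℕ → Fin d → ℤ) (cc : ℕ × ℕ → ℤ) (Γ : ℕ × ℕ → Fin d → 𝓞 L) (Cs : ℕ)
    (hcc0 : ∀ z ∈ pairs f k X P, cc z ≠ 0) (hccs : ∀ z ∈ pairs f k X P, |cc z| ≤ Cs)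
    (hY : ∀ z ∈ pairs f k X P, ∀ j, |(Y z j : ℝ)| ≤ 2 * R)
    (hN : ∀ z ∈ pairs f k X P, ∏ i, ell (θ i) (Y z) = (((z.2 : ℤ) * cc z : ℤ) : 𝓞 L))
    (hΓ : ∀ z ∈ pairs f k X P, ∀ i, (cc z : 𝓞 L) ^ k * (((a0 * z.1 : ℤ) : 𝓞 L) - θ i) =
      ell (θ i) (Y z) ^ k * Γ z i)
    (hclass : ∀ (c : ℤ) (y0 : Fin d → ℤ) (Q : Finset (ℤ × (Fin d → ℤ))), c ≠ 0 → |c| ≤ Cs →
      (∀ q ∈ Q, ∀ j, y0 j ≤ q.2 j ∧ q.2 j < y0 j + H) →
      (∀ q ∈ Q, ∀ q' ∈ Q, q.2 = q'.2 → q = q') →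
      (∀ n : ℤ, (Q.filter (fun q => q.1 = n)).card ≤ d) →
      (∀ q ∈ Q, |(q.1 : ℝ)| ≤ A0 * X) →
      (∀ q ∈ Q, ∀ j, |(q.2 j : ℝ)| ≤ 2 * R) →
      (∀ q ∈ Q, ∃ N : ℤ, ∏ i, ell (θ i) q.2 = (N : 𝓞 L) ∧ R ^ d ≤ |(N : ℝ)|) →
      (∀ q ∈ Q, ∃ γ : Fin d → 𝓞 L, ∀ i,
        (c : 𝓞 L) ^ k * ((q.1 : 𝓞 L) - θ i) = ell (θ i) q.2 ^ k * γ i) →
      Q.card ≤ Cc * H ^ r) (hH : 1 ≤ H) (κ : ℤ × (Fin d → ℤ)) :
    ((pairs f k X P).filter (fun z => (cc z, fun j => Y z j / (H : ℤ)) = κ)).card ≤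
      D1 * (Cc * H ^ r) := by
  classical
  have hHz : (0 : ℤ) < (H : ℤ) := by exact_mod_cast hH
  have hmem : ∀ z ∈ pairs f k X P, 1 ≤ z.1 ∧ z.1 ≤ X ∧ P < z.2 ∧ z.2 ≤ 2 * P ∧ z.2.Prime ∧
      (z.2 : ℤ) ^ k ∣ f.eval (z.1 : ℤ) := by
    intro z hz
    rw [pairs, Finset.mem_filter, Finset.mem_product, Finset.mem_Icc, Finset.mem_Ioc] at hz
    exact ⟨hz.1.1.1, hz.1.1.2, hz.1.2.1, hz.1.2.2, hz.2.1, hz.2.2⟩
  set Sκ := (pairs f k X P).filter (fun z => (cc z, fun j => Y z j / (H : ℤ)) = κ) with hSκ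
  have hS : ∀ z ∈ Sκ, z ∈ pairs f k X P ∧ cc z = κ.1 ∧ ∀ j, Y z j / (H : ℤ) = κ.2 j := by
    intro z hz
    rw [hSκ, Finset.mem_filter] at hz
    refine ⟨hz.1, ?_, fun j => ?_⟩
    · rw [← hz.2]
    · rw [← hz.2]
  have h1 : Sκ.card ≤ D1 * (Sκ.image Y).card := by
    apply Finset.card_le_mul_card_image
    intro y hy
    obtain ⟨z0, hz0, rfl⟩ := Finset.mem_image.1 hy
    refine le_trans ?_ (hD1 X P z0.2 hXP (hmem z0 (hS z0 hz0).1).2.2.1
      (hmem z0 (hS z0 hz0).1).2.2.2.2.1)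
    have hp : ∀ z ∈ Sκ.filter (fun z => Y z = Y z0), z.2 = z0.2 := by
      intro z hz
      rw [Finset.mem_filter] at hz
      have e1 := hN z (hS z hz.1).1
      have e2 := hN z0 (hS z0 hz0).1
      rw [hz.2, e2] at e1
      have e3 : (z0.2 : ℤ) * cc z0 = (z.2 : ℤ) * cc z := by exact_mod_cast e1
      rw [(hS z hz.1).2.1, (hS z0 hz0).2.1] at e3
      have e4 : κ.1 ≠ 0 := by
        rw [← (hS z0 hz0).2.1]
        exact hcc0 z0 (hS z0 hz0).1
      have e5 := mul_right_cancel₀ e4 e3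
      exact_mod_cast e5.symm
    apply Finset.card_le_card_of_injOn Prod.fst
    · intro z hz
      have hz' := Finset.mem_coe.1 hz
      have hz2 := hp z hz'
      rw [Finset.mem_filter] at hz'
      have hz3 := hmem z (hS z hz'.1).1
      rw [Finset.mem_coe, Finset.mem_filter, Finset.mem_Icc]
      rw [hz2] at hz3
      exact ⟨⟨hz3.1, hz3.2.1⟩, hz3.2.2.2.2.2⟩
    · intro z hz w hw hzw
      exact Prod.ext hzw ((hp z hz).trans (hp w hw).symm)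
  refine h1.trans (Nat.mul_le_mul_left _ ?_)
  rcases Sκ.eq_empty_or_nonempty with h0 | ⟨z0, hz0⟩
  · rw [h0]; simp
  have hg : ∀ y ∈ Sκ.image Y, ∃ z ∈ Sκ, Y z = y := fun y hy => Finset.mem_image.1 hy
  choose! g hg1 hg2 using hg
  set Q : Finset (ℤ × (Fin d → ℤ)) := (Sκ.image Y).image (fun y => ((a0 * (g y).1 : ℤ), y)) with hQ
  have hQcard : (Sκ.image Y).card = Q.card := by
    rw [hQ]
    exact (Finset.card_image_of_injective _ (fun x y hxy => (Prod.ext_iff.1 hxy).2)).symm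
  have hQm : ∀ q ∈ Q, ∃ z ∈ Sκ, q = ((a0 * z.1 : ℤ), Y z) ∧ z = g q.2 := by
    intro q hq
    obtain ⟨y, hy, rfl⟩ := Finset.mem_image.1 hq
    exact ⟨g y, hg1 y hy, by rw [hg2 y hy], rfl⟩
  rw [hQcard]
  apply hclass κ.1 (fun j => H * κ.2 j) Q
  · rw [← (hS z0 hz0).2.1]
    exact hcc0 z0 (hS z0 hz0).1
  · rw [← (hS z0 hz0).2.1]
    exact hccs z0 (hS z0 hz0).1
  · intro q hq j
    obtain ⟨z, hz, rfl, -⟩ := hQm q hq
    have h2 := (hS z hz).2.2 j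
    have h3 := Int.emod_add_mul_ediv (Y z j) H
    have h4 := Int.emod_nonneg (Y z j) hHz.ne'
    have h5 := Int.emod_lt_of_pos (Y z j) hHz
    simp only
    rw [← h2]
    constructor <;> linarith
  · intro q hq q' hq' h
    obtain ⟨z, hz, e1, e2⟩ := hQm q hq
    obtain ⟨z', hz', e1', e2'⟩ := hQm q' hq'
    rw [e1, e1', e2, e2', h]
  · intro n
    rcases (Q.filter (fun q => q.1 = n)).eq_empty_or_nonempty with h0 | ⟨q1, hq1⟩
    · rw [h0]; simp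
    · rw [Finset.mem_filter] at hq1
      obtain ⟨z1, hz1, e1, -⟩ := hQm q1 hq1.1
      refine le_trans ?_ (hX1 z1.1)
      apply Finset.card_le_card_of_injOn (fun q => g q.2)
      · intro q hq
        have hq' := Finset.mem_coe.1 hq
        rw [Finset.mem_filter] at hq'
        obtain ⟨z, hz, e2, e3⟩ := hQm q hq'.1
        rw [Finset.mem_coe, Finset.mem_filter]
        simp only
        rw [← e3]
        refine ⟨(hS z hz).1, ?_⟩
        have e4 : a0 * (z.1 : ℤ) = a0 * (z1.1 : ℤ) := by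
          have e5 : q.1 = a0 * (z.1 : ℤ) := by rw [e2]
          have e6 : q1.1 = a0 * (z1.1 : ℤ) := by rw [e1]
          rw [← e5, ← e6, hq'.2, hq1.2]
        exact_mod_cast mul_left_cancel₀ ha0 e4
      · intro q hq w hw hqw
        have hq' := Finset.mem_coe.1 hq
        have hw' := Finset.mem_coe.1 hw
        rw [Finset.mem_filter] at hq' hw'
        obtain ⟨z, hz, e2, e3⟩ := hQm q hq'.1
        obtain ⟨z', hz', e2', e3'⟩ := hQm w hw'.1
        simp only at hqw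
        rw [e2, e2', e3, e3', hqw]
  · intro q hq
    obtain ⟨z, hz, rfl, -⟩ := hQm q hq
    have h2 : (z.1 : ℝ) ≤ X := by exact_mod_cast (hmem z (hS z hz).1).2.1
    simp only
    push_cast
    rw [abs_mul, abs_of_nonneg (show (0 : ℝ) ≤ (z.1 : ℝ) by positivity)]
    exact mul_le_mul hA0 h2 (by positivity) (le_trans (abs_nonneg _) hA0)
  · intro q hq j
    obtain ⟨z, hz, rfl, -⟩ := hQm q hq
    exact hY z (hS z hz).1 j
  · intro q hq
    obtain ⟨z, hz, rfl, -⟩ := hQm q hq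
    refine ⟨(z.2 : ℤ) * cc z, hN z (hS z hz).1, ?_⟩
    have h2 : (P : ℝ) < z.2 := by exact_mod_cast (hmem z (hS z hz).1).2.2.1
    have h3 : (1 : ℝ) ≤ |(cc z : ℝ)| := by
      have := Int.one_le_abs (hcc0 z (hS z hz).1)
      exact_mod_cast this
    rw [hRd]
    push_cast
    rw [abs_mul, abs_of_nonneg (show (0 : ℝ) ≤ (z.2 : ℝ) by positivity)]
    nlinarith
  · intro q hq
    obtain ⟨z, hz, rfl, -⟩ := hQm q hq
    refine ⟨Γ z, fun i => ?_⟩
    rw [← (hS z hz).2.1]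
    exact hΓ z (hS z hz).1 i

/-- real-variable facts on the cube side -/
theorem loc_params (d r : ℕ) (hd : 3 ≤ d) (hr : 1 ≤ r) (hrd : r ≤ d) (a b ε η : ℝ) (hb : 0 < b)
    (hη : η = (1 - (a * r / d + b * (d - r))) / 2) (hη0 : 0 < η) (hε2 : ε ≤ a - b * d)
    (hεη : ε ≤ η) (X P : ℝ) (hX : 1 ≤ X) (hXP : X ≤ P) (hP1 : X ^ (a - ε) ≤ P)
    (hP2 : P ≤ X ^ (a + ε)) :
    ∃ R ρ : ℝ, ∃ H : ℕ, R = P ^ (1 / d : ℝ) ∧ 1 ≤ R ∧ R ^ d = P ∧ 0 < ρ ∧ ρ ≤ R ∧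
      ρ / R = X ^ (-b) ∧ 1 ≤ H ∧ (H : ℝ) ≤ ρ ∧
      ((H : ℝ) ^ r * (R / H) ^ d ≤ 2 ^ d * X ^ (1 - η)) := by
  have hdr : (3 : ℝ) ≤ d := by exact_mod_cast hd
  have hrdr : (r : ℝ) ≤ d := by exact_mod_cast hrd
  have hXr0 : (0 : ℝ) < X := by linarith
  have hP0 : (0 : ℝ) < P := by linarith
  have hP1r : (1 : ℝ) ≤ P := by linarith
  set l := Real.log X with hl
  set q := Real.log P with hq
  have hl0 : 0 ≤ l := Real.log_nonneg hX
  have hq1 : (a - ε) * l ≤ q := by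
    have := Real.log_le_log (by positivity) hP1
    rwa [Real.log_rpow hXr0] at this
  have hq2 : q ≤ (a + ε) * l := by
    have := Real.log_le_log hP0 hP2
    rwa [Real.log_rpow hXr0] at this
  set R : ℝ := P ^ (1 / d : ℝ) with hR
  have hR1 : 1 ≤ R := Real.one_le_rpow hP1r (by positivity)
  have hRd : R ^ d = P := by
    rw [hR, ← Real.rpow_natCast, ← Real.rpow_mul hP0.le]
    rw [one_div, inv_mul_cancel₀ (by linarith), Real.rpow_one]
  have hRexp : R = Real.exp (q / d) := by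
    rw [hR, Real.rpow_def_of_pos hP0]
    congr 1
    ring
  have hXb : X ^ (-b) = Real.exp (-(b * l)) := by
    rw [Real.rpow_def_of_pos hXr0]
    congr 1
    ring
  set ρ : ℝ := R * X ^ (-b) with hρ
  have hρexp : ρ = Real.exp (q / d - b * l) := by
    rw [hρ, hRexp, hXb, ← Real.exp_add]
    congr 1
  have hρ0 : 0 < ρ := by rw [hρexp]; exact Real.exp_pos _
  have hρR : ρ ≤ R := by
    rw [hρ]
    have : X ^ (-b) ≤ 1 := Real.rpow_le_one_of_one_le_of_nonpos hX (by linarith)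
    calc R * X ^ (-b) ≤ R * 1 := mul_le_mul_of_nonneg_left this (by linarith)
      _ = R := mul_one _
  have hρdiv : ρ / R = X ^ (-b) := by
    rw [hρ, mul_comm, mul_div_assoc, div_self (by linarith), mul_one]
  have hρ1 : 1 ≤ ρ := by
    rw [hρexp]
    apply Real.one_le_exp
    have h1 : b * d * l ≤ q := by
      have : b * d * l ≤ (a - ε) * l := mul_le_mul_of_nonneg_right (by linarith) hl0
      linarith
    rw [sub_nonneg, le_div_iff₀ (by linarith)]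
    linarith
  have hH1 : 1 ≤ ⌊ρ⌋₊ := (Nat.one_le_floor_iff ρ).2 hρ1
  have hHρ : ((⌊ρ⌋₊ : ℕ) : ℝ) ≤ ρ := Nat.floor_le hρ0.le
  have hH2 : ρ / 2 ≤ (⌊ρ⌋₊ : ℕ) := by
    have h1 := Nat.lt_floor_add_one ρ
    have h2 : (1 : ℝ) ≤ (⌊ρ⌋₊ : ℕ) := by exact_mod_cast hH1
    linarith
  refine ⟨R, ρ, ⌊ρ⌋₊, rfl, hR1, hRd, hρ0, hρR, hρdiv, hH1, hHρ, ?_⟩
  have hHp : (0 : ℝ) < (⌊ρ⌋₊ : ℕ) := by
    have h2 : (1 : ℝ) ≤ (⌊ρ⌋₊ : ℕ) := by exact_mod_cast hH1
    linarith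
  -- `H^r (R/H)^d ≤ 2^d * ρ^r (R/ρ)^d`
  have h1 : ((⌊ρ⌋₊ : ℕ) : ℝ) ^ r * (R / (⌊ρ⌋₊ : ℕ)) ^ d ≤ ρ ^ r * (2 * (R / ρ)) ^ d := by
    have h2 : R / (⌊ρ⌋₊ : ℕ) ≤ 2 * (R / ρ) := by
      rw [div_le_iff₀ hHp]
      have h3 : 2 * (R / ρ) * (ρ / 2) = R := by field_simp
      have h4 : 0 ≤ 2 * (R / ρ) := by positivity
      calc R = 2 * (R / ρ) * (ρ / 2) := h3.symm
        _ ≤ _ := mul_le_mul_of_nonneg_left hH2 h4
    gcongr
  refine h1.trans ?_
  rw [mul_pow (2 : ℝ)]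
  have h5 : ρ ^ r * (R / ρ) ^ d ≤ X ^ (1 - η) := by
    have h6 : R / ρ = Real.exp (b * l) := by
      rw [hRexp, hρexp, ← Real.exp_sub]
      congr 1
      ring
    rw [h6, hρexp, ← Real.exp_nat_mul, ← Real.exp_nat_mul, ← Real.exp_add,
      Real.rpow_def_of_pos hXr0, Real.exp_le_exp]
    have h7 : (r : ℝ) * (q / d - b * l) + d * (b * l) = q * (r / d) + b * (d - r) * l := by ring
    rw [h7]
    have h8 : q * (r / d) ≤ (a + ε) * l * (r / d) :=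
      mul_le_mul_of_nonneg_right hq2 (by positivity)
    have h9 : ε * (r / d) ≤ η := by
      have h10 : (r : ℝ) / d ≤ 1 := by
        rw [div_le_one (by linarith)]
        exact hrdr
      have h11 : (0 : ℝ) ≤ r / d := by positivity
      rcases le_total 0 ε with h | h
      · calc ε * (r / d) ≤ ε * 1 := mul_le_mul_of_nonneg_left h10 h
          _ = ε := mul_one _
          _ ≤ η := hεη
      · exact (mul_nonpos_of_nonpos_of_nonneg h h11).trans hη0.le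
    have h12 : (a + ε) * l * (r / d) = (a * r / d + ε * (r / d)) * l := by ring
    have h13 : a * r / d + b * (d - r) = 1 - 2 * η := by rw [hη]; ring
    rw [h12] at h8
    have h14 : (a * r / d + ε * (r / d)) * l + b * (d - r) * l ≤ (1 - η) * l := by
      rw [← add_mul]
      apply mul_le_mul_of_nonneg_right _ hl0
      linarith
    calc q * (r / d) + b * (d - r) * l ≤ (1 - η) * l := by linarith
      _ = Real.log X * (1 - η) := by ring
  calc ρ ^ r * (2 ^ d * (R / ρ) ^ d) = 2 ^ d * (ρ ^ r * (R / ρ) ^ d) := by ring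
    _ ≤ _ := mul_le_mul_of_nonneg_left h5 (by positivity)

theorem loc_KV (Kd δ : ℝ) (hKd : 0 < Kd) (hδ : 0 < δ) (X : ℕ) (hXr0 : (0 : ℝ) < X)
    (hXK : ⌈(Kd) ^ (1 / δ)⌉₊ + 2 ≤ X) : Kd * (X : ℝ) ^ (-δ) < 1 := by
  rw [Real.rpow_neg hXr0.le, mul_inv_lt_iff₀ (by positivity), one_mul]
  have h1 : Kd ^ (1 / δ) < X := by
    have h2 := Nat.le_ceil (Kd ^ (1 / δ))
    have h3 : ((⌈(Kd) ^ (1 / δ)⌉₊ + 2 : ℕ) : ℝ) ≤ X := by exact_mod_cast hXK
    push_cast at h3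
    linarith
  calc Kd = (Kd ^ (1 / δ)) ^ δ := by
        rw [← Real.rpow_mul hKd.le, one_div, inv_mul_cancel₀ hδ.ne', Real.rpow_one]
    _ < (X : ℝ) ^ δ := Real.rpow_lt_rpow (by positivity) h1 hδ

theorem local_bound (f : ℤ[X]) (hirr : Irreducible (f.map (Int.castRingHom ℚ))) (k : ℕ)
    (hk : 2 ≤ k) (hkd : k < f.natDegree) (a : ℝ) (ha : 1 ≤ a) (r : ℕ) (hr : 1 ≤ r)
    (hrd : r ≤ f.natDegree) (b : ℝ) (hb : 0 < b) (hba : b < a / f.natDegree) (T : ℕ)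
    (lam : ℕ → ℝ) (hlam : Antitone lam) (B : Finset (ℕ × (Fin r → ℤ)))
    (hB : ∀ p ∈ B, p.1 ≤ T ∧ needs k p.2 ≤ p.1) (V : ℝ)
    (hV : ∀ T' : Finset (ℕ × (Fin r → ℕ)), (∀ τ ∈ T', τ.1 ≤ T) →
      ∑ τ ∈ T', (lam τ.1 + τ.1 - b * ∑ i, (τ.2 i : ℝ)) ≤ V)
    (hcrit : V < ∑ p ∈ B, (lam p.1 - a / f.natDegree * ∑ i, (p.2 i : ℝ)))
    (hfin : a * r / f.natDegree + b * (f.natDegree - r) < 1) :
    ∃ ε η K : ℝ, 0 < ε ∧ 0 < η ∧ 0 < K ∧ ∃ X0 : ℕ, ∀ X P : ℕ, X0 ≤ X → X ≤ P →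
      (X : ℝ) ^ (a - ε) ≤ P → (P : ℝ) ≤ (X : ℝ) ^ (a + ε) →
      ((pairs f k X P).card : ℝ) ≤ K * (X : ℝ) ^ (1 - η) := by
  classical
  obtain ⟨L, _, _, θ, G, a0, ha0, hGm, hGd, hGi, hθ, hGθ, hGe⟩ := exists_field f hirr (by omega)
  have hdr : (3 : ℝ) ≤ f.natDegree := by exact_mod_cast (show 3 ≤ f.natDegree by omega)
  obtain ⟨Cs, hCs1, hsmall⟩ := exists_small L (by omega) G hGm hGd hGi θ hGθ k (by omega)
  obtain ⟨D1, hD1⟩ := loc_mult_n f hirr k (by omega)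
  obtain ⟨X1, hX1⟩ := loc_mult_p f hirr (by omega) k (by omega)
  obtain ⟨Kd, Cc, hKd, hclass⟩ := loc_class L (by omega) θ hθ k (by omega) r hr hrd B
    (fun p hp => (hB p hp).2) (|(a0 : ℝ)| + 1) (by linarith [abs_nonneg (a0 : ℝ)]) Cs
    f.natDegree
  obtain ⟨ε1, hε1, δ, hδ, hprod⟩ := loc_prod_le f.natDegree (by omega) a b T lam hlam B
    (fun p hp => (hB p hp).1) V hV hcrit
  obtain ⟨η, hη⟩ : ∃ η : ℝ, η = (1 - (a * r / f.natDegree + b * (f.natDegree - r))) / 2 := ⟨_, rfl⟩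
  have hη0 : 0 < η := by rw [hη]; linarith
  have hε20 : 0 < a - b * f.natDegree := by
    have := (lt_div_iff₀ (show (0 : ℝ) < f.natDegree by linarith)).1 hba
    linarith
  refine ⟨min ε1 (min (a - b * f.natDegree) η), η,
    (D1 : ℝ) * Cc * (2 * Cs + 1) * 9 ^ f.natDegree * 2 ^ f.natDegree + 1,
    lt_min hε1 (lt_min hε20 hη0), hη0, by positivity,
    max (max X1 (Cs + 2)) (⌈(Kd) ^ (1 / δ)⌉₊ + 2), ?_⟩
  intro X P hX hXP hP1 hP2
  have hXX1 : X1 ≤ X := le_trans (le_trans (le_max_left _ _) (le_max_left _ _)) hX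
  have hXCs : Cs + 2 ≤ X := le_trans (le_trans (le_max_right _ _) (le_max_left _ _)) hX
  have hXK : ⌈(Kd) ^ (1 / δ)⌉₊ + 2 ≤ X := le_trans (le_max_right _ _) hX
  have hX2 : (2 : ℝ) ≤ X := by exact_mod_cast (show 2 ≤ X by omega)
  have hXr1 : (1 : ℝ) ≤ X := by linarith
  have hXr0 : (0 : ℝ) < X := by linarith
  have hXPr : (X : ℝ) ≤ P := by exact_mod_cast hXP
  obtain ⟨R, ρ, H, hR, hR1, hRd, hρ0, hρR, hρdiv, hH1, hHρ, hfinal⟩ :=
    loc_params f.natDegree r (by omega) hr hrd a b (min ε1 (min (a - b * f.natDegree) η)) η hb hη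
      hη0 ((min_le_right _ _).trans (min_le_left _ _))
      ((min_le_right _ _).trans (min_le_right _ _)) X P hXr1 hXPr hP1 hP2
  have hmin : min ε1 (min (a - b * f.natDegree) η) ≤ ε1 := min_le_left _ _
  have hKV : Kd * (X : ℝ) ^ (-δ) < 1 := loc_KV Kd δ hKd hδ X hXr0 hXK
  have hm : ∀ m : B → ℕ × (Fin r → ℕ), Function.Injective m → (∀ f, (m f).1 ≤ f.1.1) →
      ∏ f, (R ^ (∑ i, f.1.2 i : ℤ) * (X : ℝ) ^ (m f).1 * (ρ / R) ^ (∑ i, (m f).2 i)) ≤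
        (X : ℝ) ^ (-δ) := by
    intro m hm1 hm2
    rw [hρdiv, hR]
    refine hprod X P hXr1 (by linarith) ?_ ?_ m hm1 hm2
    · exact (Real.rpow_le_rpow_of_exponent_le hXr1 (by linarith [hmin])).trans hP1
    · exact hP2.trans (Real.rpow_le_rpow_of_exponent_le hXr1 (by linarith [hmin]))
  -- data attached to a pair
  have hdata : ∀ z ∈ pairs f k X P, ∃ (y : Fin f.natDegree → ℤ) (c : ℤ)
      (γ : Fin f.natDegree → 𝓞 L),
      (∀ j, |(y j : ℝ)| ≤ 2 * R) ∧ c ≠ 0 ∧ |c| ≤ Cs ∧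
        (∏ i, ell (θ i) y = (((z.2 : ℤ) * c : ℤ) : 𝓞 L)) ∧
        ∀ i, (c : 𝓞 L) ^ k * (((a0 * z.1 : ℤ) : 𝓞 L) - θ i) = ell (θ i) y ^ k * γ i := by
    intro z hz
    rw [pairs, Finset.mem_filter, Finset.mem_product, Finset.mem_Icc, Finset.mem_Ioc] at hz
    obtain ⟨⟨h1, h2⟩, h3, h4⟩ := hz
    obtain ⟨y, c, γ, -, h5, h6, h7, h8, h9⟩ := hsmall z.2 (a0 * z.1) h3 (by omega) (by
      rw [hGe]
      exact h4.mul_left _)
    refine ⟨y, c, γ, fun j => ?_, h6, h7, h8, h9⟩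
    have h10 : |(y j : ℝ)| ^ f.natDegree ≤ (2 * R) ^ f.natDegree := by
      have h11 : (|(y j : ℝ)|) ^ f.natDegree ≤ (z.2 : ℝ) := by exact_mod_cast h5 j
      have h12 : (z.2 : ℝ) ≤ 2 * P := by exact_mod_cast h2.2
      rw [mul_pow, hRd]
      have h13 : (2 : ℝ) ≤ 2 ^ f.natDegree := by
        calc (2 : ℝ) = 2 ^ 1 := by norm_num
          _ ≤ 2 ^ f.natDegree := pow_le_pow_right₀ (by norm_num) (by omega)
      nlinarith
    exact (pow_le_pow_iff_left₀ (abs_nonneg _) (by linarith) (by omega)).1 h10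
  choose! Y cc Γ hY hcc0 hccs hN hΓ using hdata
  have hcount := loc_count_classes (pairs f k X P) Y cc Cs (D1 * (Cc * H ^ r)) H R hH1
    (hHρ.trans hρR) hccs hY (fun κ => loc_cls f k X P D1 Cc H r a0 ha0 L θ hXP hD1
      (hX1 X P hXX1 hXP) (|(a0 : ℝ)| + 1) R (by linarith) hRd (by linarith) Y cc Γ Cs hcc0 hccs
      hY hN hΓ (fun c y0 Q h1 h2 h3 h4 h5 h6 h7 h8 h9 =>
        hclass X R ρ ((X : ℝ) ^ (-δ)) H hXr1 hR1 hρ0 hρR (by positivity) hH1 hHρ hKV hm c y0 Q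
          h1 h2 h3 h4 h5 h6 h7 h8 h9) hH1 κ)
  refine hcount.trans ?_
  push_cast
  have h20 : (D1 : ℝ) * (Cc * H ^ r) * ((2 * Cs + 1) * (9 * (R / H)) ^ f.natDegree) =
      (D1 : ℝ) * Cc * (2 * Cs + 1) * 9 ^ f.natDegree *
        ((H : ℝ) ^ r * (R / H) ^ f.natDegree) := by
    rw [mul_pow]
    ring
  rw [h20]
  have h21 : (D1 : ℝ) * Cc * (2 * Cs + 1) * 9 ^ f.natDegree *
        ((H : ℝ) ^ r * (R / H) ^ f.natDegree) ≤
      (D1 : ℝ) * Cc * (2 * Cs + 1) * 9 ^ f.natDegree * (2 ^ f.natDegree * (X : ℝ) ^ (1 - η)) :=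
    mul_le_mul_of_nonneg_left hfinal (by positivity)
  refine h21.trans ?_
  have h22 : 0 ≤ (X : ℝ) ^ (1 - η) := by positivity
  nlinarith

end Vale.Agent.P018.K
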